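import Vale.Agent.P226.Full.Defs

/-! Task P226-G: Gaussian marginals, Cameron-Martin, wedge integral. -/

namespace Vale.Agent.P226

open MeasureTheory ProbabilityTheory Real Set Filter Topology

namespace OrthoAux

/-- The law of a family of linear forms depends only on the Gram matrix. -/
lemma map_gram {d d' n : ℕ} (e : Fin n → E d) (f : Fin n → E d')
    (h : ∀ i j, (inner ℝ (e i) (e j) : ℝ) = inner ℝ (f i) (f j)) :
    (stdGaussian (E d)).map (fun x => fun i => inner ℝ x (e i)) =
      (stdGaussian (E d')).map (fun x => fun i => (inner ℝ x (f i) : ℝ)) := by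
  have key : (stdGaussian (E d)).map (fun x => WithLp.toLp 2 fun i => (inner ℝ x (e i) : ℝ)) =
      (stdGaussian (E d')).map (fun x => WithLp.toLp 2 fun i => (inner ℝ x (f i) : ℝ)) := by
    have gen : ∀ {D : ℕ} (g : Fin n → E D) (t : EuclideanSpace ℝ (Fin n)),
        charFun ((stdGaussian (E D)).map (fun x => WithLp.toLp 2 fun i => (inner ℝ x (g i) : ℝ))) t
          = Complex.exp (- ‖∑ i, t i • g i‖ ^ 2 / 2) := by
      intro D g t
      rw [← charFun_stdGaussian, charFun_apply, charFun_apply, integral_map (by fun_prop)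
        (by fun_prop)]
      apply integral_congr_ae
      filter_upwards with x
      congr 3
      rw [PiLp.inner_apply, inner_sum]
      apply Finset.sum_congr rfl
      intro i _
      rw [inner_smul_right]
      simp
    have : IsProbabilityMeasure ((stdGaussian (E d)).map
        (fun x => WithLp.toLp 2 fun i => (inner ℝ x (e i) : ℝ))) :=
      Measure.isProbabilityMeasure_map (by fun_prop)
    have : IsProbabilityMeasure ((stdGaussian (E d')).map
        (fun x => WithLp.toLp 2 fun i => (inner ℝ x (f i) : ℝ))) :=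
      Measure.isProbabilityMeasure_map (by fun_prop)
    apply Measure.ext_of_charFun
    ext t
    rw [gen, gen]
    have h1 : ‖∑ i, t i • e i‖ ^ 2 = ‖∑ i, t i • f i‖ ^ 2 := by
      rw [← real_inner_self_eq_norm_sq, ← real_inner_self_eq_norm_sq]
      simp only [sum_inner, inner_sum, real_inner_smul_left, inner_smul_right, h]
    have h2 : ((‖∑ i, t i • e i‖ : ℂ)) ^ 2 = ((‖∑ i, t i • f i‖ : ℂ)) ^ 2 := by
      exact_mod_cast h1
    rw [h2]
  have h3 := congrArg (fun μ : Measure (EuclideanSpace ℝ (Fin n)) => μ.map WithLp.ofLp) key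
  simp only at h3
  rw [Measure.map_map (by fun_prop) (by fun_prop), Measure.map_map (by fun_prop) (by fun_prop)] at h3
  exact h3

lemma map_ofLp_stdGaussian (n : ℕ) :
    (stdGaussian (E n)).map (fun x => fun i => x i) =
      Measure.pi (fun _ : Fin n => gaussianReal 0 1) := by
  have h := map_pi_eq_stdGaussian (ι := Fin n)
  have h3 := congrArg (fun μ : Measure (EuclideanSpace ℝ (Fin n)) => μ.map WithLp.ofLp) h
  simp only at h3
  rw [Measure.map_map (by fun_prop) (by fun_prop)] at h3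
  have h4 : (WithLp.ofLp ∘ WithLp.toLp 2 : (Fin n → ℝ) → (Fin n → ℝ)) = id := by
    funext x; rfl
  rw [h4, Measure.map_id] at h3
  exact h3.symm

end OrthoAux

open OrthoAux in
theorem map_ortho {d n : ℕ} (e : Fin n → E d) (he : Orthonormal ℝ e) :
    (stdGaussian (E d)).map (fun x => fun i => inner ℝ x (e i))
      = Measure.pi (fun _ : Fin n => gaussianReal 0 1) := by
  rw [← map_ofLp_stdGaussian]
  rw [map_gram e (fun i => EuclideanSpace.single i (1 : ℝ)) ?_]
  · congr 1
    funext x i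
    rw [EuclideanSpace.inner_single_right]
    simp
  · intro i j
    have h1 := orthonormal_iff_ite.mp he i j
    have h2 := orthonormal_iff_ite.mp (EuclideanSpace.orthonormal_single (𝕜 := ℝ) (ι := Fin n)) i j
    rw [h1, h2]


namespace OrthoAux

lemma gQ_le_one (t : ℝ) : gQ t ≤ 1 := by
  unfold gQ
  rw [← integral_gphi]
  exact setIntegral_le_integral integrable_gphi (ae_of_all _ fun x => (gphi_pos x).le)

lemma continuous_gQ : Continuous gQ :=
  continuous_iff_continuousAt.mpr fun t => (hasDerivAt_gQ t).continuousAt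

lemma gphi_le (t : ℝ) : gphi t ≤ (√(2 * π))⁻¹ := by
  unfold gphi
  have h1 : rexp (-(t ^ 2) / 2) ≤ 1 := by
    rw [Real.exp_le_one_iff]
    nlinarith [sq_nonneg t]
  have h2 : 0 ≤ (√(2 * π))⁻¹ := by positivity
  calc (√(2 * π))⁻¹ * rexp (-(t ^ 2) / 2) ≤ (√(2 * π))⁻¹ * 1 := mul_le_mul_of_nonneg_left h1 h2
    _ = (√(2 * π))⁻¹ := mul_one _

lemma wedge_deriv_value (κ : ℝ) :
    ∫ x in Ioi (0:ℝ), gphi x * (-(x * gphi (κ * x))) = -(1 / (2 * π * (1 + κ ^ 2))) := by
  have hk : (0 : ℝ) < (1 + κ ^ 2) / 2 := by positivity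
  have h1 : ∀ x : ℝ, gphi x * (-(x * gphi (κ * x))) =
      -(1 / (2 * π)) * (x * rexp (-((1 + κ ^ 2) / 2) * x ^ 2)) := by
    intro x
    unfold gphi
    have h2 : (√(2 * π))⁻¹ * (√(2 * π))⁻¹ = 1 / (2 * π) := by
      rw [← mul_inv, Real.mul_self_sqrt (by positivity), one_div]
    have h3 : rexp (-(x ^ 2) / 2) * rexp (-((κ * x) ^ 2) / 2) =
        rexp (-((1 + κ ^ 2) / 2) * x ^ 2) := by
      rw [← Real.exp_add]
      congr 1
      ring
    rw [← h3, ← h2]
    ring
  simp_rw [h1]
  rw [integral_const_mul]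
  have h4 : ∫ x in Ioi (0:ℝ), x * rexp (-((1 + κ ^ 2) / 2) * x ^ 2) = 1 / (1 + κ ^ 2) := by
    have h := integral_Ioi_of_hasDerivAt_of_tendsto' (a := (0 : ℝ))
      (f := fun x => -(1 / (1 + κ ^ 2)) * rexp (-((1 + κ ^ 2) / 2) * x ^ 2))
      (f' := fun x => x * rexp (-((1 + κ ^ 2) / 2) * x ^ 2)) (m := 0) ?_ ?_ ?_
    · rw [h]
      simp
    · intro x _
      have h5 : HasDerivAt (fun x : ℝ => -((1 + κ ^ 2) / 2) * x ^ 2)
          (-((1 + κ ^ 2) / 2) * (2 * x)) x := by
        have := (hasDerivAt_pow 2 x).const_mul (-((1 + κ ^ 2) / 2))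
        exact this.congr_deriv (by norm_num)
      have h6 := (h5.exp).const_mul (-(1 / (1 + κ ^ 2)))
      refine h6.congr_deriv ?_
      field_simp
    · exact (integrable_mul_exp_neg_mul_sq hk).integrableOn
    · have h7 : Tendsto (fun x : ℝ => rexp (-((1 + κ ^ 2) / 2) * x ^ 2)) atTop (𝓝 0) := by
        apply Real.tendsto_exp_atBot.comp
        have : Tendsto (fun x : ℝ => (1 + κ ^ 2) / 2 * x ^ 2) atTop atTop :=
          (tendsto_pow_atTop two_ne_zero).const_mul_atTop hk
        have h8 := tendsto_neg_atTop_atBot.comp this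
        refine h8.congr fun x => ?_
        simp only [Function.comp]; ring
      have h9 := h7.const_mul (-(1 / (1 + κ ^ 2)))
      rw [mul_zero] at h9
      exact h9
  rw [h4]
  field_simp

lemma hasDerivAt_wedge (κ : ℝ) :
    HasDerivAt (fun κ : ℝ => ∫ x in Ioi (0:ℝ), gphi x * gQ (κ * x))
      (-(1 / (2 * π * (1 + κ ^ 2)))) κ := by
  have h := hasDerivAt_integral_of_dominated_loc_of_deriv_le (μ := volume.restrict (Ioi (0:ℝ)))
    (F := fun κ x => gphi x * gQ (κ * x)) (F' := fun κ x => gphi x * (-(x * gphi (κ * x))))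
    (bound := fun x => x * gphi x * (√(2 * π))⁻¹) (x₀ := κ) (s := univ) Filter.univ_mem
    (Eventually.of_forall fun κ => by
      have : Continuous fun x => gphi x * gQ (κ * x) :=
        continuous_gphi.mul (continuous_gQ.comp (by fun_prop))
      exact this.aestronglyMeasurable)
    (by
      have h1 : Integrable (fun x => gphi x * gQ (κ * x)) := by
        refine Integrable.mono' integrable_gphi ?_ (ae_of_all _ fun x => ?_)
        · have : Continuous fun x => gphi x * gQ (κ * x) :=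
            continuous_gphi.mul (continuous_gQ.comp (by fun_prop))
          exact this.aestronglyMeasurable
        · rw [Real.norm_of_nonneg (mul_nonneg (gphi_pos x).le (gQ_nonneg _))]
          exact mul_le_of_le_one_right (gphi_pos x).le (gQ_le_one _)
      exact h1.integrableOn)
    (by
      have : Continuous fun x => gphi x * (-(x * gphi (κ * x))) :=
        continuous_gphi.mul ((continuous_id.mul (continuous_gphi.comp (by fun_prop))).neg)
      exact this.aestronglyMeasurable)
    (by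
      rw [ae_restrict_iff' measurableSet_Ioi]
      refine ae_of_all _ fun x hx κ' _ => ?_
      have hx' : (0 : ℝ) < x := hx
      rw [norm_mul, norm_neg, Real.norm_of_nonneg (gphi_pos x).le,
        Real.norm_of_nonneg (mul_nonneg hx'.le (gphi_pos _).le)]
      have h2 := gphi_le (κ' * x)
      calc gphi x * (x * gphi (κ' * x)) ≤ gphi x * (x * (√(2 * π))⁻¹) := by
            apply mul_le_mul_of_nonneg_left _ (gphi_pos x).le
            exact mul_le_mul_of_nonneg_left h2 hx'.le
        _ = x * gphi x * (√(2 * π))⁻¹ := by ring)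
    ((integrable_mul_gphi.mul_const _).integrableOn)
    (by
      refine ae_of_all _ fun x κ' _ => ?_
      have h1 : HasDerivAt (fun κ : ℝ => κ * x) x κ' := by
        simpa using (hasDerivAt_id κ').mul_const x
      have h2 := (hasDerivAt_gQ (κ' * x)).comp κ' h1
      have h3 := h2.const_mul (gphi x)
      refine h3.congr_deriv ?_
      ring)
  have h2 := h.2
  rw [wedge_deriv_value] at h2
  exact h2

end OrthoAux

open OrthoAux in
/-- Wedge: for an orthonormal pair `e 0, e 1` and `κ ≥ 0`,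
`P(X ≥ 0, N ≥ κ X) = 1/4 - arctan κ / (2π)`. -/
theorem wedge (κ : ℝ) (hκ : 0 ≤ κ) :
    ∫ x in Ioi (0:ℝ), gphi x * gQ (κ * x) = 1 / 4 - arctan κ / (2 * π) := by
  have h0 : ∫ x in Ioi (0:ℝ), gphi x * gQ (0 * x) = 1 / 4 := by
    simp only [zero_mul, gQ_zero]
    rw [integral_mul_const]
    change gQ 0 * (1 / 2) = 1 / 4
    rw [gQ_zero]
    norm_num
  have hd : ∀ κ : ℝ, HasDerivAt
      (fun κ : ℝ => (∫ x in Ioi (0:ℝ), gphi x * gQ (κ * x)) + arctan κ / (2 * π)) 0 κ := by
    intro κ
    have h1 := (hasDerivAt_wedge κ).add ((hasDerivAt_arctan κ).div_const (2 * π))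
    refine h1.congr_deriv ?_
    field_simp
    ring
  have hconst := is_const_of_deriv_eq_zero (fun κ => (hd κ).differentiableAt)
    (fun κ => (hd κ).deriv) κ 0
  simp only [arctan_zero, zero_div, add_zero] at hconst
  rw [h0] at hconst
  linarith


/-! ### the slab estimate -/

namespace OrthoAux

/-- Law of `(U, X, W)` for mutually orthogonal vectors, the first two being unit vectors. -/
lemma real_triple {d : ℕ} (u c w : E d) (hu : ‖u‖ = 1) (hc : ‖c‖ = 1)
    (huc : inner ℝ u c = (0:ℝ)) (hwu : inner ℝ w u = (0:ℝ)) (hwc : inner ℝ w c = (0:ℝ))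
    (A : Set ℝ) (hA : MeasurableSet A) (B : Set (ℝ × ℝ)) (hB : MeasurableSet B) :
    (stdGaussian (E d)).real {x | inner ℝ x u ∈ A ∧ ((inner ℝ x c : ℝ), (inner ℝ x w : ℝ)) ∈ B} =
      (gaussianReal 0 1).real A *
        ((gaussianReal 0 1).prod (gaussianReal 0 1)).real {p : ℝ × ℝ | (p.1, ‖w‖ * p.2) ∈ B} := by
  -- the set in `Fin 3 → ℝ`
  set S : Set (Fin 3 → ℝ) := {y | y 0 ∈ A ∧ (y 1, y 2) ∈ B} with hS
  have hSm : MeasurableSet S := by
    have h1 : Measurable fun y : Fin 3 → ℝ => y 0 := measurable_pi_apply 0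
    have h2 : Measurable fun y : Fin 3 → ℝ => (y 1, y 2) := by fun_prop
    exact (h1 hA).inter (h2 hB)
  set e : Fin 3 → E d := ![u, c, w] with he
  set f : Fin 3 → E 3 := ![EuclideanSpace.single 0 (1 : ℝ), EuclideanSpace.single 1 (1 : ℝ),
    ‖w‖ • EuclideanSpace.single 2 (1 : ℝ)] with hf
  have huu : inner ℝ u u = (1 : ℝ) := by
    rw [real_inner_self_eq_norm_sq, hu]; norm_num
  have hcc : inner ℝ c c = (1 : ℝ) := by
    rw [real_inner_self_eq_norm_sq, hc]; norm_num
  have hcu : inner ℝ c u = (0 : ℝ) := by rw [real_inner_comm]; exact huc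
  have huw : inner ℝ u w = (0 : ℝ) := by rw [real_inner_comm]; exact hwu
  have hcw : inner ℝ c w = (0 : ℝ) := by rw [real_inner_comm]; exact hwc
  have hgram : ∀ i j, (inner ℝ (e i) (e j) : ℝ) = inner ℝ (f i) (f j) := by
    intro i j
    fin_cases i <;> fin_cases j <;>
      simp [he, hf, hu, hc, huc, hcu, huw, hwu, hwc, hcw, norm_smul,
        real_inner_smul_left, inner_smul_right, EuclideanSpace.inner_single_left]
  have h1 := map_gram e f hgram
  have h2 : (stdGaussian (E d)).real {x | inner ℝ x u ∈ A ∧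
      ((inner ℝ x c : ℝ), (inner ℝ x w : ℝ)) ∈ B} =
      ((stdGaussian (E d)).map (fun x => fun i => (inner ℝ x (e i) : ℝ))).real S := by
    rw [map_measureReal_apply (by fun_prop) hSm]
    rfl
  have h3 : ((stdGaussian (E 3)).map (fun x => fun i => (inner ℝ x (f i) : ℝ))) =
      (Measure.pi (fun _ : Fin 3 => gaussianReal 0 1)).map
        (fun y => ![y 0, y 1, ‖w‖ * y 2]) := by
    rw [← map_ofLp_stdGaussian, Measure.map_map (by fun_prop) (by fun_prop)]
    congr 1
    funext x i
    fin_cases i <;>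
      simp [hf, inner_smul_right, EuclideanSpace.inner_single_right]
  have hm3 : Measurable fun y : Fin 3 → ℝ => (![y 0, y 1, ‖w‖ * y 2] : Fin 3 → ℝ) := by
    rw [measurable_pi_iff]
    intro i
    fin_cases i <;> simp <;> fun_prop
  rw [h2, h1, h3, map_measureReal_apply hm3 hSm]
  have h4 := (measurePreserving_piFinSuccAbove (fun _ : Fin 3 => gaussianReal 0 1) 0)
  set T : Set (ℝ × ℝ) := {p : ℝ × ℝ | (p.1, ‖w‖ * p.2) ∈ B} with hT
  have hTm : MeasurableSet T := by
    have : Measurable fun p : ℝ × ℝ => (p.1, ‖w‖ * p.2) := by fun_prop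
    exact this hB
  set T2 : Set (Fin 2 → ℝ) := {y | (y 0, y 1) ∈ T} with hT2
  have hT2m : MeasurableSet T2 := by
    have : Measurable fun y : Fin 2 → ℝ => (y 0, y 1) := by fun_prop
    exact this hTm
  have h5 : (fun y : Fin 3 → ℝ => (![y 0, y 1, ‖w‖ * y 2] : Fin 3 → ℝ)) ⁻¹' S =
      (MeasurableEquiv.piFinSuccAbove (fun _ : Fin 3 => ℝ) 0) ⁻¹' (A ×ˢ T2) := by
    ext y
    simp only [hS, hT2, hT, mem_preimage, mem_prod]
    rfl
  have h6 := measurePreserving_finTwoArrow (gaussianReal 0 1)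
  rw [h5, h4.measureReal_preimage (hA.prod hT2m).nullMeasurableSet, measureReal_prod_prod]
  congr 1
  rw [← h6.measureReal_preimage hTm.nullMeasurableSet]
  rfl

lemma real_eq_integral_gphi (s : Set ℝ) : (gaussianReal 0 1).real s = ∫ x in s, gphi x := by
  rw [measureReal_def, gaussianReal_apply_eq_integral _ one_ne_zero, ENNReal.toReal_ofReal]
  · exact integral_congr_ae (ae_of_all _ fun x => gphi_eq_pdf x)
  · exact integral_nonneg fun x => gaussianPDFReal_nonneg _ _ _

lemma real_Ici (t : ℝ) : (gaussianReal 0 1).real (Ici t) = gQ t := by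
  rw [real_eq_integral_gphi, integral_Ici_eq_integral_Ioi]
  rfl

lemma real_Ico_zero (ε : ℝ) (hε : 0 < ε) : (gaussianReal 0 1).real (Ico 0 ε) = gQ 0 - gQ ε := by
  have h1 : Ico (0 : ℝ) ε = Ici 0 \ Ici ε := by
    ext x
    simp only [mem_Ico, Set.mem_sdiff, mem_Ici, not_le]
  rw [h1, measureReal_sdiff (Ici_subset_Ici.mpr hε.le) measurableSet_Ici, real_Ici, real_Ici]

lemma meas_half : MeasurableSet {p : ℝ × ℝ | 0 ≤ p.1} :=
  measurableSet_le measurable_const measurable_fst

lemma meas_le (a b : ℝ) : MeasurableSet {p : ℝ × ℝ | 0 ≤ p.1 ∧ a * p.1 ≤ b * p.2} := by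
  have h : MeasurableSet {p : ℝ × ℝ | a * p.1 ≤ b * p.2} :=
    measurableSet_le (by fun_prop) (by fun_prop)
  exact meas_half.inter h

lemma meas_lt (a b s : ℝ) : MeasurableSet {p : ℝ × ℝ | 0 ≤ p.1 ∧ a * p.1 - s < b * p.2} := by
  have h : MeasurableSet {p : ℝ × ℝ | a * p.1 - s < b * p.2} :=
    measurableSet_lt (by fun_prop) (by fun_prop)
  exact meas_half.inter h

lemma meas_lt' (a s : ℝ) : MeasurableSet {p : ℝ × ℝ | 0 ≤ p.1 ∧ a * p.1 - s < p.2} := by
  have h : MeasurableSet {p : ℝ × ℝ | a * p.1 - s < p.2} :=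
    measurableSet_lt (by fun_prop) (by fun_prop)
  exact meas_half.inter h

lemma real_wedge (σ g : ℝ) (hσ : 0 ≤ σ) (hg : 0 < g) :
    ((gaussianReal 0 1).prod (gaussianReal 0 1)).real
      {p : ℝ × ℝ | 0 ≤ p.1 ∧ g * p.1 ≤ σ * p.2} = arctan (σ / g) / (2 * π) := by
  rcases hσ.eq_or_lt with h0 | hσ'
  · subst h0
    have h1 : {p : ℝ × ℝ | 0 ≤ p.1 ∧ g * p.1 ≤ 0 * p.2} = {(0 : ℝ)} ×ˢ (univ : Set ℝ) := by
      ext p
      constructor
      · rintro ⟨h2, h3⟩
        refine ⟨?_, mem_univ _⟩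
        rw [zero_mul] at h3
        have h4 : p.1 ≤ 0 := by
          by_contra h5
          push Not at h5
          have := mul_pos hg h5
          linarith
        exact le_antisymm h4 h2
      · rintro ⟨h2, _⟩
        have h3 : p.1 = 0 := h2
        constructor
        · rw [h3]
        · rw [h3]; simp
    rw [h1, measureReal_prod_prod]
    have : NullSingletonClass (gaussianReal 0 1) := nullSingletonClass_gaussianReal one_ne_zero
    have h2 : (gaussianReal 0 1).real {(0 : ℝ)} = 0 := by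
      rw [measureReal_def, measure_singleton]; rfl
    rw [h2]
    simp
  · set S : Set (ℝ × ℝ) := {p : ℝ × ℝ | 0 ≤ p.1 ∧ g * p.1 ≤ σ * p.2} with hS
    have hSm : MeasurableSet S := meas_le g σ
    have h1 : ((gaussianReal 0 1).prod (gaussianReal 0 1)).real S =
        ∫ p, S.indicator (fun _ => (1 : ℝ)) p ∂((gaussianReal 0 1).prod (gaussianReal 0 1)) := by
      rw [integral_indicator hSm]
      simp
    have hint : Integrable (S.indicator (fun _ => (1 : ℝ)))
        ((gaussianReal 0 1).prod (gaussianReal 0 1)) :=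
      (integrable_const (1 : ℝ)).indicator hSm
    rw [h1, integral_prod _ hint]
    have h2 : ∀ x : ℝ, ∫ y, S.indicator (fun _ => (1 : ℝ)) (x, y) ∂(gaussianReal 0 1) =
        (Ici (0 : ℝ)).indicator (fun x => gQ (g / σ * x)) x := by
      intro x
      by_cases hx : 0 ≤ x
      · rw [indicator_of_mem (show x ∈ Ici (0 : ℝ) from hx)]
        have h3 : ∀ y, S.indicator (fun _ => (1 : ℝ)) (x, y) =
            (Ici (g / σ * x)).indicator (fun _ => (1 : ℝ)) y := by
          intro y
          have h4 : (x, y) ∈ S ↔ y ∈ Ici (g / σ * x) := by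
            rw [mem_Ici, div_mul_eq_mul_div, div_le_iff₀ hσ', mul_comm y σ]
            constructor
            · rintro ⟨_, h5⟩; exact h5
            · intro h5; exact ⟨hx, h5⟩
          by_cases h5 : (x, y) ∈ S
          · rw [indicator_of_mem h5, indicator_of_mem (h4.mp h5)]
          · rw [indicator_of_notMem h5, indicator_of_notMem (fun h6 => h5 (h4.mpr h6))]
        simp_rw [h3]
        rw [integral_indicator measurableSet_Ici, ← real_Ici]
        simp
      · rw [indicator_of_notMem (show x ∉ Ici (0 : ℝ) from hx)]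
        have h3 : ∀ y, S.indicator (fun _ => (1 : ℝ)) (x, y) = 0 := by
          intro y
          exact indicator_of_notMem (fun h4 => hx h4.1) _
        simp_rw [h3]
        exact integral_zero _ _
    simp_rw [h2]
    rw [integral_gaussianReal_eq_integral_smul one_ne_zero]
    have h3 : ∀ x, gaussianPDFReal 0 1 x • (Ici (0 : ℝ)).indicator (fun x => gQ (g / σ * x)) x =
        (Ici (0 : ℝ)).indicator (fun x => gphi x * gQ (g / σ * x)) x := by
      intro x
      rw [gphi_eq_pdf, smul_eq_mul]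
      by_cases hx : x ∈ Ici (0 : ℝ)
      · rw [indicator_of_mem hx, indicator_of_mem hx]
      · rw [indicator_of_notMem hx, indicator_of_notMem hx, mul_zero]
    simp_rw [h3]
    rw [integral_indicator measurableSet_Ici, integral_Ici_eq_integral_Ioi,
      wedge (g / σ) (by positivity)]
    have h4 : arctan (g / σ) = π / 2 - arctan (σ / g) := by
      rw [← arctan_inv_of_pos (by positivity), inv_div]
    rw [h4]
    have := Real.pi_pos
    field_simp
    ring

end OrthoAux

open OrthoAux in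
/-- Slab estimate. `u, ĉ` orthonormal, `w m` orthogonal to both, `g m > 0`. -/
theorem slab_lower {d : ℕ} {ι : Type} [Fintype ι] (u c : E d) (hu : ‖u‖ = 1) (hc : ‖c‖ = 1)
    (huc : inner ℝ u c = (0:ℝ)) (w : ι → E d) (hwu : ∀ m, inner ℝ (w m) u = (0:ℝ))
    (hwc : ∀ m, inner ℝ (w m) c = (0:ℝ)) (g β : ι → ℝ) (hg : ∀ m, 0 < g m) (K C : ℝ)
    (hK : ∀ ε : ℝ, 0 < ε → ε < 1 →
      (stdGaussian (E d)).real {x | 0 ≤ inner ℝ x u ∧ inner ℝ x u < ε ∧ 0 ≤ inner ℝ x c ∧
        ∀ m, inner ℝ x (w m) ≤ g m * inner ℝ x c + β m * inner ℝ x u} ≤ K * ε + C * ε ^ 2) :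
    (√(2 * π))⁻¹ * (1 / 2 - ∑ m, arctan (‖w m‖ / g m) / (2 * π)) ≤ K := by
  set ν := (gaussianReal 0 1).prod (gaussianReal 0 1) with hν
  set D : ι → ℝ → ℝ := fun m ε =>
    ν.real {p : ℝ × ℝ | 0 ≤ p.1 ∧ g m * p.1 - (|β m| + 1) * ε < ‖w m‖ * p.2} with hD
  have hmain : ∀ ε : ℝ, 0 < ε → ε < 1 →
      (gQ 0 - gQ ε) * (1 / 2 - ∑ m, D m ε) ≤ K * ε + C * ε ^ 2 := by
    intro ε hε hε1
    have h1 := hK ε hε hε1
    have hG : (stdGaussian (E d)).real {x | inner ℝ x u ∈ Ico (0 : ℝ) ε ∧
        ((inner ℝ x c : ℝ), (inner ℝ x (0 : E d) : ℝ)) ∈ {p : ℝ × ℝ | 0 ≤ p.1}} =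
        (gQ 0 - gQ ε) * (1 / 2) := by
      rw [real_triple u c 0 hu hc huc (by simp) (by simp) _ measurableSet_Ico _
        (measurableSet_le measurable_const measurable_fst), real_Ico_zero ε hε]
      congr 1
      have h2 : {p : ℝ × ℝ | (p.1, ‖(0 : E d)‖ * p.2) ∈ {p : ℝ × ℝ | 0 ≤ p.1}} =
          Ici (0 : ℝ) ×ˢ (univ : Set ℝ) := by
        ext p
        constructor
        · intro h3; exact ⟨h3, mem_univ _⟩
        · intro h3; exact h3.1
      rw [h2, measureReal_prod_prod, real_Ici, gQ_zero]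
      simp
    have hBad : ∀ m, (stdGaussian (E d)).real {x | inner ℝ x u ∈ Ico (0 : ℝ) ε ∧
        ((inner ℝ x c : ℝ), (inner ℝ x (w m) : ℝ)) ∈
          {p : ℝ × ℝ | 0 ≤ p.1 ∧ g m * p.1 - (|β m| + 1) * ε < p.2}} =
        (gQ 0 - gQ ε) * D m ε := by
      intro m
      rw [real_triple u c (w m) hu hc huc (hwu m) (hwc m) _ measurableSet_Ico _
        (meas_lt' (g m) ((|β m| + 1) * ε)), real_Ico_zero ε hε]
      rfl
    have hsub : {x : E d | inner ℝ x u ∈ Ico (0 : ℝ) ε ∧
        ((inner ℝ x c : ℝ), (inner ℝ x (0 : E d) : ℝ)) ∈ {p : ℝ × ℝ | 0 ≤ p.1}} ⊆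
        {x | 0 ≤ inner ℝ x u ∧ inner ℝ x u < ε ∧ 0 ≤ inner ℝ x c ∧
          ∀ m, inner ℝ x (w m) ≤ g m * inner ℝ x c + β m * inner ℝ x u} ∪
        ⋃ m, {x | inner ℝ x u ∈ Ico (0 : ℝ) ε ∧
        ((inner ℝ x c : ℝ), (inner ℝ x (w m) : ℝ)) ∈
          {p : ℝ × ℝ | 0 ≤ p.1 ∧ g m * p.1 - (|β m| + 1) * ε < p.2}} := by
      rintro x ⟨hxu, hxc⟩
      have hxc' : (0 : ℝ) ≤ inner ℝ x c := hxc
      by_cases h2 : ∀ m, inner ℝ x (w m) ≤ g m * inner ℝ x c + β m * inner ℝ x u
      · left
        exact ⟨hxu.1, hxu.2, hxc', h2⟩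
      · right
        push Not at h2
        obtain ⟨m, hm⟩ := h2
        rw [mem_iUnion]
        refine ⟨m, hxu, hxc', ?_⟩
        have h3 : -((|β m| + 1) * ε) ≤ β m * inner ℝ x u := by
          have h4 : |β m * inner ℝ x u| ≤ |β m| * ε := by
            rw [abs_mul, abs_of_nonneg hxu.1]
            exact mul_le_mul_of_nonneg_left hxu.2.le (abs_nonneg _)
          have h5 := neg_abs_le (β m * inner ℝ x u)
          nlinarith
        change g m * inner ℝ x c - (|β m| + 1) * ε < inner ℝ x (w m)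
        linarith
    have h2 : (gQ 0 - gQ ε) * (1 / 2) ≤ (K * ε + C * ε ^ 2) + ∑ m, (gQ 0 - gQ ε) * D m ε := by
      rw [← hG]
      refine (measureReal_mono hsub).trans ?_
      refine (measureReal_union_le _ _).trans ?_
      apply add_le_add h1
      refine (measureReal_iUnion_fintype_le _).trans ?_
      exact Finset.sum_le_sum fun m _ => (hBad m).le
    rw [← Finset.mul_sum] at h2
    linarith
  -- the sequence of scales
  set e : ℕ → ℝ := fun n => 1 / ((n : ℝ) + 2) with he
  have he0 : ∀ n, 0 < e n := fun n => by rw [he]; positivity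
  have he1 : ∀ n, e n < 1 := fun n => by
    rw [he]
    simp only
    rw [div_lt_one (by positivity)]
    have : (0 : ℝ) ≤ n := Nat.cast_nonneg n
    linarith
  have hetend : Tendsto e atTop (𝓝 0) := by
    have h1 : Tendsto (fun n : ℕ => (n : ℝ) + 2) atTop atTop :=
      tendsto_atTop_add_const_right _ _ tendsto_natCast_atTop_atTop
    have h2 := h1.inv_tendsto_atTop
    refine h2.congr fun n => ?_
    simp [he]
  have hDlim : ∀ m, Tendsto (fun n => D m (e n)) atTop (𝓝 (arctan (‖w m‖ / g m) / (2 * π))) := by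
    intro m
    rw [← real_wedge ‖w m‖ (g m) (norm_nonneg _) (hg m)]
    set s : ℕ → Set (ℝ × ℝ) := fun n =>
      {p : ℝ × ℝ | 0 ≤ p.1 ∧ g m * p.1 - (|β m| + 1) * e n < ‖w m‖ * p.2} with hs
    have hb : 0 < |β m| + 1 := by positivity
    have hsm : ∀ n, NullMeasurableSet (s n) ν := fun n =>
      (meas_lt (g m) ‖w m‖ ((|β m| + 1) * e n)).nullMeasurableSet
    have hanti : Antitone s := by
      intro n n' hnn p hp
      refine ⟨hp.1, ?_⟩
      have h1 : e n' ≤ e n := by
        rw [he]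
        simp only
        apply one_div_le_one_div_of_le (by positivity)
        have : (n : ℝ) ≤ n' := by exact_mod_cast hnn
        linarith
      have h2 := hp.2
      have h3 : (|β m| + 1) * e n' ≤ (|β m| + 1) * e n := mul_le_mul_of_nonneg_left h1 hb.le
      linarith
    have hlim := tendsto_measure_iInter_atTop hsm hanti ⟨0, measure_ne_top _ _⟩
    have hinter : ⋂ n, s n = {p : ℝ × ℝ | 0 ≤ p.1 ∧ g m * p.1 ≤ ‖w m‖ * p.2} := by
      ext p
      rw [mem_iInter]
      constructor
      · intro h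
        refine ⟨(h 0).1, ?_⟩
        have h1 : Tendsto (fun n => g m * p.1 - (|β m| + 1) * e n) atTop
            (𝓝 (g m * p.1 - (|β m| + 1) * 0)) :=
          tendsto_const_nhds.sub (hetend.const_mul _)
        rw [mul_zero, sub_zero] at h1
        exact le_of_tendsto' h1 fun n => (h n).2.le
      · rintro ⟨h1, h2⟩ n
        refine ⟨h1, ?_⟩
        have := mul_pos hb (he0 n)
        linarith
    rw [hinter] at hlim
    have := (ENNReal.tendsto_toReal (measure_ne_top ν _)).comp hlim
    exact this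
  have hsl : Tendsto (fun n => (gQ 0 - gQ (e n)) / e n) atTop (𝓝 ((√(2 * π))⁻¹)) := by
    have h1 := hasDerivAt_gQ 0
    rw [hasDerivAt_iff_tendsto_slope_zero] at h1
    have h2 : Tendsto e atTop (𝓝[≠] 0) := by
      rw [tendsto_nhdsWithin_iff]
      exact ⟨hetend, Eventually.of_forall fun n => (he0 n).ne'⟩
    have h3 := (h1.comp h2).neg
    have h4 : -(-gphi 0) = (√(2 * π))⁻¹ := by
      unfold gphi; simp
    rw [h4] at h3
    refine h3.congr fun n => ?_
    simp only [Function.comp, zero_add, smul_eq_mul]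
    field_simp
    ring
  have hL : Tendsto (fun n => (gQ 0 - gQ (e n)) / e n * (1 / 2 - ∑ m, D m (e n))) atTop
      (𝓝 ((√(2 * π))⁻¹ * (1 / 2 - ∑ m, arctan (‖w m‖ / g m) / (2 * π)))) :=
    hsl.mul (tendsto_const_nhds.sub (tendsto_finsetSum _ fun m _ => hDlim m))
  have hR : Tendsto (fun n => K + C * e n) atTop (𝓝 (K + C * 0)) :=
    tendsto_const_nhds.add (hetend.const_mul _)
  rw [mul_zero, add_zero] at hR
  refine le_of_tendsto_of_tendsto' hL hR fun n => ?_
  have h1 := hmain (e n) (he0 n) (he1 n)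
  rw [div_mul_eq_mul_div, div_le_iff₀ (he0 n)]
  calc (gQ 0 - gQ (e n)) * (1 / 2 - ∑ m, D m (e n)) ≤ K * e n + C * e n ^ 2 := h1
    _ = (K + C * e n) * e n := by ring

end Vale.Agent.P226
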