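import Vale.Agent.P226.Full.Emax
import Vale.Agent.P226.Full.Ortho
import Vale.Agent.P226.SmallCells

/-! Task P226-B: the cases `k ≤ 3`, and the lower bound (the propeller attains `9/(8π)`). -/

namespace Vale.Agent.P226

open MeasureTheory ProbabilityTheory Real Set Filter Topology

lemma bs_gphi_zero_sq : gphi 0 ^ 2 = 1 / (2 * π) := by
  unfold gphi
  rw [mul_pow, inv_pow, Real.sq_sqrt (by positivity)]
  simp

lemma bs_pos_part {d : ℕ} (w : E d) :
    ∫ x : E d, max (inner ℝ x w) (0:ℝ) ∂(stdGaussian (E d)) = ‖w‖ * gphi 0 := by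
  rcases eq_or_ne w 0 with rfl | hw
  · simp
  · have h := integral_pos_part_eq w hw 0
    simp only [mul_zero, sub_zero, zero_mul] at h
    rw [← h]
    refine integral_congr_ae (ae_of_all _ fun x => ?_)
    simp only
    rw [real_inner_comm]

lemma bs_integrable_pos {d : ℕ} (w : E d) :
    Integrable (fun x : E d => max (inner ℝ x w : ℝ) 0) (stdGaussian (E d)) :=
  (integrable_inner_right w).pos_part

lemma bs_abs {d : ℕ} (w : E d) :
    ∫ x : E d, |(inner ℝ x w : ℝ)| ∂(stdGaussian (E d)) = 2 * (‖w‖ * gphi 0) := by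
  have h1 : ∀ x : E d, |(inner ℝ x w : ℝ)| = max (inner ℝ x w : ℝ) 0 + max (inner ℝ x (-w) : ℝ) 0 := by
    intro x
    rw [inner_neg_right]
    rcases le_total 0 (inner ℝ x w : ℝ) with h | h
    · rw [abs_of_nonneg h, max_eq_left h, max_eq_right (by linarith)]; ring
    · rw [abs_of_nonpos h, max_eq_right h, max_eq_left (by linarith)]; ring
  simp_rw [h1]
  rw [integral_add (bs_integrable_pos w) (bs_integrable_pos (-w)), bs_pos_part, bs_pos_part,
    norm_neg]
  ring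

lemma bs_integral_neg {d : ℕ} (g : E d → ℝ) (hg : Continuous g) :
    ∫ x : E d, g (-x) ∂(stdGaussian (E d)) = ∫ x, g x ∂(stdGaussian (E d)) := by
  have h := stdGaussian_map (E := E d) (LinearIsometryEquiv.neg ℝ (E := E d))
  conv_rhs => rw [← h]
  rw [integral_map (by fun_prop) hg.aestronglyMeasurable]
  rfl

lemma bs_iSup_two (f : Fin 2 → ℝ) : (⨆ i, f i) = max (f 0) (f 1) := by
  apply le_antisymm
  · apply ciSup_le
    intro i
    fin_cases i
    · exact le_max_left _ _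
    · exact le_max_right _ _
  · exact max_le (le_ciSup (Finite.bddAbove_range f) 0) (le_ciSup (Finite.bddAbove_range f) 1)

lemma bs_iSup_three (f : Fin 3 → ℝ) : (⨆ i, f i) = max (f 0) (max (f 1) (f 2)) := by
  apply le_antisymm
  · apply ciSup_le
    intro i
    fin_cases i
    · exact le_max_left _ _
    · exact (le_max_left _ _).trans (le_max_right _ _)
    · exact (le_max_right _ _).trans (le_max_right _ _)
  · exact max_le (le_ciSup (Finite.bddAbove_range f) 0)
      (max_le (le_ciSup (Finite.bddAbove_range f) 1) (le_ciSup (Finite.bddAbove_range f) 2))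

lemma bs_max_three (a b c : ℝ) :
    max a (max b c) + max (-a) (max (-b) (-c)) = 1 / 2 * (|a - b| + |a - c| + |b - c|) := by
  rcases le_total a b with h1 | h1 <;> rcases le_total a c with h2 | h2 <;>
    rcases le_total b c with h3 | h3
  all_goals
    first
    | rw [abs_of_nonpos (by linarith : a - b ≤ 0)]
    | rw [abs_of_nonneg (by linarith : 0 ≤ a - b)]
  all_goals
    first
    | rw [abs_of_nonpos (by linarith : a - c ≤ 0)]
    | rw [abs_of_nonneg (by linarith : 0 ≤ a - c)]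
  all_goals
    first
    | rw [abs_of_nonpos (by linarith : b - c ≤ 0)]
    | rw [abs_of_nonneg (by linarith : 0 ≤ b - c)]
  all_goals
    first
    | rw [max_eq_left (by linarith : c ≤ b)]
    | rw [max_eq_right (by linarith : b ≤ c)]
  all_goals
    first
    | rw [max_eq_left (by linarith : -c ≤ -b)]
    | rw [max_eq_right (by linarith : -b ≤ -c)]
  all_goals
    first
    | rw [max_eq_left (by linarith : c ≤ a)]
    | rw [max_eq_right (by linarith : a ≤ c)]
    | rw [max_eq_left (by linarith : b ≤ a)]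
    | rw [max_eq_right (by linarith : a ≤ b)]
  all_goals
    first
    | rw [max_eq_left (by linarith : -c ≤ -a)]
    | rw [max_eq_right (by linarith : -a ≤ -c)]
    | rw [max_eq_left (by linarith : -b ≤ -a)]
    | rw [max_eq_right (by linarith : -a ≤ -b)]
  all_goals linarith

lemma bs_emax_two {d : ℕ} (v : Fin 2 → E d) : emax v = ‖v 0 - v 1‖ * gphi 0 := by
  unfold emax
  have h1 : ∀ x : E d, (⨆ i, (inner ℝ x (v i) : ℝ)) =
      (inner ℝ x (v 1) : ℝ) + max (inner ℝ x (v 0 - v 1) : ℝ) 0 := by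
    intro x
    rw [bs_iSup_two, inner_sub_right]
    rcases le_total (inner ℝ x (v 0) : ℝ) (inner ℝ x (v 1)) with h | h
    · rw [max_eq_right h, max_eq_right (by linarith)]; ring
    · rw [max_eq_left h, max_eq_left (by linarith)]; ring
  simp_rw [h1]
  rw [integral_add (integrable_inner_right _) (bs_integrable_pos _), integral_inner_right,
    bs_pos_part, zero_add]

lemma bs_emax_three {d : ℕ} (v : Fin 3 → E d) :
    emax v = 1 / 2 * (‖v 0 - v 1‖ + ‖v 0 - v 2‖ + ‖v 1 - v 2‖) * gphi 0 := by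
  have h0 : emax v = ∫ x : E d, (⨆ i, (inner ℝ (-x) (v i) : ℝ)) ∂(stdGaussian (E d)) := by
    rw [bs_integral_neg (fun x : E d => ⨆ i, (inner ℝ x (v i) : ℝ)) (continuous_iSup_inner v)]
    rfl
  have hint : Integrable (fun x : E d => ⨆ i, (inner ℝ (-x) (v i) : ℝ)) (stdGaussian (E d)) := by
    have := integrable_iSup_inner (fun i => -v i)
    refine this.congr (ae_of_all _ fun x => ?_)
    simp only [inner_neg_right, inner_neg_left]
  have h1 : emax v + emax v = ∫ x : E d, ((⨆ i, (inner ℝ x (v i) : ℝ)) +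
      ⨆ i, (inner ℝ (-x) (v i) : ℝ)) ∂(stdGaussian (E d)) := by
    rw [integral_add (integrable_iSup_inner v) hint, ← h0]
    rfl
  have h2 : ∀ x : E d, ((⨆ i, (inner ℝ x (v i) : ℝ)) + ⨆ i, (inner ℝ (-x) (v i) : ℝ)) =
      1 / 2 * (|(inner ℝ x (v 0 - v 1) : ℝ)| + |(inner ℝ x (v 0 - v 2) : ℝ)| +
        |(inner ℝ x (v 1 - v 2) : ℝ)|) := by
    intro x
    rw [bs_iSup_three, bs_iSup_three]
    simp only [inner_neg_left, inner_sub_right]
    exact bs_max_three _ _ _
  simp_rw [h2] at h1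
  rw [integral_const_mul, integral_add, integral_add, bs_abs, bs_abs, bs_abs] at h1
  · linarith
  · exact (integrable_inner_right _).abs
  · exact (integrable_inner_right _).abs
  · exact (integrable_inner_right _).abs.add (integrable_inner_right _).abs
  · exact (integrable_inner_right _).abs

lemma bs_transport {n : ℕ} (h : ∀ (d : ℕ) (v : Fin n → E d), emax v ^ 2 ≤ M0 * ∑ i, ‖v i‖ ^ 2) :
    PK n := by
  intro ι _ d v hcard
  have e : Fin n ≃ ι := (Fintype.equivFinOfCardEq hcard).symm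
  have h1 := h d (v ∘ e)
  rw [emax_comp_equiv e v] at h1
  have h2 : ∑ i, ‖(v ∘ e) i‖ ^ 2 = ∑ i, ‖v i‖ ^ 2 :=
    Equiv.sum_comp e (fun i => ‖v i‖ ^ 2)
  rwa [h2] at h1

theorem pk_zero : PK 0 := by
  apply bs_transport
  intro d v
  have : emax v = 0 := by
    unfold emax
    simp [Real.iSup_of_isEmpty]
  rw [this]; simp

theorem pk_one : PK 1 := by
  apply bs_transport
  intro d v
  have : emax v = 0 := by
    unfold emax
    have h1 : ∀ x : E d, (⨆ i, (inner ℝ x (v i) : ℝ)) = (inner ℝ x (v 0) : ℝ) := by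
      intro x
      rw [ciSup_unique]
      rfl
    simp_rw [h1]
    exact integral_inner_right _
  rw [this]
  have : 0 ≤ M0 := by unfold M0; positivity
  have h2 : 0 ≤ ∑ i, ‖v i‖ ^ 2 := Finset.sum_nonneg fun i _ => by positivity
  have := mul_nonneg this h2
  simpa using this

theorem pk_two : PK 2 := by
  apply bs_transport
  intro d v
  rw [bs_emax_two, mul_pow, bs_gphi_zero_sq, Fin.sum_univ_two]
  have h1 : ‖v 0 - v 1‖ ^ 2 ≤ 2 * (‖v 0‖ ^ 2 + ‖v 1‖ ^ 2) := by
    have e1 := norm_sub_sq_real (v 0) (v 1)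
    have e2 := norm_add_sq_real (v 0) (v 1)
    have e3 := sq_nonneg ‖v 0 + v 1‖
    linarith
  have h2 : ‖v 0 - v 1‖ ^ 2 * (1 / (2 * π)) ≤ 2 * (‖v 0‖ ^ 2 + ‖v 1‖ ^ 2) * (1 / (2 * π)) :=
    mul_le_mul_of_nonneg_right h1 (by positivity)
  refine h2.trans ?_
  unfold M0
  have h3 : 2 * (‖v 0‖ ^ 2 + ‖v 1‖ ^ 2) * (1 / (2 * π)) = 8 / (8 * π) * (‖v 0‖ ^ 2 + ‖v 1‖ ^ 2) := by
    field_simp
  rw [h3]
  apply mul_le_mul_of_nonneg_right _ (by positivity)
  exact div_le_div_of_nonneg_right (by norm_num) (by positivity)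

theorem pk_three : PK 3 := by
  apply bs_transport
  intro d v
  rw [bs_emax_three, mul_pow, bs_gphi_zero_sq, Fin.sum_univ_three]
  set a := ‖v 0 - v 1‖ with ha
  set b := ‖v 0 - v 2‖ with hb
  set c := ‖v 1 - v 2‖ with hc
  have h1 : a ^ 2 + b ^ 2 + c ^ 2 ≤ 3 * (‖v 0‖ ^ 2 + ‖v 1‖ ^ 2 + ‖v 2‖ ^ 2) := by
    have e1 := norm_sub_sq_real (v 0) (v 1)
    have e2 := norm_sub_sq_real (v 0) (v 2)
    have e3 := norm_sub_sq_real (v 1) (v 2)
    have e4 := norm_add_sq_real (v 0 + v 1) (v 2)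
    have e5 := norm_add_sq_real (v 0) (v 1)
    rw [inner_add_left] at e4
    have e6 := sq_nonneg ‖v 0 + v 1 + v 2‖
    linarith
  have h2 : (1 / 2 * (a + b + c)) ^ 2 ≤ 9 / 4 * (‖v 0‖ ^ 2 + ‖v 1‖ ^ 2 + ‖v 2‖ ^ 2) := by
    nlinarith [sq_nonneg (a - b), sq_nonneg (a - c), sq_nonneg (b - c)]
  calc (1 / 2 * (a + b + c)) ^ 2 * (1 / (2 * π))
      ≤ 9 / 4 * (‖v 0‖ ^ 2 + ‖v 1‖ ^ 2 + ‖v 2‖ ^ 2) * (1 / (2 * π)) :=
        mul_le_mul_of_nonneg_right h2 (by positivity)
    _ = M0 * (‖v 0‖ ^ 2 + ‖v 1‖ ^ 2 + ‖v 2‖ ^ 2) := by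
        unfold M0
        field_simp
        ring

lemma bs_final (e A B C a b c : ℝ) (hs : A + B + C = e) (hA : A ≤ a) (hB : B ≤ b) (hC : C ≤ c)
    (he : 0 ≤ e) (h : e ^ 2 = 27 / (8 * π)) : 9 / (8 * π) ≤ a ^ 2 + b ^ 2 + c ^ 2 := by
  have h3 : e ≤ a + b + c := by linarith
  have h4 : e ^ 2 ≤ (a + b + c) ^ 2 := pow_le_pow_left₀ he h3 2
  have h5 : (a + b + c) ^ 2 ≤ 3 * (a ^ 2 + b ^ 2 + c ^ 2) := by
    nlinarith [sq_nonneg (a - b), sq_nonneg (a - c), sq_nonneg (b - c)]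
  have h6 : 27 / (8 * π) = 3 * (9 / (8 * π)) := by ring
  rw [h, h6] at h4
  linarith

/-- The value `9/(8π)` is attained by a partition of `ℝ^d` (`d ≥ 2`) into `k ≥ 3` measurable
pairwise disjoint cells (some may be empty). -/
theorem propeller_attained (d k : ℕ) (hd : 2 ≤ d) (hk : 3 ≤ k) :
    ∃ A : Fin k → Set (E d), (∀ i, MeasurableSet (A i)) ∧ Pairwise (fun i j => Disjoint (A i) (A j)) ∧
      (⋃ i, A i) = univ ∧
      9 / (8 * π) ≤ ∑ i, ‖∫ x in A i, x ∂(stdGaussian (E d))‖ ^ 2 := by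
  -- the three vectors
  set e0 : E d := EuclideanSpace.single ⟨0, by omega⟩ 1 with he0
  set e1 : E d := EuclideanSpace.single ⟨1, by omega⟩ 1 with he1
  have h00 : ‖e0‖ = 1 := by simp [he0]
  have h11 : ‖e1‖ = 1 := by simp [he1]
  have h01 : inner ℝ e0 e1 = (0:ℝ) := by
    simp [he0, he1, EuclideanSpace.inner_single_left]
  set w : Fin 3 → E d := ![e0, (-(1/2 : ℝ)) • e0 + (√3 / 2) • e1,
    (-(1/2 : ℝ)) • e0 - (√3 / 2) • e1] with hw
  have hw0 : w 0 = e0 := rfl
  have hw1 : w 1 = (-(1/2 : ℝ)) • e0 + (√3 / 2) • e1 := rfl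
  have hw2 : w 2 = (-(1/2 : ℝ)) • e0 - (√3 / 2) • e1 := rfl
  have hlin : ∀ α β : ℝ, ‖α • e0 + β • e1‖ ^ 2 = α ^ 2 + β ^ 2 := by
    intro α β
    rw [norm_add_sq_real, inner_smul_left, inner_smul_right, h01, norm_smul, norm_smul, h00, h11]
    simp
  have hs3 : √3 ^ 2 = (3:ℝ) := Real.sq_sqrt (by norm_num)
  have hn0 : ‖w 0‖ = 1 := by rw [hw0]; exact h00
  have hn1 : ‖w 1‖ ^ 2 = 1 := by
    rw [hw1, hlin]; nlinarith
  have hn2 : ‖w 2‖ ^ 2 = 1 := by
    rw [hw2, sub_eq_add_neg, ← neg_smul, hlin]; nlinarith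
  have hd01 : ‖w 0 - w 1‖ = √3 := by
    have : w 0 - w 1 = (3/2 : ℝ) • e0 + (-(√3 / 2)) • e1 := by
      rw [hw0, hw1]; module
    have h2 : ‖w 0 - w 1‖ ^ 2 = 3 := by rw [this, hlin]; nlinarith
    rw [← h2, Real.sqrt_sq (norm_nonneg _)]
  have hd02 : ‖w 0 - w 2‖ = √3 := by
    have : w 0 - w 2 = (3/2 : ℝ) • e0 + (√3 / 2) • e1 := by
      rw [hw0, hw2]; module
    have h2 : ‖w 0 - w 2‖ ^ 2 = 3 := by rw [this, hlin]; nlinarith
    rw [← h2, Real.sqrt_sq (norm_nonneg _)]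
  have hd12 : ‖w 1 - w 2‖ = √3 := by
    have : w 1 - w 2 = (0 : ℝ) • e0 + √3 • e1 := by
      rw [hw1, hw2]; module
    have h2 : ‖w 1 - w 2‖ ^ 2 = 3 := by rw [this, hlin]; nlinarith
    rw [← h2, Real.sqrt_sq (norm_nonneg _)]
  have hemax : emax w ^ 2 = 27 / (8 * π) := by
    rw [bs_emax_three, hd01, hd02, hd12, mul_pow, bs_gphi_zero_sq]
    have : (1 / 2 * (√3 + √3 + √3)) ^ 2 = 27 / 4 := by nlinarith
    rw [this]; field_simp; norm_num
  -- the partition
  let B : ℕ → Set (E d) := fun n =>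
    if n = 0 then cell w 0 else if n = 1 then cell w 1 \ cell w 0
      else if n = 2 then (cell w 0 ∪ cell w 1)ᶜ else ∅
  have hB0 : B 0 = cell w 0 := by simp [B]
  have hB1 : B 1 = cell w 1 \ cell w 0 := by simp [B]
  have hB2 : B 2 = (cell w 0 ∪ cell w 1)ᶜ := by simp [B]
  have hB3 : ∀ n, 3 ≤ n → B n = ∅ := by
    intro n hn
    have h0 : n ≠ 0 := by omega
    have h1 : n ≠ 1 := by omega
    have h2 : n ≠ 2 := by omega
    simp [B, h0, h1, h2]
  have hm0 := measurableSet_cell w 0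
  have hm1 := measurableSet_cell w 1
  have hBm : ∀ n, MeasurableSet (B n) := by
    intro n
    match n with
    | 0 => rw [hB0]; exact hm0
    | 1 => rw [hB1]; exact hm1.diff hm0
    | 2 => rw [hB2]; exact (hm0.union hm1).compl
    | n + 3 => rw [hB3 (n + 3) (by omega)]; exact MeasurableSet.empty
  have hdlt : ∀ m n, m < n → Disjoint (B m) (B n) := by
    intro m n hmn
    rw [Set.disjoint_left]
    intro x hx hy
    rcases Nat.lt_or_ge n 3 with h3 | h3
    · have hcases : (m = 0 ∧ n = 1) ∨ (m = 0 ∧ n = 2) ∨ (m = 1 ∧ n = 2) := by omega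
      rcases hcases with ⟨rfl, rfl⟩ | ⟨rfl, rfl⟩ | ⟨rfl, rfl⟩
      · rw [hB0] at hx; rw [hB1] at hy; exact hy.2 hx
      · rw [hB0] at hx; rw [hB2] at hy; exact hy (Or.inl hx)
      · rw [hB1] at hx; rw [hB2] at hy; exact hy (Or.inr hx.1)
    · rw [hB3 n h3] at hy; exact hy
  have hdis : ∀ m n, m ≠ n → Disjoint (B m) (B n) := by
    intro m n hmn
    rcases lt_or_gt_of_ne hmn with h | h
    · exact hdlt m n h
    · exact (hdlt n m h).symm
  have hcov : ∀ x : E d, x ∈ B 0 ∨ x ∈ B 1 ∨ x ∈ B 2 := by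
    intro x
    rw [hB0, hB1, hB2]
    by_cases h0 : x ∈ cell w 0
    · exact Or.inl h0
    · by_cases h1 : x ∈ cell w 1
      · exact Or.inr (Or.inl ⟨h1, h0⟩)
      · refine Or.inr (Or.inr ?_)
        intro h
        rcases h with h | h
        · exact h0 h
        · exact h1 h
  have hBcell : ∀ i : Fin 3, B i.val ⊆ cell w i := by
    intro i
    fin_cases i
    · change B 0 ⊆ cell w 0
      rw [hB0]
    · change B 1 ⊆ cell w 1
      rw [hB1]; exact Set.sdiff_subset
    · change B 2 ⊆ cell w 2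
      rw [hB2]
      intro x hx
      have hu : x ∈ ⋃ i, cell w i := by rw [iUnion_cell]; exact mem_univ x
      obtain ⟨i, hi⟩ := mem_iUnion.1 hu
      fin_cases i
      · exact absurd (Or.inl hi) hx
      · exact absurd (Or.inr hi) hx
      · exact hi
  have hsum := sum_inner_eq_emax (fun i : Fin 3 => B i.val) (fun i => hBm i.val)
    (fun i j hij => (hdis i.val j.val (fun h => hij (Fin.ext h))).aedisjoint)
    (by
      have : (⋃ i : Fin 3, B i.val) = univ := by
        refine eq_univ_of_forall fun x => ?_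
        rcases hcov x with h | h | h
        · exact mem_iUnion.2 ⟨0, h⟩
        · exact mem_iUnion.2 ⟨1, h⟩
        · exact mem_iUnion.2 ⟨2, h⟩
      rw [this]; simp) w hBcell
  refine ⟨fun i => B i.val, fun i => hBm _, fun i j hij => hdis _ _ (fun h => hij (Fin.ext h)), ?_, ?_⟩
  · refine eq_univ_of_forall fun x => ?_
    rcases hcov x with h | h | h
    · exact mem_iUnion.2 ⟨⟨0, by omega⟩, h⟩
    · exact mem_iUnion.2 ⟨⟨1, by omega⟩, h⟩
    · exact mem_iUnion.2 ⟨⟨2, by omega⟩, h⟩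
  · set F : ℕ → ℝ := fun n => ‖∫ x in B n, x ∂(stdGaussian (E d))‖ ^ 2 with hF
    have h1 : ∑ i : Fin k, ‖∫ x in B i.val, x ∂(stdGaussian (E d))‖ ^ 2 =
        ∑ n ∈ Finset.range k, F n := Fin.sum_univ_eq_sum_range F k
    change 9 / (8 * π) ≤ ∑ i : Fin k, ‖∫ x in B i.val, x ∂(stdGaussian (E d))‖ ^ 2
    rw [h1]
    have h2 : ∑ n ∈ Finset.range 3, F n ≤ ∑ n ∈ Finset.range k, F n :=
      Finset.sum_le_sum_of_subset_of_nonneg (Finset.range_subset_range.2 hk)
        (fun n _ _ => by simp only [hF]; positivity)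
    refine le_trans ?_ h2
    rw [Finset.sum_range_succ, Finset.sum_range_succ, Finset.sum_range_succ, Finset.sum_range_zero,
      zero_add]
    rw [Fin.sum_univ_three] at hsum
    have hn1' : ‖w 1‖ = 1 := by
      rw [← Real.sqrt_sq (norm_nonneg (w 1)), hn1, Real.sqrt_one]
    have hn2' : ‖w 2‖ = 1 := by
      rw [← Real.sqrt_sq (norm_nonneg (w 2)), hn2, Real.sqrt_one]
    have c0 := real_inner_le_norm (∫ x in B 0, x ∂(stdGaussian (E d))) (w 0)
    have c1 := real_inner_le_norm (∫ x in B 1, x ∂(stdGaussian (E d))) (w 1)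
    have c2 := real_inner_le_norm (∫ x in B 2, x ∂(stdGaussian (E d))) (w 2)
    rw [hn0, mul_one] at c0
    rw [hn1', mul_one] at c1
    rw [hn2', mul_one] at c2
    exact bs_final _ _ _ _ _ _ _ hsum c0 c1 c2 (emax_nonneg w) hemax

end Vale.Agent.P226
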