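import Vale.Agent.P226.Full.Defs
import Vale.Agent.P226.Uniform

/-! Task P226-CM: Cameron-Martin for translated sets. -/

namespace Vale.Agent.P226

open MeasureTheory ProbabilityTheory Real Set Filter Topology

lemma integrable_exp_inner {d : ℕ} (p : E d) :
    Integrable (fun x : E d => rexp (inner ℝ x p)) (stdGaussian (E d)) := by
  have h := map_inner_stdGaussian (E := E d) p
  have h1 := integrable_exp_mul_gaussianReal (μ := 0) (v := ‖p‖₊ ^ 2) 1
  rw [← h] at h1
  have h2 := (integrable_map_measure (by fun_prop) (by fun_prop)).1 h1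
  refine h2.congr (ae_of_all _ fun x => ?_)
  simp only [Function.comp, one_mul]
  rw [real_inner_comm]

lemma integrable_exp_neg_inner {d : ℕ} (p : E d) (c : ℝ) :
    Integrable (fun x : E d => rexp (-(inner ℝ x p) - c)) (stdGaussian (E d)) := by
  have h := (integrable_exp_inner (-p)).mul_const (rexp (-c))
  refine h.congr (ae_of_all _ fun x => ?_)
  simp only
  rw [← Real.exp_add, inner_neg_right, sub_eq_add_neg]

lemma map_sub_stdGaussian {d : ℕ} (p : E d) :
    (stdGaussian (E d)).map (fun x => x - p)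
      = (stdGaussian (E d)).withDensity
          (fun x => ENNReal.ofReal (rexp (-(inner ℝ x p) - ‖p‖ ^ 2 / 2))) := by
  have hint := integrable_exp_neg_inner p (‖p‖ ^ 2 / 2)
  have : IsFiniteMeasure ((stdGaussian (E d)).withDensity
          (fun x => ENNReal.ofReal (rexp (-(inner ℝ x p) - ‖p‖ ^ 2 / 2)))) :=
    isFiniteMeasure_withDensity_ofReal hint.2
  have : IsProbabilityMeasure ((stdGaussian (E d)).map (fun x => x - p)) :=
    Measure.isProbabilityMeasure_map (by fun_prop)
  apply Measure.ext_of_charFun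
  ext t
  rw [charFun_apply, charFun_apply, integral_map (by fun_prop) (by fun_prop),
    integral_withDensity_eq_integral_toReal_smul (by fun_prop) (by simp)]
  have hL : ∫ x : E d, Complex.exp ((inner ℝ (x - p) t : ℝ) * Complex.I) ∂(stdGaussian (E d))
      = Complex.exp (-((inner ℝ p t : ℝ) : ℂ) * Complex.I - ‖t‖ ^ 2 / 2) := by
    have h1 := charFun_stdGaussian (E := E d) t
    rw [charFun_apply] at h1
    have h2 : ∀ x : E d, Complex.exp ((inner ℝ (x - p) t : ℝ) * Complex.I)
        = Complex.exp (-((inner ℝ p t : ℝ) : ℂ) * Complex.I)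
          * Complex.exp ((inner ℝ x t : ℝ) * Complex.I) := by
      intro x
      rw [← Complex.exp_add, inner_sub_left]
      congr 1
      push_cast
      ring
    simp_rw [h2]
    rw [integral_const_mul, h1, ← Complex.exp_add]
    congr 1
    ring
  rw [hL, ← map_pi_eq_stdGaussian, integral_map (by fun_prop) (by
    apply Measurable.aestronglyMeasurable
    fun_prop)]
  have h3 : ∀ x : Fin d → ℝ,
      ((ENNReal.ofReal (rexp (-(inner ℝ (WithLp.toLp 2 x : E d) p) - ‖p‖ ^ 2 / 2))).toReal •
        Complex.exp ((inner ℝ (WithLp.toLp 2 x : E d) t : ℝ) * Complex.I))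
      = Complex.exp (-(‖p‖ ^ 2 / 2)) *
        ∏ i, Complex.exp ((-(p i : ℂ) + (t i : ℂ) * Complex.I) * (x i : ℂ)) := by
    intro x
    rw [ENNReal.toReal_ofReal (Real.exp_pos _).le, ← Complex.exp_sum, Complex.real_smul,
      Complex.ofReal_exp, ← Complex.exp_add, ← Complex.exp_add]
    congr 1
    simp only [PiLp.inner_apply, RCLike.inner_apply, conj_trivial]
    push_cast
    simp_rw [add_mul, Finset.sum_add_distrib, neg_mul, Finset.sum_neg_distrib]
    rw [Finset.sum_mul]
    have : ∀ i, (t i : ℂ) * Complex.I * (x i : ℂ) = (t i : ℂ) * (x i : ℂ) * Complex.I := by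
      intro i; ring
    simp_rw [this]
    ring
  simp_rw [h3]
  rw [integral_const_mul,
    integral_fintype_prod_eq_prod (f := fun i (y : ℝ) =>
      Complex.exp ((-(p i : ℂ) + (t i : ℂ) * Complex.I) * (y : ℂ)))]
  have h4 : ∀ i, ∫ y : ℝ, Complex.exp ((-(p i : ℂ) + (t i : ℂ) * Complex.I) * (y : ℂ))
      ∂(gaussianReal 0 1) = Complex.exp ((-(p i : ℂ) + (t i : ℂ) * Complex.I) ^ 2 / 2) := by
    intro i
    have h5 := complexMGF_id_gaussianReal (μ := 0) (v := 1) (-(p i : ℂ) + (t i : ℂ) * Complex.I)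
    unfold complexMGF at h5
    simp only [id] at h5
    rw [h5]
    congr 1
    push_cast
    ring
  simp_rw [h4]
  rw [← Complex.exp_sum, ← Complex.exp_add]
  congr 1
  have h6 : ((inner ℝ p t : ℝ) : ℂ) = ∑ i, (t i : ℂ) * (p i : ℂ) := by
    simp only [PiLp.inner_apply, RCLike.inner_apply, conj_trivial]
    push_cast
    rfl
  have h7 : (‖p‖ : ℂ) ^ 2 = ∑ i, (p i : ℂ) ^ 2 := by
    rw [← Complex.ofReal_pow, EuclideanSpace.real_norm_sq_eq]
    push_cast
    rfl
  have h8 : (‖t‖ : ℂ) ^ 2 = ∑ i, (t i : ℂ) ^ 2 := by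
    rw [← Complex.ofReal_pow, EuclideanSpace.real_norm_sq_eq]
    push_cast
    rfl
  rw [h6, h7, h8, ← Finset.sum_div]
  have h9 : ∀ i, (-(p i : ℂ) + (t i : ℂ) * Complex.I) ^ 2
      = (p i : ℂ) ^ 2 - (t i : ℂ) ^ 2 - 2 * ((t i : ℂ) * (p i : ℂ)) * Complex.I := by
    intro i
    have := Complex.I_sq
    linear_combination (t i : ℂ) ^ 2 * this
  simp_rw [h9, Finset.sum_sub_distrib]
  rw [← Finset.sum_mul, ← Finset.mul_sum]
  ring

theorem real_translate {d : ℕ} (A : Set (E d)) (hA : MeasurableSet A) (p : E d) :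
    (stdGaussian (E d)).real {x | x - p ∈ A}
      = ∫ x in A, rexp (-(inner ℝ x p) - ‖p‖ ^ 2 / 2) ∂(stdGaussian (E d)) := by
  have h1 : (stdGaussian (E d)) {x | x - p ∈ A}
      = ((stdGaussian (E d)).map (fun x => x - p)) A := by
    rw [Measure.map_apply (by fun_prop) hA]
    rfl
  rw [measureReal_def, h1, map_sub_stdGaussian, withDensity_apply _ hA,
    integral_eq_lintegral_of_nonneg_ae (ae_of_all _ fun x => (Real.exp_pos _).le)
      (integrable_exp_neg_inner p _).integrableOn.aestronglyMeasurable]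

theorem real_translate_ge {d : ℕ} (A : Set (E d)) (hA : MeasurableSet A) (p : E d) :
    (stdGaussian (E d)).real A - inner ℝ (∫ x in A, x ∂(stdGaussian (E d))) p - ‖p‖ ^ 2 / 2
      ≤ (stdGaussian (E d)).real {x | x - p ∈ A} := by
  rw [real_translate A hA p]
  have hid : Integrable (fun x : E d => x) (stdGaussian (E d)) := IsGaussian.integrable_id
  have hin : Integrable (fun x : E d => inner ℝ p x) (stdGaussian (E d)) := hid.const_inner p
  have h1 : inner ℝ (∫ x in A, x ∂(stdGaussian (E d))) p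
      = ∫ x in A, inner ℝ p x ∂(stdGaussian (E d)) := by
    rw [real_inner_comm, integral_inner hid.integrableOn]
  have h2 : ∫ x in A, ((1 - ‖p‖ ^ 2 / 2) - inner ℝ p x) ∂(stdGaussian (E d))
      = (1 - ‖p‖ ^ 2 / 2) * (stdGaussian (E d)).real A
        - ∫ x in A, inner ℝ p x ∂(stdGaussian (E d)) := by
    rw [integral_sub (integrable_const _) hin.integrableOn]
    congr 1
    simp [mul_comm]
  have h3 : ∫ x in A, ((1 - ‖p‖ ^ 2 / 2) - inner ℝ p x) ∂(stdGaussian (E d))
      ≤ ∫ x in A, rexp (-(inner ℝ x p) - ‖p‖ ^ 2 / 2) ∂(stdGaussian (E d)) := by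
    apply integral_mono
    · exact (integrable_const _).sub hin.integrableOn
    · exact (integrable_exp_neg_inner p _).integrableOn
    · intro x
      have := Real.add_one_le_exp (-(inner ℝ x p) - ‖p‖ ^ 2 / 2)
      simp only
      rw [real_inner_comm x p]
      linarith
  have h4 : (stdGaussian (E d)).real A ≤ 1 := measureReal_le_one
  have h5 : 0 ≤ ‖p‖ ^ 2 / 2 := by positivity
  rw [h1]
  nlinarith

theorem hasDerivAt_translate {d : ℕ} (A : Set (E d)) (hA : MeasurableSet A) (p : E d) :
    HasDerivAt (fun τ : ℝ => (stdGaussian (E d)).real {x | x - τ • p ∈ A})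
      (-(inner ℝ (∫ x in A, x ∂(stdGaussian (E d))) p)) 0 := by
  have hid : Integrable (fun x : E d => x) (stdGaussian (E d)) := IsGaussian.integrable_id
  have h1 : inner ℝ (∫ x in A, x ∂(stdGaussian (E d))) p
      = ∫ x in A, inner ℝ p x ∂(stdGaussian (E d)) := by
    rw [real_inner_comm, integral_inner hid.integrableOn]
  set F : ℝ → E d → ℝ := fun τ x => rexp (-(inner ℝ x (τ • p)) - ‖τ • p‖ ^ 2 / 2) with hF
  set F' : ℝ → E d → ℝ := fun τ x =>
    rexp (-(inner ℝ x (τ • p)) - ‖τ • p‖ ^ 2 / 2) * (-(inner ℝ x p) - τ * ‖p‖ ^ 2) with hF'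
  have heq : (fun τ : ℝ => (stdGaussian (E d)).real {x | x - τ • p ∈ A})
      = fun τ => ∫ x in A, F τ x ∂(stdGaussian (E d)) := by
    ext τ
    exact real_translate A hA (τ • p)
  rw [heq, h1]
  have hrew : ∀ (τ : ℝ) (x : E d), -(inner ℝ x (τ • p)) - ‖τ • p‖ ^ 2 / 2
      = -(τ * inner ℝ x p) - τ ^ 2 * ‖p‖ ^ 2 / 2 := by
    intro τ x
    rw [real_inner_smul_right, norm_smul, mul_pow, Real.norm_eq_abs, sq_abs]
  have key := hasDerivAt_integral_of_dominated_loc_of_deriv_le
    (μ := (stdGaussian (E d)).restrict A) (F := F) (F' := F') (x₀ := 0)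
    (s := Metric.ball 0 1)
    (bound := fun x => (rexp (inner ℝ x ((2:ℝ) • p)) + rexp (inner ℝ x (-((2:ℝ) • p)))
      + ‖p‖ ^ 2 * (rexp (inner ℝ x p) + rexp (inner ℝ x (-p)))))
    (Metric.ball_mem_nhds _ one_pos)
    (Eventually.of_forall fun τ => by
      apply Measurable.aestronglyMeasurable
      simp only [hF]
      fun_prop)
    (integrable_exp_neg_inner ((0:ℝ) • p) _).integrableOn
    (by
      apply Measurable.aestronglyMeasurable
      simp only [hF']
      fun_prop)
    (ae_of_all _ fun x τ hτ => by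
      rw [Metric.mem_ball, dist_zero_right, Real.norm_eq_abs] at hτ
      simp only [hF']
      rw [hrew, norm_mul, Real.norm_eq_abs, Real.norm_eq_abs, abs_of_pos (Real.exp_pos _)]
      set u : ℝ := inner ℝ x p with hu
      have h2 : |(-u - τ * ‖p‖ ^ 2)| ≤ |u| + ‖p‖ ^ 2 := by
        have h3 : |τ * ‖p‖ ^ 2| ≤ ‖p‖ ^ 2 := by
          rw [abs_mul, abs_of_nonneg (by positivity : (0:ℝ) ≤ ‖p‖ ^ 2)]
          have : 0 ≤ ‖p‖ ^ 2 := by positivity
          nlinarith
        calc |(-u - τ * ‖p‖ ^ 2)| ≤ |(-u)| + |τ * ‖p‖ ^ 2| := abs_sub _ _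
          _ ≤ _ := by rw [abs_neg]; linarith
      have h4 : rexp (-(τ * u) - τ ^ 2 * ‖p‖ ^ 2 / 2) ≤ rexp |u| := by
        apply Real.exp_le_exp.2
        have h5 : -(τ * u) ≤ |u| := by
          have := neg_abs_le (τ * u)
          rw [abs_mul] at this
          have h6 : |τ| * |u| ≤ |u| := by
            have := abs_nonneg u
            nlinarith
          linarith
        have : 0 ≤ τ ^ 2 * ‖p‖ ^ 2 / 2 := by positivity
        linarith
      have h7 : rexp |u| ≤ rexp u + rexp (-u) := by
        rcases abs_cases u with ⟨h, _⟩ | ⟨h, _⟩ <;> rw [h] <;>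
          linarith [Real.exp_pos u, Real.exp_pos (-u)]
      have h8 : |u| * rexp |u| ≤ rexp (2 * u) + rexp (-(2 * u)) := by
        have h9 : |u| ≤ rexp |u| := by linarith [Real.add_one_le_exp |u|]
        have h10 : |u| * rexp |u| ≤ rexp (2 * |u|) := by
          rw [two_mul, Real.exp_add]
          exact mul_le_mul_of_nonneg_right h9 (Real.exp_pos _).le
        refine h10.trans ?_
        rcases abs_cases u with ⟨h, _⟩ | ⟨h, _⟩ <;> rw [h]
        · linarith [Real.exp_pos (-(2 * u))]
        · rw [show 2 * -u = -(2 * u) by ring]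
          linarith [Real.exp_pos (2 * u)]
      have e1 : inner ℝ x ((2:ℝ) • p) = 2 * u := by rw [real_inner_smul_right]
      have e2 : inner ℝ x (-((2:ℝ) • p)) = -(2 * u) := by rw [inner_neg_right, e1]
      have e3 : inner ℝ x (-p) = -u := by rw [inner_neg_right]
      rw [e1, e2, e3]
      calc rexp (-(τ * u) - τ ^ 2 * ‖p‖ ^ 2 / 2) * |(-u - τ * ‖p‖ ^ 2)|
          ≤ rexp |u| * (|u| + ‖p‖ ^ 2) := by
            apply mul_le_mul h4 h2 (abs_nonneg _) (Real.exp_pos _).le
        _ = |u| * rexp |u| + ‖p‖ ^ 2 * rexp |u| := by ring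
        _ ≤ _ := by
            have : 0 ≤ ‖p‖ ^ 2 := by positivity
            nlinarith)
    (by
      apply Integrable.integrableOn
      exact ((integrable_exp_inner _).add (integrable_exp_inner _)).add
        (((integrable_exp_inner _).add (integrable_exp_inner _)).const_mul _))
    (ae_of_all _ fun x τ hτ => by
      have hd : HasDerivAt (fun τ : ℝ => -(τ * inner ℝ x p) - τ ^ 2 * ‖p‖ ^ 2 / 2)
          (-(inner ℝ x p) - τ * ‖p‖ ^ 2) τ := by
        have h2 := ((hasDerivAt_id τ).mul_const (inner ℝ x p)).neg.sub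
          (((hasDerivAt_pow 2 τ).mul_const (‖p‖ ^ 2)).div_const 2)
        refine h2.congr_deriv ?_
        simp
        ring
      have h3 := hd.exp
      simp only [hF, hF']
      simp_rw [hrew]
      exact h3)
  have h2 := key.2
  refine h2.congr_deriv ?_
  simp only [hF']
  simp only [zero_smul, inner_zero_right, neg_zero, norm_zero, zero_mul, sub_zero]
  rw [← integral_neg]
  refine integral_congr_ae (ae_of_all _ fun x => ?_)
  simp only
  rw [real_inner_comm]
  norm_num

end Vale.Agent.P226
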