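import Vale.Agent.P226.Full.Emax
import Vale.Agent.P226.SmallCells

/-! Task P226-S3: consequences of criticality (linear algebra, cap inequality). -/

namespace Vale.Agent.P226

open MeasureTheory ProbabilityTheory Real Set Filter Topology

variable {ι : Type} [Fintype ι] {d : ℕ} {z : ι → E d}

/-- The kernel of `c ↦ ∑ c_i z_i` consists of the constants. -/
theorem Crit.const_of_sum_eq_zero (hz : Crit z) (c : ι → ℝ) (hc : ∑ i, c i • z i = 0) (i j : ι) :
    c i = c j := by
  have hrow : ∀ a : ι, ∑ b, (inner ℝ (z a) (z b) : ℝ) = 0 := by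
    intro a
    rw [← inner_sum, hz.sum_zero, inner_zero_right]
  have h0 : ∑ a, ∑ b, c a * c b * (inner ℝ (z a) (z b) : ℝ) = 0 := by
    have h1 : (inner ℝ (∑ a, c a • z a) (∑ b, c b • z b) : ℝ) = 0 := by
      rw [hc, inner_zero_left]
    rw [sum_inner] at h1
    rw [← h1]
    refine Finset.sum_congr rfl fun a _ => ?_
    rw [inner_sum]
    refine Finset.sum_congr rfl fun b _ => ?_
    rw [inner_smul_left, inner_smul_right]
    simp only [RCLike.conj_to_real]
    ring
  have hA : ∑ a, ∑ b, c a ^ 2 * (inner ℝ (z a) (z b) : ℝ) = 0 := by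
    refine Finset.sum_eq_zero fun a _ => ?_
    rw [← Finset.mul_sum, hrow a, mul_zero]
  have hB : ∑ a, ∑ b, c b ^ 2 * (inner ℝ (z a) (z b) : ℝ) = 0 := by
    rw [Finset.sum_comm]
    refine Finset.sum_eq_zero fun b _ => ?_
    rw [← Finset.mul_sum]
    have : ∑ a, (inner ℝ (z a) (z b) : ℝ) = 0 := by
      rw [← hrow b]
      exact Finset.sum_congr rfl fun a _ => real_inner_comm _ _
    rw [this, mul_zero]
  have hsum : ∑ a, ∑ b, -(inner ℝ (z a) (z b) : ℝ) * (c a - c b) ^ 2 = 0 := by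
    have e : ∑ a, ∑ b, -(inner ℝ (z a) (z b) : ℝ) * (c a - c b) ^ 2
        = -(∑ a, ∑ b, c a ^ 2 * (inner ℝ (z a) (z b) : ℝ))
          - (∑ a, ∑ b, c b ^ 2 * (inner ℝ (z a) (z b) : ℝ))
          + 2 * ∑ a, ∑ b, c a * c b * (inner ℝ (z a) (z b) : ℝ) := by
      rw [Finset.mul_sum, ← Finset.sum_neg_distrib, ← Finset.sum_sub_distrib,
        ← Finset.sum_add_distrib]
      refine Finset.sum_congr rfl fun a _ => ?_
      rw [Finset.mul_sum, ← Finset.sum_neg_distrib, ← Finset.sum_sub_distrib,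
        ← Finset.sum_add_distrib]
      refine Finset.sum_congr rfl fun b _ => ?_
      ring
    rw [e, hA, hB, h0]
    ring
  have hnn : ∀ a b : ι, 0 ≤ -(inner ℝ (z a) (z b) : ℝ) * (c a - c b) ^ 2 := by
    intro a b
    by_cases hab : a = b
    · subst hab; simp
    · have := hz.neg a b hab
      exact mul_nonneg (by linarith) (sq_nonneg _)
  have h1 := (Finset.sum_eq_zero_iff_of_nonneg fun a _ =>
    Finset.sum_nonneg fun b _ => hnn a b).1 hsum i (Finset.mem_univ i)
  have h2 := (Finset.sum_eq_zero_iff_of_nonneg fun b _ => hnn i b).1 h1 j (Finset.mem_univ j)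
  by_cases hij : i = j
  · rw [hij]
  · have h3 := hz.neg i j hij
    have h4 : (c i - c j) ^ 2 = 0 := by
      rcases mul_eq_zero.1 h2 with h | h
      · linarith
      · exact h
    have h5 : c i - c j = 0 := by simpa using h4
    linarith

theorem Crit.exists_dual (hz : Crit z) (t : ι → ℝ) (ht : ∑ i, t i = 0) :
    ∃ x : E d, ∀ j, inner ℝ x (z j) = t j := by
  classical
  -- the linear map `x ↦ (⟨x, z_j⟩)_j`
  let T : E d →ₗ[ℝ] (ι → ℝ) :=
    LinearMap.pi fun j => ((innerSL ℝ (z j) : E d →L[ℝ] ℝ) : E d →ₗ[ℝ] ℝ)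
  have hT : ∀ x j, T x j = inner ℝ (z j) x := fun x j => rfl
  by_contra hne
  have hnot : t ∉ LinearMap.range T := by
    rintro ⟨x, hx⟩
    apply hne
    refine ⟨x, fun j => ?_⟩
    rw [real_inner_comm, ← hT, hx]
  obtain ⟨f, hft, hf⟩ := Submodule.exists_le_ker_of_notMem hnot
  have hfc : ∀ u : ι → ℝ, f u = ∑ j, u j * f (Pi.single j 1) := by
    intro u
    conv_lhs => rw [← Finset.univ_sum_single u]
    rw [map_sum]
    refine Finset.sum_congr rfl fun j _ => ?_
    have : (Pi.single j (u j) : ι → ℝ) = u j • Pi.single j (1:ℝ) := by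
      rw [← Pi.single_smul, smul_eq_mul, mul_one]
    rw [this, map_smul, smul_eq_mul]
  have h1 : ∑ j, f (Pi.single j 1) • z j = 0 := by
    have h2 : ∀ x : E d, inner ℝ (∑ j, f (Pi.single j 1) • z j) x = (0:ℝ) := by
      intro x
      have h3 : f (T x) = 0 := hf ⟨x, rfl⟩
      rw [hfc] at h3
      rw [sum_inner, ← h3]
      refine Finset.sum_congr rfl fun j _ => ?_
      rw [inner_smul_left, hT]
      simp only [RCLike.conj_to_real]
      ring
    have h4 := h2 (∑ j, f (Pi.single j 1) • z j)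
    exact inner_self_eq_zero.1 h4
  have hconst := hz.const_of_sum_eq_zero (fun j => f (Pi.single j 1)) h1
  apply hft
  rw [hfc]
  rcases isEmpty_or_nonempty ι with he | ⟨⟨i0⟩⟩
  · simp
  · have : ∀ j, t j * f (Pi.single j 1) = t j * f (Pi.single i0 1) := by
      intro j; rw [hconst j i0]
    simp_rw [this]
    rw [← Finset.sum_mul, ht, zero_mul]

lemma Crit.ne_zero (hz : Crit z) (i : ι) : z i ≠ 0 := by
  intro h0
  have hc : 1 < Fintype.card ι := by have := hz.card; omega
  obtain ⟨j, hj⟩ := Fintype.exists_ne_of_one_lt_card hc i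
  have := hz.neg j i hj
  rw [h0, inner_zero_right] at this
  exact lt_irrefl _ this

theorem Crit.real_cell_pos (hz : Crit z) (i : ι) : 0 < (stdGaussian (E d)).real (cell z i) := by
  rcases (measureReal_nonneg (μ := stdGaussian (E d)) (s := cell z i)).eq_or_lt with h | h
  · exfalso
    have h0 : (stdGaussian (E d)) (cell z i) = 0 := by
      have h' := h.symm
      rwa [measureReal_eq_zero_iff] at h'
    apply hz.ne_zero i
    rw [← hz.moment i, Measure.restrict_eq_zero.2 h0, integral_zero_measure]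
  · exact h

/-- Half-spaces through the origin have measure `1/2`. -/
lemma crit_real_halfspace_le (w : E d) (hw : w ≠ 0) :
    (stdGaussian (E d)).real {x | 0 ≤ inner ℝ x w} ≤ 1 / 2 := by
  have hA : MeasurableSet {x : E d | 0 ≤ inner ℝ w x} :=
    measurableSet_le measurable_const (by fun_prop)
  have h1 : (stdGaussian (E d)).real {x | 0 ≤ inner ℝ x w}
      = ((stdGaussian (E d)).map (fun x => inner ℝ w x)).real (Ici 0) := by
    rw [map_measureReal_apply (by fun_prop) measurableSet_Ici]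
    congr 1
    ext x
    simp only [mem_ofPred_eq, mem_preimage, mem_Ici]
    rw [real_inner_comm]
  rw [h1, map_inner_stdGaussian]
  have hv : (‖w‖₊ ^ 2 : NNReal) ≠ 0 := by
    have : ‖w‖₊ ≠ 0 := by simpa using hw
    positivity
  have := ProbabilityTheory.nullSingletonClass_gaussianReal (μ := 0) hv
  have hneg : (gaussianReal 0 (‖w‖₊ ^ 2)).map (fun x => -x) = gaussianReal 0 (‖w‖₊ ^ 2) := by
    rw [gaussianReal_map_neg]; simp
  have h2 : (gaussianReal 0 (‖w‖₊ ^ 2)).real (Ici 0) = (gaussianReal 0 (‖w‖₊ ^ 2)).real (Iic 0) := by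
    conv_lhs => rw [← hneg]
    rw [map_measureReal_apply (by fun_prop) measurableSet_Ici]
    congr 1
    ext x
    simp
  have h3 : (gaussianReal 0 (‖w‖₊ ^ 2)).real (Iic 0) + (gaussianReal 0 (‖w‖₊ ^ 2)).real (Iic 0)ᶜ = 1 :=
    probReal_add_probReal_compl measurableSet_Iic
  have h4 : (gaussianReal 0 (‖w‖₊ ^ 2)).real (Iic 0)ᶜ = (gaussianReal 0 (‖w‖₊ ^ 2)).real (Ici 0) := by
    rw [compl_Iic]
    exact measureReal_congr Ioi_ae_eq_Ici
  linarith

/-- On the cell `A_i`, `⟨x, z_i⟩ ≥ 0`, hence the cell has measure at most `1/2`. -/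
theorem Crit.real_cell_le_half (hz : Crit z) (i : ι) :
    (stdGaussian (E d)).real (cell z i) ≤ 1 / 2 := by
  refine le_trans (measureReal_mono ?_ (measure_ne_top _ _)) (crit_real_halfspace_le (z i) (hz.ne_zero i))
  intro x hx
  have h1 : ∑ j, (inner ℝ x (z j) : ℝ) = 0 := by rw [← inner_sum, hz.sum_zero, inner_zero_right]
  have h2 : ∑ j, (inner ℝ x (z j) : ℝ) ≤ ∑ _j : ι, (inner ℝ x (z i) : ℝ) :=
    Finset.sum_le_sum fun j _ => hx j
  rw [h1, Finset.sum_const, Finset.card_univ, nsmul_eq_mul] at h2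
  have h3 : (0:ℝ) < Fintype.card ι := by have := hz.card; exact_mod_cast (by omega)
  exact nonneg_of_mul_nonneg_right h2 h3

/-- There is `y ≥ 0` with `Q(y) = γ(A_i)` and then `|z_i| ≤ φ(y)`. -/
theorem Crit.exists_y (hz : Crit z) (i : ι) :
    ∃ y : ℝ, 0 ≤ y ∧ gQ y = (stdGaussian (E d)).real (cell z i) ∧ ‖z i‖ ≤ gphi y := by
  have hcont : Continuous gQ := continuous_iff_continuousAt.2 fun t => (hasDerivAt_gQ t).continuousAt
  obtain ⟨T, hT1, hT2⟩ := ((tendsto_gQ_atTop.eventually (gt_mem_nhds (hz.real_cell_pos i))).and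
    (eventually_ge_atTop (0:ℝ))).exists
  have h := intermediate_value_Icc' hT2 hcont.continuousOn
  have : (stdGaussian (E d)).real (cell z i) ∈ Icc (gQ T) (gQ 0) :=
    ⟨hT1.le, by rw [gQ_zero]; exact hz.real_cell_le_half i⟩
  obtain ⟨t, ht, hta⟩ := h this
  refine ⟨t, ht.1, hta, ?_⟩
  rw [← hz.moment i]
  exact norm_moment_le (cell z i) t ht.1 hta.ge

end Vale.Agent.P226
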