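import Vale.Agent.P226.Full.Spherical
import Vale.Agent.P226.Full.CritBasic

/-! Task P226-CAP3: sharper cap inequality for `k = 4` (cones in `ℝ³`). -/

namespace Vale.Agent.P226

open MeasureTheory ProbabilityTheory Real Set Filter Topology
open scoped ENNReal

/-- integrals over the latitude -/
lemma c3_lat (u : ℝ → ℝ) (hu : Continuous u) (hu0 : ∀ t, 0 ≤ u t) :
    ∫⁻ φ in Ioo (-π) π, ENNReal.ofReal (cos φ) * ENNReal.ofReal (u (sin φ)) =
      ENNReal.ofReal (∫ t in (-1:ℝ)..1, u t) := by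
  have hpi := Real.pi_pos
  have h1 : ∫⁻ φ in Ioo (-π) π, ENNReal.ofReal (cos φ) * ENNReal.ofReal (u (sin φ)) =
      ∫⁻ φ in Ioc (-(π / 2)) (π / 2), ENNReal.ofReal (cos φ) * ENNReal.ofReal (u (sin φ)) := by
    rw [← lintegral_indicator measurableSet_Ioo, ← lintegral_indicator measurableSet_Ioc]
    refine lintegral_congr fun φ => ?_
    by_cases h2 : φ ∈ Ioc (-(π / 2)) (π / 2)
    · have h3 : φ ∈ Ioo (-π) π := ⟨by linarith [h2.1], by linarith [h2.2]⟩
      rw [indicator_of_mem h2, indicator_of_mem h3]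
    · rw [indicator_of_notMem h2]
      by_cases h3 : φ ∈ Ioo (-π) π
      · rw [indicator_of_mem h3]
        have h4 : cos φ ≤ 0 := by
          rw [mem_Ioc, not_and_or, not_lt, not_le] at h2
          rcases h2 with h2 | h2
          · rw [← cos_neg]
            exact cos_nonpos_of_pi_div_two_le_of_le (by linarith) (by linarith [h3.1])
          · exact cos_nonpos_of_pi_div_two_le_of_le (by linarith) (by linarith [h3.2])
        rw [ENNReal.ofReal_of_nonpos h4, zero_mul]
      · rw [indicator_of_notMem h3]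
  rw [h1]
  have hc : Continuous fun φ => u (sin φ) * cos φ := by fun_prop
  have h5 : ∫⁻ φ in Ioc (-(π / 2)) (π / 2), ENNReal.ofReal (cos φ) * ENNReal.ofReal (u (sin φ)) =
      ∫⁻ φ in Ioc (-(π / 2)) (π / 2), ENNReal.ofReal (u (sin φ) * cos φ) := by
    refine setLIntegral_congr_fun measurableSet_Ioc fun φ _ => ?_
    rw [ENNReal.ofReal_mul (hu0 _), mul_comm]
  rw [h5, ← ofReal_integral_eq_lintegral_ofReal]
  · rw [← intervalIntegral.integral_of_le (by linarith)]
    congr 1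
    have h6 := intervalIntegral.integral_comp_mul_deriv (a := -(π / 2)) (b := π / 2)
      (f := sin) (f' := cos) (g := u) (fun x _ => hasDerivAt_sin x) continuous_cos.continuousOn hu
    rw [sin_neg, sin_pi_div_two] at h6
    exact h6
  · exact (hc.integrableOn_Icc (a := -(π / 2)) (b := π / 2)).mono_set Ioc_subset_Icc_self
  · rw [Filter.EventuallyLE, ae_restrict_iff' measurableSet_Ioc]
    refine ae_of_all _ fun φ hφ => ?_
    exact mul_nonneg (hu0 _) (cos_nonneg_of_neg_pi_div_two_le_of_le hφ.1.le hφ.2)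

lemma c3_theta (C : ℝ≥0∞) : ∫⁻ _θ in Ioo (-π) π, C = C * ENNReal.ofReal (2 * π) := by
  rw [lintegral_const, Measure.restrict_apply MeasurableSet.univ, univ_inter, Real.volume_Ioo]
  congr 2
  ring

lemma c3_ramp (c : ℝ) (h1 : -1 ≤ c) (h2 : c ≤ 1) :
    ∫ t in (-1:ℝ)..1, max (t - c) 0 = (1 - c) ^ 2 / 2 := by
  have hc : Continuous fun t : ℝ => max (t - c) 0 := by fun_prop
  rw [← intervalIntegral.integral_add_adjacent_intervals (b := c) (hc.intervalIntegrable _ _)
    (hc.intervalIntegrable _ _)]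
  have e1 : ∫ t in (-1:ℝ)..c, max (t - c) 0 = 0 := by
    rw [intervalIntegral.integral_congr (g := fun _ => (0:ℝ))]
    · simp
    · intro t ht
      rw [uIcc_of_le h1] at ht
      exact max_eq_right (by linarith [ht.2])
  have e2 : ∫ t in c..1, max (t - c) 0 = ∫ t in c..1, (t - c) := by
    refine intervalIntegral.integral_congr fun t ht => ?_
    rw [uIcc_of_le h2] at ht
    exact max_eq_left (by linarith [ht.1])
  have i1 : IntervalIntegrable (fun t : ℝ => t) volume c 1 := continuous_id.intervalIntegrable _ _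
  have i2 : IntervalIntegrable (fun _ : ℝ => c) volume c 1 := continuous_const.intervalIntegrable _ _
  rw [e1, e2, intervalIntegral.integral_sub i1 i2]
  simp only [integral_id, intervalIntegral.integral_const, smul_eq_mul]
  ring

lemma c3_rad1 : rad 1 = ENNReal.ofReal (2 * (√(2 * π))⁻¹ ^ 3) := by
  unfold rad
  have hd : ∀ x : ℝ, HasDerivAt
      (fun R : ℝ => -(R ^ 2 + 2) * ((√(2 * π))⁻¹ ^ 3 * rexp (-(R ^ 2) / 2)))
      (x ^ (1 + 2) * ((√(2 * π))⁻¹ ^ 3 * rexp (-(x ^ 2) / 2))) x := by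
    intro x
    have h1 : HasDerivAt (fun t : ℝ => -(t ^ 2) / 2) (-x) x := by
      have := ((hasDerivAt_pow 2 x).fun_neg).div_const 2
      exact this.congr_deriv (by norm_num; ring)
    have h2 := (h1.exp).const_mul ((√(2 * π))⁻¹ ^ 3)
    have h3 : HasDerivAt (fun t : ℝ => -(t ^ 2 + 2)) (-(2 * x)) x := by
      have := ((hasDerivAt_pow 2 x).add_const 2).fun_neg
      exact this.congr_deriv (by norm_num)
    have h4 := h3.mul h2
    exact h4.congr_deriv (by ring)
  have hcont : ContinuousWithinAt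
      (fun R : ℝ => -(R ^ 2 + 2) * ((√(2 * π))⁻¹ ^ 3 * rexp (-(R ^ 2) / 2))) (Ici 0) 0 :=
    (hd 0).continuousAt.continuousWithinAt
  have hpos : ∀ x ∈ Ioi (0:ℝ), 0 ≤ x ^ (1 + 2) * ((√(2 * π))⁻¹ ^ 3 * rexp (-(x ^ 2) / 2)) := by
    intro x hx
    have : (0:ℝ) < x := hx
    positivity
  have hlim : Tendsto (fun R : ℝ => -(R ^ 2 + 2) * ((√(2 * π))⁻¹ ^ 3 * rexp (-(R ^ 2) / 2)))
      atTop (𝓝 0) := by
    have hsq : Tendsto (fun R : ℝ => R ^ 2 / 2) atTop atTop :=
      (tendsto_pow_atTop two_ne_zero).atTop_div_const (by norm_num)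
    have h1 := (Real.tendsto_pow_mul_exp_neg_atTop_nhds_zero 1).comp hsq
    have h0 := (Real.tendsto_pow_mul_exp_neg_atTop_nhds_zero 0).comp hsq
    have h2 := ((h1.const_mul (-2 * (√(2 * π))⁻¹ ^ 3)).add (h0.const_mul (-2 * (√(2 * π))⁻¹ ^ 3)))
    rw [mul_zero, add_zero] at h2
    refine h2.congr fun R => ?_
    simp only [Function.comp]
    rw [show -(R ^ 2 / 2) = -(R ^ 2) / 2 by ring]
    ring
  have hint := integrableOn_Ioi_deriv_of_nonneg hcont (fun x _ => hd x) hpos hlim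
  have hval := integral_Ioi_of_hasDerivAt_of_nonneg hcont (fun x _ => hd x) hpos hlim
  rw [← ofReal_integral_eq_lintegral_ofReal hint, hval]
  · congr 1
    simp
  · rw [Filter.EventuallyLE, ae_restrict_iff' measurableSet_Ioi]
    exact ae_of_all _ hpos

/-- the Euclidean norm on `ℝ × ℝ × ℝ` -/
noncomputable def N3 (y : ℝ × ℝ × ℝ) : ℝ := √(y.1 ^ 2 + (y.2.1 ^ 2 + y.2.2 ^ 2))

lemma N3_meas : Measurable N3 := by
  unfold N3; fun_prop

lemma N3_smul (c : ℝ) (hc : 0 < c) (y : ℝ × ℝ × ℝ) : N3 (c • y) = c * N3 y := by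
  unfold N3
  simp only [Prod.smul_fst, Prod.smul_snd, smul_eq_mul]
  rw [show (c * y.1) ^ 2 + ((c * y.2.1) ^ 2 + (c * y.2.2) ^ 2) =
    c ^ 2 * (y.1 ^ 2 + (y.2.1 ^ 2 + y.2.2 ^ 2)) by ring, Real.sqrt_mul (by positivity),
    Real.sqrt_sq hc.le]

lemma N3_sph (θ φ : ℝ) : N3 (sin φ, cos φ * cos θ, cos φ * sin θ) = 1 := by
  unfold N3
  simp only
  rw [show sin φ ^ 2 + ((cos φ * cos θ) ^ 2 + (cos φ * sin θ) ^ 2) =
    sin φ ^ 2 + cos φ ^ 2 * (sin θ ^ 2 + cos θ ^ 2) by ring, sin_sq_add_cos_sq, mul_one,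
    sin_sq_add_cos_sq, Real.sqrt_one]

lemma N3_nonneg (y : ℝ × ℝ × ℝ) : 0 ≤ N3 y := Real.sqrt_nonneg _

lemma abs_fst_le_N3 (y : ℝ × ℝ × ℝ) : |y.1| ≤ N3 y := by
  unfold N3
  rw [← Real.sqrt_sq_eq_abs]
  apply Real.sqrt_le_sqrt
  nlinarith [sq_nonneg y.2.1, sq_nonneg y.2.2]

lemma c3_sph_one : sph (fun _ => 1) = ENNReal.ofReal (4 * π) := by
  unfold sph
  have h := c3_lat (fun _ => 1) continuous_const (fun _ => by norm_num)
  simp only [ENNReal.ofReal_one, mul_one] at h
  simp only [mul_one]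
  rw [h, c3_theta, ← ENNReal.ofReal_mul]
  · congr 1
    simp
    ring
  · simp

lemma c3_rad0 : rad 0 * ENNReal.ofReal (4 * π) = 1 := by
  have h := spherical (fun _ => 1) measurable_const 0 (fun c hc y => by simp)
  rw [c3_sph_one] at h
  rw [← h]
  simp

/-- For a cone `B`, the spherical measure is `4π` times the Gaussian measure. -/
lemma c3_sph_cone (B : Set (ℝ × ℝ × ℝ)) (hB : MeasurableSet B)
    (hcone : ∀ c : ℝ, 0 < c → ∀ x ∈ B, c • x ∈ B) :
    sph (B.indicator fun _ => 1) = ENNReal.ofReal (4 * π) * g3 B := by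
  have hc2 : ∀ c : ℝ, 0 < c → ∀ x, c • x ∈ B ↔ x ∈ B := by
    intro c hc x
    constructor
    · intro h
      have := hcone c⁻¹ (by positivity) _ h
      rwa [smul_smul, inv_mul_cancel₀ hc.ne', one_smul] at this
    · exact hcone c hc x
  have h := spherical (B.indicator fun _ => 1) (measurable_const.indicator hB) 0
    (fun c hc y => by
      by_cases hy : y ∈ B
      · rw [indicator_of_mem hy, indicator_of_mem ((hc2 c hc y).2 hy)]; simp
      · rw [indicator_of_notMem hy, indicator_of_notMem (fun h => hy ((hc2 c hc y).1 h))]; simp)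
  rw [lintegral_indicator hB, setLIntegral_one] at h
  rw [h, ← mul_assoc, mul_comm (ENNReal.ofReal (4 * π)), c3_rad0, one_mul]

lemma c3_lintegral_N3 (B : Set (ℝ × ℝ × ℝ)) (hB : MeasurableSet B)
    (hcone : ∀ c : ℝ, 0 < c → ∀ x ∈ B, c • x ∈ B) :
    ∫⁻ y in B, ENNReal.ofReal (N3 y) ∂g3 =
      ENNReal.ofReal (2 * (√(2 * π))⁻¹ ^ 3) * (ENNReal.ofReal (4 * π) * g3 B) := by
  have hc2 : ∀ c : ℝ, 0 < c → ∀ x, c • x ∈ B ↔ x ∈ B := by
    intro c hc x
    constructor
    · intro h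
      have := hcone c⁻¹ (by positivity) _ h
      rwa [smul_smul, inv_mul_cancel₀ hc.ne', one_smul] at this
    · exact hcone c hc x
  have hm : Measurable fun y => ENNReal.ofReal (N3 y) := ENNReal.measurable_ofReal.comp N3_meas
  have h := spherical (B.indicator fun y => ENNReal.ofReal (N3 y)) (hm.indicator hB) 1
    (fun c hc y => by
      by_cases hy : y ∈ B
      · rw [indicator_of_mem hy, indicator_of_mem ((hc2 c hc y).2 hy), N3_smul c hc,
          ENNReal.ofReal_mul hc.le, pow_one]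
      · rw [indicator_of_notMem hy, indicator_of_notMem (fun h => hy ((hc2 c hc y).1 h)),
          mul_zero])
  rw [lintegral_indicator hB, c3_rad1] at h
  rw [h, ← c3_sph_cone B hB hcone]
  congr 1
  unfold sph
  refine lintegral_congr fun θ => lintegral_congr fun φ => ?_
  congr 1
  by_cases hy : (sin φ, cos φ * cos θ, cos φ * sin θ) ∈ B
  · rw [indicator_of_mem hy, indicator_of_mem hy, N3_sph, ENNReal.ofReal_one]
  · rw [indicator_of_notMem hy, indicator_of_notMem hy]

lemma c3_lintegral_ramp (c : ℝ) (h1 : -1 ≤ c) (h2 : c ≤ 1) :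
    ∫⁻ y, ENNReal.ofReal (y.1 - c * N3 y) ∂g3 =
      ENNReal.ofReal (2 * (√(2 * π))⁻¹ ^ 3 * (π * (1 - c) ^ 2)) := by
  have hm : Measurable fun y : ℝ × ℝ × ℝ => ENNReal.ofReal (y.1 - c * N3 y) :=
    ENNReal.measurable_ofReal.comp (measurable_fst.sub (N3_meas.const_mul c))
  rw [spherical _ hm 1 (fun t ht y => by
    rw [N3_smul t ht, pow_one, ← ENNReal.ofReal_mul ht.le]
    congr 1
    simp only [Prod.smul_fst, smul_eq_mul]
    ring), c3_rad1]
  have hs : sph (fun y => ENNReal.ofReal (y.1 - c * N3 y)) = ENNReal.ofReal (π * (1 - c) ^ 2) := by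
    unfold sph
    have h := c3_lat (fun t => max (t - c) 0) (by fun_prop) (fun t => le_max_right _ _)
    have e : ∀ θ φ : ℝ, ENNReal.ofReal ((sin φ, cos φ * cos θ, cos φ * sin θ).1 -
        c * N3 (sin φ, cos φ * cos θ, cos φ * sin θ)) = ENNReal.ofReal (max (sin φ - c) 0) := by
      intro θ φ
      rw [N3_sph]
      simp only [mul_one]
      rw [ENNReal.ofReal_max, ENNReal.ofReal_zero, max_eq_left (zero_le)]
    simp_rw [e]
    rw [h, c3_theta, c3_ramp c h1 h2, ← ENNReal.ofReal_mul (by positivity)]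
    congr 1
    ring
  rw [hs, ← ENNReal.ofReal_mul (by positivity)]

lemma c3_integrable_N3 : Integrable N3 g3 := by
  refine ⟨N3_meas.aestronglyMeasurable, ?_⟩
  rw [hasFiniteIntegral_iff_ofReal (ae_of_all _ N3_nonneg)]
  have h := c3_lintegral_N3 univ MeasurableSet.univ (fun _ _ _ _ => mem_univ _)
  rw [setLIntegral_univ] at h
  rw [h]
  exact ENNReal.mul_lt_top ENNReal.ofReal_lt_top
    (ENNReal.mul_lt_top ENNReal.ofReal_lt_top (measure_lt_top _ _))

lemma c3_integrable_fst : Integrable (fun y : ℝ × ℝ × ℝ => y.1) g3 :=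
  c3_integrable_N3.mono' measurable_fst.aestronglyMeasurable
    (ae_of_all _ fun y => by rw [Real.norm_eq_abs]; exact abs_fst_le_N3 y)

/-- The cap inequality in coordinates. -/
theorem c3_core (B : Set (ℝ × ℝ × ℝ)) (hB : MeasurableSet B)
    (hcone : ∀ c : ℝ, 0 < c → ∀ x ∈ B, c • x ∈ B) :
    ∫ y in B, y.1 ∂g3 ≤ 4 / √(2 * π) * (g3.real B * (1 - g3.real B)) := by
  set b : ℝ := g3.real B with hb
  have hb0 : 0 ≤ b := measureReal_nonneg
  have hb1 : b ≤ 1 := measureReal_le_one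
  set c : ℝ := 1 - 2 * b with hc
  have hN : ∫ y in B, N3 y ∂g3 = 2 * (√(2 * π))⁻¹ ^ 3 * (4 * π * b) := by
    rw [integral_eq_lintegral_of_nonneg_ae (ae_of_all _ N3_nonneg)
      N3_meas.aestronglyMeasurable, c3_lintegral_N3 B hB hcone, ENNReal.toReal_mul,
      ENNReal.toReal_mul, ENNReal.toReal_ofReal (by positivity),
      ENNReal.toReal_ofReal (by positivity)]
    rfl
  have hramp : ∫ y, max (y.1 - c * N3 y) 0 ∂g3 = 2 * (√(2 * π))⁻¹ ^ 3 * (π * (1 - c) ^ 2) := by
    have hmm : Measurable fun y : ℝ × ℝ × ℝ => max (y.1 - c * N3 y) 0 :=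
      (measurable_fst.sub (N3_meas.const_mul c)).max measurable_const
    rw [integral_eq_lintegral_of_nonneg_ae (f := fun y : ℝ × ℝ × ℝ => max (y.1 - c * N3 y) 0)
      (ae_of_all _ fun y => le_max_right _ _) hmm.aestronglyMeasurable]
    have e : ∀ y : ℝ × ℝ × ℝ, ENNReal.ofReal (max (y.1 - c * N3 y) 0) =
        ENNReal.ofReal (y.1 - c * N3 y) := by
      intro y
      rw [ENNReal.ofReal_max, ENNReal.ofReal_zero, max_eq_left (zero_le)]
    simp_rw [e]
    rw [c3_lintegral_ramp c (by rw [hc]; linarith) (by rw [hc]; linarith),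
      ENNReal.toReal_ofReal (by positivity)]
  have i1 := c3_integrable_fst
  have i2 := c3_integrable_N3
  have i3 : Integrable (fun y : ℝ × ℝ × ℝ => y.1 - c * N3 y) g3 := i1.sub (i2.const_mul c)
  have i4 : Integrable (fun y : ℝ × ℝ × ℝ => max (y.1 - c * N3 y) 0) g3 := i3.pos_part
  have h1 : ∫ y in B, y.1 ∂g3 = ∫ y in B, (y.1 - c * N3 y) ∂g3 + c * ∫ y in B, N3 y ∂g3 := by
    rw [← integral_const_mul, ← integral_add i3.integrableOn (i2.const_mul c).integrableOn]
    refine integral_congr_ae (ae_of_all _ fun y => ?_)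
    simp only
    ring
  have h2 : ∫ y in B, (y.1 - c * N3 y) ∂g3 ≤ ∫ y, max (y.1 - c * N3 y) 0 ∂g3 := by
    calc ∫ y in B, (y.1 - c * N3 y) ∂g3 ≤ ∫ y in B, max (y.1 - c * N3 y) 0 ∂g3 :=
          integral_mono i3.integrableOn i4.integrableOn fun y => le_max_left _ _
      _ ≤ ∫ y, max (y.1 - c * N3 y) 0 ∂g3 :=
          setIntegral_le_integral i4 (ae_of_all _ fun y => le_max_right _ _)
  rw [h1, hN]
  rw [hramp] at h2
  have hs : (√(2 * π))⁻¹ ^ 3 * (2 * π) = (√(2 * π))⁻¹ := by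
    have h3 : (0:ℝ) < √(2 * π) := by positivity
    have h4 : √(2 * π) ^ 2 = 2 * π := Real.sq_sqrt (by positivity)
    field_simp
    rw [h4]
  calc ∫ y in B, (y.1 - c * N3 y) ∂g3 + c * (2 * (√(2 * π))⁻¹ ^ 3 * (4 * π * b))
      ≤ 2 * (√(2 * π))⁻¹ ^ 3 * (π * (1 - c) ^ 2) + c * (2 * (√(2 * π))⁻¹ ^ 3 * (4 * π * b)) := by
        linarith
    _ = ((√(2 * π))⁻¹ ^ 3 * (2 * π)) * (4 * (b * (1 - b))) := by rw [hc]; ring
    _ = 4 / √(2 * π) * (b * (1 - b)) := by rw [hs]; ring

/-- coordinates with respect to an orthonormal triple -/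
noncomputable def crd {d : ℕ} (e : Fin 3 → E d) (x : E d) : ℝ × ℝ × ℝ :=
  (inner ℝ x (e 0), inner ℝ x (e 1), inner ℝ x (e 2))

lemma crd_meas {d : ℕ} (e : Fin 3 → E d) : Measurable (crd e) := by
  unfold crd; fun_prop

lemma crd_map {d : ℕ} (e : Fin 3 → E d) (he : Orthonormal ℝ e) :
    (stdGaussian (E d)).map (crd e) = g3 := by
  have h1 := map_ortho e he
  have h2 := measurePreserving_piFinSuccAbove (fun _ : Fin 3 => gaussianReal 0 1) 0
  have h3 := measurePreserving_finTwoArrow (gaussianReal 0 1)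
  have h4 : MeasurePreserving (Prod.map (id : ℝ → ℝ) (MeasurableEquiv.finTwoArrow (α := ℝ)))
      ((gaussianReal 0 1).prod (Measure.pi fun _ : Fin 2 => gaussianReal 0 1)) g3 :=
    (MeasurePreserving.id _).prod h3
  have h5 := h4.comp h2
  rw [← h5.map_eq, ← h1, Measure.map_map h5.measurable (by fun_prop)]
  rfl

theorem cap3_gen {d : ℕ} (e : Fin 3 → E d) (he : Orthonormal ℝ e) (B : Set (ℝ × ℝ × ℝ))
    (hB : MeasurableSet B) (hcone : ∀ c : ℝ, 0 < c → ∀ x ∈ B, c • x ∈ B) (A : Set (E d))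
    (hA : A = crd e ⁻¹' B) :
    ∫ x in A, inner ℝ x (e 0) ∂(stdGaussian (E d)) ≤
      4 / √(2 * π) * ((stdGaussian (E d)).real A * (1 - (stdGaussian (E d)).real A)) := by
  have h1 := crd_map e he
  have h2 : (stdGaussian (E d)).real A = g3.real B := by
    rw [← h1, map_measureReal_apply (crd_meas e) hB, hA]
  have h3 : ∫ x in A, inner ℝ x (e 0) ∂(stdGaussian (E d)) = ∫ y in B, y.1 ∂g3 := by
    rw [← h1, setIntegral_map hB measurable_fst.aestronglyMeasurable (crd_meas e).aemeasurable, hA]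
    rfl
  rw [h2, h3]
  exact c3_core B hB hcone

/-- For a measurable cone `A` of `ℝ³` and a unit vector `e`:
`∫_A ⟨x, e⟩ ≤ (4/√(2π)) a (1 - a)`, `a = γ(A)`. -/
theorem cap3_cone (A : Set (E 3)) (hA : MeasurableSet A)
    (hcone : ∀ c : ℝ, 0 < c → ∀ x ∈ A, c • x ∈ A) (e : E 3) (he : ‖e‖ = 1) :
    ∫ x in A, inner ℝ x e ∂(stdGaussian (E 3)) ≤
      4 / √(2 * π) * ((stdGaussian (E 3)).real A * (1 - (stdGaussian (E 3)).real A)) := by
  have hv : Orthonormal ℝ (({0} : Set (Fin 3)).domRestrict fun _ : Fin 3 => e) := by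
    constructor
    · intro i; exact he
    · intro i j hij
      exact absurd (Subsingleton.elim i j) hij
  obtain ⟨b, hb⟩ := hv.exists_orthonormalBasis_extension_of_card_eq (by simp)
  have hb0 : b 0 = e := hb 0 rfl
  have hmeas : Measurable fun y : ℝ × ℝ × ℝ => y.1 • b 0 + (y.2.1 • b 1 + y.2.2 • b 2) := by
    fun_prop
  have h := cap3_gen (fun i => b i) b.orthonormal
    {y : ℝ × ℝ × ℝ | y.1 • b 0 + (y.2.1 • b 1 + y.2.2 • b 2) ∈ A} (hmeas hA)
    (fun c hc y hy => by
      have h1 := hcone c hc _ hy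
      have h2 : (c • y).1 • b 0 + ((c • y).2.1 • b 1 + (c • y).2.2 • b 2) =
          c • (y.1 • b 0 + (y.2.1 • b 1 + y.2.2 • b 2)) := by
        simp only [Prod.smul_fst, Prod.smul_snd, smul_eq_mul, smul_add, smul_smul]
      change (c • y).1 • b 0 + ((c • y).2.1 • b 1 + (c • y).2.2 • b 2) ∈ A
      rw [h2]
      exact h1) A
    (by
      ext x
      have h1 : x = inner ℝ x (b 0) • b 0 + (inner ℝ x (b 1) • b 1 + inner ℝ x (b 2) • b 2) := by
        have h2 := b.sum_repr' x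
        rw [Fin.sum_univ_three] at h2
        rw [← add_assoc]
        simp_rw [real_inner_comm x] at h2 ⊢
        exact h2.symm
      constructor
      · intro hx
        change inner ℝ x (b 0) • b 0 + (inner ℝ x (b 1) • b 1 + inner ℝ x (b 2) • b 2) ∈ A
        rw [← h1]; exact hx
      · intro hx
        have h3 : inner ℝ x (b 0) • b 0 +
          (inner ℝ x (b 1) • b 1 + inner ℝ x (b 2) • b 2) ∈ A := hx
        rwa [← h1] at h3)
  rw [← hb0]
  exact h

theorem Crit.cap3 {d : ℕ} {z : Fin 4 → E d} (hz : Crit z) (i : Fin 4) :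
    ‖z i‖ ≤ 4 / √(2 * π) * ((stdGaussian (E d)).real (cell z i) *
      (1 - (stdGaussian (E d)).real (cell z i))) := by
  have hzi : z i ≠ 0 := hz.ne_zero i
  have hni : 0 < ‖z i‖ := norm_pos_iff.mpr hzi
  -- three of the vectors are independent
  have hLI : LinearIndependent ℝ (fun j : Fin 3 => z j.succ) := by
    rw [Fintype.linearIndependent_iff]
    intro g hg j
    have h1 := hz.const_of_sum_eq_zero (Fin.cons 0 g) (by
      rw [Fin.sum_univ_succ]
      simp only [Fin.cons_zero, Fin.cons_succ, zero_smul, zero_add]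
      exact hg) j.succ 0
    simpa using h1
  set V : Submodule ℝ (E d) := Submodule.span ℝ (Set.range fun j : Fin 3 => z j.succ) with hV
  have hfin : Module.finrank ℝ V = Fintype.card (Fin 3) := finrank_span_eq_card hLI
  have hmem : ∀ j, z j ∈ V := by
    intro j
    refine Fin.cases ?_ (fun j => Submodule.subset_span ⟨j, rfl⟩) j
    have h1 := hz.sum_zero
    rw [Fin.sum_univ_succ] at h1
    rw [eq_neg_of_add_eq_zero_left h1]
    exact V.neg_mem (V.sum_mem fun j _ => Submodule.subset_span ⟨j, rfl⟩)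
  have hv : Orthonormal ℝ (({0} : Set (Fin 3)).domRestrict
      fun _ : Fin 3 => (⟨‖z i‖⁻¹ • z i, V.smul_mem _ (hmem i)⟩ : V)) := by
    constructor
    · intro j
      rw [Set.domRestrict_apply, Submodule.coe_norm, norm_smul, norm_inv, norm_norm, inv_mul_cancel₀ hni.ne']
    · intro j l hjl
      exact absurd (Subsingleton.elim j l) hjl
  obtain ⟨b, hb⟩ := hv.exists_orthonormalBasis_extension_of_card_eq hfin
  have hb0 : ((b 0 : V) : E d) = ‖z i‖⁻¹ • z i := by rw [hb 0 rfl]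
  set e : Fin 3 → E d := fun l => ((b l : V) : E d) with he
  have heo : Orthonormal ℝ e := b.orthonormal.comp_linearIsometry V.subtypeₗᵢ
  have hexp : ∀ (x : E d) (j : Fin 4), inner ℝ x (z j) =
      inner ℝ (e 0) (z j) * inner ℝ x (e 0) + (inner ℝ (e 1) (z j) * inner ℝ x (e 1) +
        inner ℝ (e 2) (z j) * inner ℝ x (e 2)) := by
    intro x j
    have h1 := b.sum_repr' ⟨z j, hmem j⟩
    have h2 := congrArg (fun v : V => (v : E d)) h1
    simp only [Submodule.coe_sum, Submodule.coe_smul, Submodule.coe_inner] at h2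
    rw [Fin.sum_univ_three] at h2
    conv_lhs => rw [← h2]
    rw [inner_add_right, inner_add_right, inner_smul_right, inner_smul_right, inner_smul_right,
      add_assoc]
  set B : Set (ℝ × ℝ × ℝ) := {y | ∀ j : Fin 4,
    inner ℝ (e 0) (z j) * y.1 + (inner ℝ (e 1) (z j) * y.2.1 + inner ℝ (e 2) (z j) * y.2.2) ≤
    inner ℝ (e 0) (z i) * y.1 + (inner ℝ (e 1) (z i) * y.2.1 + inner ℝ (e 2) (z i) * y.2.2)}
    with hBdef
  have hBm : MeasurableSet B := by
    rw [hBdef]
    have : {y : ℝ × ℝ × ℝ | ∀ j : Fin 4,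
      inner ℝ (e 0) (z j) * y.1 + (inner ℝ (e 1) (z j) * y.2.1 + inner ℝ (e 2) (z j) * y.2.2) ≤
      inner ℝ (e 0) (z i) * y.1 + (inner ℝ (e 1) (z i) * y.2.1 + inner ℝ (e 2) (z i) * y.2.2)} =
      ⋂ j : Fin 4, {y : ℝ × ℝ × ℝ |
      inner ℝ (e 0) (z j) * y.1 + (inner ℝ (e 1) (z j) * y.2.1 + inner ℝ (e 2) (z j) * y.2.2) ≤
      inner ℝ (e 0) (z i) * y.1 + (inner ℝ (e 1) (z i) * y.2.1 + inner ℝ (e 2) (z i) * y.2.2)} := by
      ext y; simp
    rw [this]
    exact MeasurableSet.iInter fun j => measurableSet_le (by fun_prop) (by fun_prop)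
  have hBc : ∀ c : ℝ, 0 < c → ∀ x ∈ B, c • x ∈ B := by
    intro c hc y hy j
    have h1 := mul_le_mul_of_nonneg_left (hy j) hc.le
    simp only [Prod.smul_fst, Prod.smul_snd, smul_eq_mul]
    linarith
  have hcell : cell z i = crd e ⁻¹' B := by
    ext x
    unfold cell crd
    simp only [hBdef, mem_ofPred_eq, mem_preimage]
    refine forall_congr' fun j => ?_
    rw [hexp x j, hexp x i]
  have hmain := cap3_gen e heo B hBm hBc (cell z i) hcell
  refine le_trans (le_of_eq ?_) hmain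
  have hint : Integrable (fun x : E d => x) (stdGaussian (E d)) := IsGaussian.integrable_id
  have h1 : ∫ x in cell z i, inner ℝ x (e 0) ∂(stdGaussian (E d)) =
      inner ℝ (z i) (e 0) := by
    have h2 := integral_inner (𝕜 := ℝ) (μ := (stdGaussian (E d)).restrict (cell z i))
      hint.integrableOn (e 0)
    rw [hz.moment i] at h2
    rw [← real_inner_comm, ← h2]
    refine integral_congr_ae (ae_of_all _ fun x => ?_)
    exact real_inner_comm _ _
  rw [h1, he]
  simp only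
  rw [hb0, inner_smul_right, real_inner_self_eq_norm_sq]
  field_simp

end Vale.Agent.P226
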