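import Vale.Agent.P226.Full.EhrSet
import Vale.Agent.P226.Full.CamMar
import Vale.Agent.P226.Full.CritBasic
import Vale.Agent.P226.SmallCells

/-! Task P226-D: the deletion inequality combined with Ehrhard. -/

namespace Vale.Agent.P226

open MeasureTheory ProbabilityTheory Real Set Filter Topology

/-! ### one-dimensional facts -/

lemma gQ_strictAnti : StrictAnti gQ := by
  apply strictAnti_of_deriv_neg
  intro x
  rw [(hasDerivAt_gQ x).deriv]
  exact neg_lt_zero.2 (gphi_pos x)

lemma gQ_exists_half (a : ℝ) (ha0 : 0 < a) (ha : a ≤ 1 / 2) : ∃ t, 0 ≤ t ∧ gQ t = a := by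
  have hcont : Continuous gQ := continuous_iff_continuousAt.2 fun t => (hasDerivAt_gQ t).continuousAt
  obtain ⟨T, hT1, hT2⟩ := ((tendsto_gQ_atTop.eventually (gt_mem_nhds ha0)).and
    (eventually_ge_atTop (0:ℝ))).exists
  have h := intermediate_value_Icc' hT2 hcont.continuousOn
  have : a ∈ Icc (gQ T) (gQ 0) := ⟨hT1.le, by rw [gQ_zero]; exact ha⟩
  obtain ⟨t, ht, hta⟩ := h this
  exact ⟨t, ht.1, hta⟩

lemma mul_gQ_le (t : ℝ) : t * gQ t ≤ gphi t := by
  rw [← integral_Ioi_mul_gphi t]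
  unfold gQ
  rw [← integral_const_mul]
  apply setIntegral_mono_on (integrable_gphi.integrableOn.const_mul t)
    integrable_mul_gphi.integrableOn measurableSet_Ioi
  intro x hx
  have hx1 : t < x := hx
  have := gphi_pos x
  nlinarith

lemma tendsto_ell_aux : Tendsto (fun t => gphi t - t * gQ t) atTop (𝓝 0) := by
  apply tendsto_of_tendsto_of_tendsto_of_le_of_le' tendsto_const_nhds tendsto_gphi_atTop
  · exact Eventually.of_forall fun t => by have := mul_gQ_le t; linarith
  · filter_upwards [eventually_ge_atTop (0:ℝ)] with t ht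
    have := mul_nonneg ht (gQ_nonneg t)
    linarith

/-- `∫_0^∞ Q(y + c τ) dτ = (φ(y) - y Q(y)) / c`, with integrability. -/
lemma integral_gQ_affine (y c : ℝ) (hc : 0 < c) :
    IntegrableOn (fun τ => gQ (y + c * τ)) (Ioi 0) ∧
      ∫ τ in Ioi (0:ℝ), gQ (y + c * τ) = (gphi y - y * gQ y) / c := by
  have hd : ∀ τ ∈ Ici (0:ℝ), HasDerivAt
      (fun τ => -(gphi (y + c * τ) - (y + c * τ) * gQ (y + c * τ)) / c) (gQ (y + c * τ)) τ := by
    intro τ _
    have h1 : HasDerivAt (fun τ : ℝ => y + c * τ) c τ := by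
      simpa using ((hasDerivAt_id τ).const_mul c).const_add y
    have h2 := (hasDerivAt_gphi (y + c * τ)).comp τ h1
    have h3 := (hasDerivAt_gQ (y + c * τ)).comp τ h1
    have h4 := ((h2.sub (h1.mul h3)).neg.div_const c)
    refine h4.congr_deriv ?_
    simp only [Function.comp]
    field_simp
    ring
  have hpos : ∀ τ ∈ Ioi (0:ℝ), 0 ≤ gQ (y + c * τ) := fun τ _ => gQ_nonneg _
  have ht : Tendsto (fun τ => -(gphi (y + c * τ) - (y + c * τ) * gQ (y + c * τ)) / c) atTop
      (𝓝 0) := by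
    have h1 : Tendsto (fun τ : ℝ => y + c * τ) atTop atTop :=
      tendsto_atTop_add_const_left _ _ (tendsto_id.const_mul_atTop hc)
    have h2 := (tendsto_ell_aux.comp h1).neg.div_const c
    simpa using h2
  refine ⟨integrableOn_Ioi_deriv_of_nonneg' hd hpos ht, ?_⟩
  rw [integral_Ioi_of_hasDerivAt_of_nonneg' hd hpos ht]
  simp only [mul_zero, add_zero]
  ring

variable {ι : Type} {d : ℕ}

/-- `{x | x - τ p ∈ A}` for the cell. -/
lemma closed_translate (v : ι → E d) (i : ι) (p : E d) (τ : ℝ) :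
    IsClosed {x : E d | x - τ • p ∈ cell v i} :=
  (isClosed_cell v i).preimage (by fun_prop)

/-- Deletion, first step: removing one vector. -/
lemma emax_sub_restrict_le [Fintype ι] [DecidableEq ι] (v : ι → E d) (i : ι)
    [Nonempty {j // j ≠ i}] :
    emax v - emax (fun j : {j // j ≠ i} => v j) ≤
      ∫ x, max (inner ℝ x (v i) - ⨆ j : {j // j ≠ i}, inner ℝ x (v j)) 0
        ∂(stdGaussian (E d)) := by
  unfold emax
  have h1 := integrable_iSup_inner v
  have h2 := integrable_iSup_inner (fun j : {j // j ≠ i} => v j)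
  rw [← integral_sub h1 h2]
  have h3 : Integrable (fun x : E d => inner ℝ x (v i)) (stdGaussian (E d)) :=
    (IsGaussian.integrable_id (μ := stdGaussian (E d))).inner_const (v i)
  apply integral_mono (h1.sub h2) ((h3.sub h2).sup (integrable_const (0:ℝ)))
  intro x
  simp only [Pi.sub_apply, Pi.sup_apply]
  have : Nonempty ι := ⟨i⟩
  have h4 : (⨆ j, inner ℝ x (v j)) ≤
      max (inner ℝ x (v i)) (⨆ j : {j // j ≠ i}, inner ℝ x (v j)) := by
    apply ciSup_le
    intro j
    by_cases hj : j = i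
    · subst hj; exact le_max_left _ _
    · exact le_max_of_le_right
        (le_ciSup (f := fun j : {j // j ≠ i} => inner ℝ x (v j))
          (Finite.bddAbove_range _) ⟨j, hj⟩)
  rcases le_total (inner ℝ x (v i)) (⨆ j : {j // j ≠ i}, inner ℝ x (v j)) with h | h
  · rw [max_eq_right h] at h4
    exact le_sup_of_le_right (by linarith)
  · rw [max_eq_left h] at h4
    exact le_sup_of_le_left (by linarith)

/-- The translated cell measure. -/
noncomputable def Gtr (v : ι → E d) (i : ι) (p : E d) (τ : ℝ) : ℝ :=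
  (stdGaussian (E d)).real {x : E d | x - τ • p ∈ cell v i}

lemma Gtr_zero (v : ι → E d) (i : ι) (p : E d) :
    Gtr v i p 0 = (stdGaussian (E d)).real (cell v i) := by
  unfold Gtr
  simp

/-- For the dual vector `p`, the translated cells are nested. -/
lemma Gtr_anti (v : ι → E d) (i : ι) (p : E d) (hp : ∀ j, inner ℝ p (v j) ≤ inner ℝ p (v i))
    (s t : ℝ) (hst : s ≤ t) : Gtr v i p t ≤ Gtr v i p s := by
  unfold Gtr
  apply measureReal_mono _ (measure_ne_top _ _)
  intro x hx j
  have h := hx j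
  simp only [inner_sub_left, inner_smul_left, RCLike.conj_to_real] at h ⊢
  nlinarith [hp j]

/-- Ehrhard for the translated cells, started at `0`. -/
lemma Gtr_half (v : ι → E d) (i : ι) (p : E d) (τ a b : ℝ)
    (ha : gQ a = Gtr v i p 0) (hb : gQ b = Gtr v i p τ) :
    gQ ((a + b) / 2) ≤ Gtr v i p (τ / 2) := by
  have h := ehrhard_set {x : E d | x - (0:ℝ) • p ∈ cell v i} {x : E d | x - τ • p ∈ cell v i}
    {x : E d | x - (τ / 2) • p ∈ cell v i} (closed_translate v i p 0) (closed_translate v i p τ)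
    (closed_translate v i p (τ / 2)) ?_ (-a) (-b) ?_ ?_
  · unfold Phi at h
    have e : -((-a + -b) / 2) = (a + b) / 2 := by ring
    rw [e] at h
    exact h
  · intro x hx y hy j
    have h1 := hx j
    have h2 := hy j
    simp only [inner_sub_left, inner_smul_left, inner_add_left, RCLike.conj_to_real] at h1 h2 ⊢
    nlinarith
  · unfold Phi
    rw [neg_neg, ha]
    rfl
  · unfold Phi
    rw [neg_neg, hb]
    rfl

/-- Consequence of Ehrhard: `Y` is convex, so lies above its tangent at `0`. -/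
lemma Gtr_le (v : ι → E d) (i : ι) (p : E d) (hp : ∀ j, inner ℝ p (v j) ≤ inner ℝ p (v i))
    (y m : ℝ) (hy : gQ y = Gtr v i p 0) (hhalf : Gtr v i p 0 ≤ 1 / 2)
    (hm : inner ℝ (∫ x in cell v i, x ∂(stdGaussian (E d))) p = m)
    (τ : ℝ) (hτ : 0 ≤ τ) : Gtr v i p τ ≤ gQ (y + (m / gphi y) * τ) := by
  have hG0 : ∀ t, 0 ≤ Gtr v i p t := fun t => measureReal_nonneg
  rcases (hG0 τ).eq_or_lt with h0 | h0
  · rw [← h0]; exact gQ_nonneg _
  obtain ⟨b, -, hb⟩ := gQ_exists_half (Gtr v i p τ) h0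
    ((Gtr_anti v i p hp 0 τ hτ).trans hhalf)
  -- the dyadic inequality
  have key : ∀ n : ℕ, gQ (y + (b - y) * (1 / 2) ^ n) ≤ Gtr v i p (τ * (1 / 2) ^ n) := by
    intro n
    induction n with
    | zero => simp [hb]
    | succ n ih =>
      have hs : 0 ≤ τ * (1 / 2 : ℝ) ^ n := by positivity
      have hs2 : τ * (1 / 2 : ℝ) ^ n ≤ τ := by
        have : (1 / 2 : ℝ) ^ n ≤ 1 := pow_le_one₀ (by norm_num) (by norm_num)
        nlinarith
      have hpos : 0 < Gtr v i p (τ * (1 / 2) ^ n) := h0.trans_le (Gtr_anti v i p hp _ _ hs2)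
      obtain ⟨c, -, hc⟩ := gQ_exists_half _ hpos ((Gtr_anti v i p hp 0 _ hs).trans hhalf)
      have h1 := Gtr_half v i p _ y c hy hc
      have h2 : c ≤ y + (b - y) * (1 / 2) ^ n := by
        rw [← hc] at ih
        exact gQ_strictAnti.le_iff_ge.1 ih
      have h3 : gQ (y + (b - y) * (1 / 2) ^ (n + 1)) ≤ gQ ((y + c) / 2) := by
        apply gQ_strictAnti.antitone
        rw [pow_succ]
        linarith
      have e : τ * (1 / 2 : ℝ) ^ (n + 1) = τ * (1 / 2) ^ n / 2 := by rw [pow_succ]; ring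
      rw [e]
      exact h3.trans h1
  -- derivative comparison
  have hGd : HasDerivAt (Gtr v i p) (-m) 0 := by
    rw [← hm]
    exact hasDerivAt_translate (cell v i) (measurableSet_cell v i) p
  have hD : HasDerivAt (fun s : ℝ => Gtr v i p (τ * s) - gQ (y + (b - y) * s))
      (-m * τ - (-gphi y) * (b - y)) 0 := by
    have h1 : HasDerivAt (fun s : ℝ => τ * s) τ 0 := by
      simpa using (hasDerivAt_id (0:ℝ)).const_mul τ
    have h2 : HasDerivAt (fun s : ℝ => y + (b - y) * s) (b - y) 0 := by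
      simpa using ((hasDerivAt_id (0:ℝ)).const_mul (b - y)).const_add y
    have h3 : HasDerivAt (fun s : ℝ => Gtr v i p (τ * s)) (-m * τ) 0 := by
      have hGd' : HasDerivAt (Gtr v i p) (-m) (τ * 0) := by rw [mul_zero]; exact hGd
      exact hGd'.comp (0:ℝ) h1
    have h4 : HasDerivAt (fun s : ℝ => gQ (y + (b - y) * s)) (-gphi y * (b - y)) 0 := by
      have h5 : HasDerivAt gQ (-gphi y) (y + (b - y) * 0) := by
        rw [mul_zero, add_zero]; exact hasDerivAt_gQ y
      exact h5.comp (0:ℝ) h2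
    exact h3.sub h4
  have hnn : 0 ≤ -m * τ - (-gphi y) * (b - y) := by
    have hs : Tendsto (fun n : ℕ => (1 / 2 : ℝ) ^ n) atTop (𝓝[≠] 0) := by
      rw [tendsto_nhdsWithin_iff]
      exact ⟨tendsto_pow_atTop_nhds_zero_of_lt_one (by norm_num) (by norm_num),
        Eventually.of_forall fun n => by simp⟩
    have hl := (hasDerivAt_iff_tendsto_slope.1 hD).comp hs
    refine ge_of_tendsto' hl fun n => ?_
    simp only [Function.comp, slope_def_field, mul_zero, add_zero, sub_zero, hy, sub_self]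
    have := key n
    apply div_nonneg _ (by positivity)
    linarith
  have hφ := gphi_pos y
  rw [← hb]
  apply gQ_strictAnti.antitone
  have : m * τ ≤ gphi y * (b - y) := by linarith
  have h6 : m / gphi y * τ ≤ b - y := by
    rw [div_mul_eq_mul_div, div_le_iff₀ hφ]
    linarith
  linarith

theorem Crit.deletion [Fintype ι] {z : ι → E d} (hz : Crit z) (i : ι) (y : ℝ)
    (hy : gQ y = (stdGaussian (E d)).real (cell z i)) (q : ℝ)
    (hq : q = (Fintype.card ι : ℝ) / ((Fintype.card ι : ℝ) - 1)) :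
    ∑ j, ‖z j‖ ^ 2 - √(M0 * (∑ j, ‖z j‖ ^ 2 - q * ‖z i‖ ^ 2)) ≤ q * ell y := by
  classical
  have hk4 : (4:ℝ) ≤ (Fintype.card ι : ℝ) := by exact_mod_cast hz.card
  have hk1 : (0:ℝ) < (Fintype.card ι : ℝ) - 1 := by linarith
  have hq0 : 0 < q := by rw [hq]; apply div_pos <;> linarith
  have hcardr : Fintype.card {j // j ≠ i} = Fintype.card ι - 1 := by
    rw [Fintype.card_subtype_compl, Fintype.card_subtype_eq]
  have hcardpos : 0 < Fintype.card {j // j ≠ i} := by have := hz.card; omega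
  have : Nonempty {j // j ≠ i} := Fintype.card_pos_iff.1 hcardpos
  have : Nonempty ι := ⟨i⟩
  -- the dual vector
  obtain ⟨p, hp⟩ := hz.exists_dual (fun j => if j = i then 1 - 1 / (Fintype.card ι : ℝ)
    else - (1 / (Fintype.card ι : ℝ))) (by
      have e : ∀ j, (if j = i then 1 - 1 / (Fintype.card ι : ℝ) else - (1 / (Fintype.card ι : ℝ)))
          = (if j = i then (1:ℝ) else 0) - 1 / (Fintype.card ι : ℝ) := by
        intro j; split_ifs <;> ring
      simp_rw [e]
      rw [Finset.sum_sub_distrib, Finset.sum_ite_eq']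
      simp only [Finset.mem_univ, if_true, Finset.sum_const, Finset.card_univ, nsmul_eq_mul]
      field_simp
      ring)
  have hpi : inner ℝ p (z i) = 1 - 1 / (Fintype.card ι : ℝ) := by rw [hp i]; simp
  have hpj : ∀ j, j ≠ i → inner ℝ p (z j) = - (1 / (Fintype.card ι : ℝ)) := by
    intro j hj; rw [hp j]; simp [hj]
  have hqinv : 1 - 1 / (Fintype.card ι : ℝ) = 1 / q := by
    rw [hq]; field_simp
  have hple : ∀ j, inner ℝ p (z j) ≤ inner ℝ p (z i) := by
    intro j
    by_cases hj : j = i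
    · rw [hj]
    · rw [hpj j hj, hpi]; linarith
  -- the comparison
  have hm : inner ℝ (∫ x in cell z i, x ∂(stdGaussian (E d))) p = 1 / q := by
    rw [hz.moment i, real_inner_comm, hpi, hqinv]
  have hφ := gphi_pos y
  have hc : 0 < 1 / q / gphi y := by positivity
  have hG := Gtr_le z i p hple y (1 / q) (by rw [Gtr_zero]; exact hy)
    (by rw [Gtr_zero]; exact hz.real_cell_le_half i) hm
  obtain ⟨hI1, hI2⟩ := integral_gQ_affine y (1 / q / gphi y) hc
  -- layer cake
  have hdel := emax_sub_restrict_le z i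
  have hlay : ∫ x, max (inner ℝ x (z i) - ⨆ j : {j // j ≠ i}, inner ℝ x (z j)) 0
        ∂(stdGaussian (E d)) ≤ q * ell y := by
    have h2 := integrable_iSup_inner (fun j : {j // j ≠ i} => z j)
    have h3 : Integrable (fun x : E d => inner ℝ x (z i)) (stdGaussian (E d)) :=
      (IsGaussian.integrable_id (μ := stdGaussian (E d))).inner_const (z i)
    have h4 : Integrable (fun x => max (inner ℝ x (z i) -
        ⨆ j : {j // j ≠ i}, inner ℝ x (z j)) 0) (stdGaussian (E d)) :=
      (h3.sub h2).sup (integrable_const (0:ℝ))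
    rw [h4.integral_eq_integral_meas_le (ae_of_all _ fun x => le_max_right _ _)]
    have h5 : ∫ τ in Ioi (0:ℝ), gQ (y + 1 / q / gphi y * τ) = q * ell y := by
      rw [hI2]
      unfold ell
      field_simp
    rw [← h5]
    apply integral_mono_of_nonneg (ae_of_all _ fun τ => measureReal_nonneg) hI1
    filter_upwards [ae_restrict_mem measurableSet_Ioi] with τ hτ
    have hτ0 : 0 < τ := hτ
    refine le_trans ?_ (hG τ hτ0.le)
    unfold Gtr
    apply measureReal_mono _ (measure_ne_top _ _)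
    intro x hx j
    have hx1 : τ ≤ max (inner ℝ x (z i) - ⨆ j : {j // j ≠ i}, inner ℝ x (z j)) 0 := hx
    have hx2 : τ ≤ inner ℝ x (z i) - ⨆ j : {j // j ≠ i}, inner ℝ x (z j) := by
      rcases le_max_iff.1 hx1 with h | h
      · exact h
      · linarith
    by_cases hj : j = i
    · rw [hj]
    · have h6 : inner ℝ x (z j) ≤ ⨆ j : {j // j ≠ i}, inner ℝ x (z j) :=
        le_ciSup (f := fun j : {j // j ≠ i} => inner ℝ x (z j))
          (Finite.bddAbove_range _) ⟨j, hj⟩
      simp only [inner_sub_left, inner_smul_left, RCLike.conj_to_real]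
      rw [hpj j hj, hpi]
      linarith
  -- the induction hypothesis
  have hpk := pk_centered hz.pk (by have := hz.card; omega) hcardr
    (fun j : {j // j ≠ i} => z j)
  have hs1 : ∑ j : {j // j ≠ i}, ‖z j‖ ^ 2 = ∑ j, ‖z j‖ ^ 2 - ‖z i‖ ^ 2 := by
    have h := Fintype.sum_subtype_add_sum_subtype (fun j => j ≠ i) (fun j => ‖z j‖ ^ 2)
    have h2 : ∑ j : {j // ¬ j ≠ i}, ‖z j‖ ^ 2 = ‖z i‖ ^ 2 := by
      have h0 : ∀ j : {j // ¬ j ≠ i}, (j : ι) = i := fun j => not_not.1 j.2
      have : Unique {j // ¬ j ≠ i} := ⟨⟨⟨i, by simp⟩⟩, fun j => Subtype.ext (h0 j)⟩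
      rw [Fintype.sum_unique, h0]
    linarith
  have hs2 : ∑ j : {j // j ≠ i}, z j = - z i := by
    have h := Fintype.sum_subtype_add_sum_subtype (fun j => j ≠ i) (fun j => z j)
    have h2 : ∑ j : {j // ¬ j ≠ i}, z j = z i := by
      have h0 : ∀ j : {j // ¬ j ≠ i}, (j : ι) = i := fun j => not_not.1 j.2
      have : Unique {j // ¬ j ≠ i} := ⟨⟨⟨i, by simp⟩⟩, fun j => Subtype.ext (h0 j)⟩
      rw [Fintype.sum_unique, h0]
    rw [hz.sum_zero, h2] at h
    exact eq_neg_of_add_eq_zero_left h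
  rw [hs1, hs2, norm_neg] at hpk
  have hcast : ((Fintype.card ι - 1 : ℕ) : ℝ) = (Fintype.card ι : ℝ) - 1 := by
    rw [Nat.cast_sub (by have := hz.card; omega)]; simp
  rw [hcast] at hpk
  have he : ∑ j, ‖z j‖ ^ 2 - ‖z i‖ ^ 2 - ‖z i‖ ^ 2 / ((Fintype.card ι : ℝ) - 1)
      = ∑ j, ‖z j‖ ^ 2 - q * ‖z i‖ ^ 2 := by
    rw [hq]
    field_simp
    ring
  rw [he] at hpk
  have hsq := Real.le_sqrt_of_sq_le hpk
  rw [hz.emax_eq] at hdel
  linarith

end Vale.Agent.P226
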