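import Vale.Agent.P226.Full.Ortho
import Vale.Agent.P226.Full.CamMar
import Vale.Agent.P226.Full.CritBasic

/-! Task P226-W: the facet inequality. -/

namespace Vale.Agent.P226

open MeasureTheory ProbabilityTheory Real Set Filter Topology

variable {ι : Type} [Fintype ι] [DecidableEq ι] {d : ℕ} {z : ι → E d}

/-- the orthonormal frame attached to a pair of vectors -/
lemma Crit.frame (hz : Crit z) (a b t : ι) (hab : a ≠ b) (hat : a ≠ t) (hbt : b ≠ t) :
    ∃ (u c : E d) (r : ℝ), ‖u‖ = 1 ∧ ‖c‖ = 1 ∧ inner ℝ u c = (0 : ℝ) ∧ 0 < r ∧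
      z a = r • c + (inner ℝ (z a) u : ℝ) • u ∧ z b = r • c + (inner ℝ (z b) u : ℝ) • u ∧
      inner ℝ (z a) u - inner ℝ (z b) u = ‖z a - z b‖ ∧
      r ^ 2 = (‖z a‖ ^ 2 * ‖z b‖ ^ 2 - inner ℝ (z a) (z b) ^ 2) / ‖z a - z b‖ ^ 2 ∧
      ∀ m, m ≠ a → m ≠ b → inner ℝ (z m) c < 0 := by
  have hn : z a - z b ≠ 0 := sub_ne_zero.mpr (fun h => hab (hz.inj h))
  have hl : 0 < ‖z a - z b‖ := norm_pos_iff.mpr hn
  set l := ‖z a - z b‖ with hldef
  set A := ‖z a‖ ^ 2 with hA
  set B := ‖z b‖ ^ 2 with hB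
  set I : ℝ := inner ℝ (z a) (z b) with hI
  have hAA : inner ℝ (z a) (z a) = A := real_inner_self_eq_norm_sq _
  have hBB : inner ℝ (z b) (z b) = B := real_inner_self_eq_norm_sq _
  have hBA : inner ℝ (z b) (z a) = I := real_inner_comm _ _
  have hl2 : l ^ 2 = A + B - 2 * I := by
    rw [hldef, norm_sub_sq_real]; ring
  have hI0 : I < 0 := hz.neg a b hab
  have hA0 : 0 ≤ A := by positivity
  have hB0 : 0 ≤ B := by positivity
  set u : E d := l⁻¹ • (z a - z b) with hu
  have hu1 : ‖u‖ = 1 := by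
    rw [hu, norm_smul, norm_inv, Real.norm_of_nonneg hl.le]
    exact inv_mul_cancel₀ hl.ne'
  have hau : inner ℝ (z a) u = (A - I) / l := by
    rw [hu, inner_smul_right, inner_sub_right, hAA]
    rw [div_eq_inv_mul]
  have hbu : inner ℝ (z b) u = (I - B) / l := by
    rw [hu, inner_smul_right, inner_sub_right, hBB, hBA]
    rw [div_eq_inv_mul]
  have huu : inner ℝ u u = (1 : ℝ) := by
    rw [real_inner_self_eq_norm_sq, hu1]; norm_num
  set θ : ℝ := (A - I) / l ^ 2 with hθ
  have hθ0 : 0 < θ := by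
    rw [hθ]; apply div_pos (by linarith) (by positivity)
  have hθ1 : 1 - θ = (B - I) / l ^ 2 := by
    rw [hθ, eq_div_iff (by positivity), sub_mul, div_mul_cancel₀ _ (by positivity), hl2]
    ring
  have hθ1' : 0 < 1 - θ := by
    rw [hθ1]; apply div_pos (by linarith) (by positivity)
  set cv : E d := (1 - θ) • z a + θ • z b with hcv
  have hcva : cv = z a - (inner ℝ (z a) u : ℝ) • u := by
    rw [hau, hu, smul_smul, hcv]
    have : (A - I) / l * l⁻¹ = θ := by
      rw [hθ]; field_simp
    rw [this]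
    module
  have hcvb : cv = z b - (inner ℝ (z b) u : ℝ) • u := by
    rw [hbu, hu, smul_smul, hcv]
    have : (I - B) / l * l⁻¹ = -(1 - θ) := by
      rw [hθ1]; field_simp; ring
    rw [this]
    module
  have hcvu : inner ℝ u cv = (0 : ℝ) := by
    rw [hcva, inner_sub_right, inner_smul_right, huu, mul_one, real_inner_comm, sub_self]
  have hcv0 : cv ≠ 0 := by
    intro h
    have hsum : ∑ i, (if i = a then (1 - θ) else if i = b then θ else 0) • z i = 0 := by
      rw [← h, hcv]
      have h1 : ∀ i, (if i = a then (1 - θ) else if i = b then θ else 0) • z i =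
          (if i = a then (1 - θ) • z a else 0) + (if i = b then θ • z b else 0) := by
        intro i
        by_cases hia : i = a
        · subst hia
          rw [if_pos rfl, if_pos rfl, if_neg hab, add_zero]
        · rw [if_neg hia, if_neg hia, zero_add]
          by_cases hib : i = b
          · subst hib
            rw [if_pos rfl, if_pos rfl]
          · rw [if_neg hib, if_neg hib, zero_smul]
      rw [Finset.sum_congr rfl (fun i _ => h1 i), Finset.sum_add_distrib,
        Finset.sum_ite_eq', Finset.sum_ite_eq', if_pos (Finset.mem_univ _),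
        if_pos (Finset.mem_univ _)]
    have h2 := hz.const_of_sum_eq_zero _ hsum b t
    rw [if_neg hab.symm, if_pos rfl, if_neg hat.symm, if_neg hbt.symm] at h2
    linarith
  have hr : 0 < ‖cv‖ := norm_pos_iff.mpr hcv0
  set r := ‖cv‖ with hrdef
  refine ⟨u, r⁻¹ • cv, r, hu1, ?_, ?_, hr, ?_, ?_, ?_, ?_, ?_⟩
  · rw [norm_smul, norm_inv, Real.norm_of_nonneg hr.le]
    exact inv_mul_cancel₀ hr.ne'
  · rw [inner_smul_right, hcvu, mul_zero]
  · rw [smul_smul, mul_inv_cancel₀ hr.ne', one_smul, hcva]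
    abel
  · rw [smul_smul, mul_inv_cancel₀ hr.ne', one_smul, hcvb]
    abel
  · rw [hau, hbu, ← sub_div, div_eq_iff hl.ne', ← pow_two, hl2]
    ring
  · rw [hrdef, hcva, norm_sub_sq_real, inner_smul_right, norm_smul, hu1, mul_one, hau,
      eq_div_iff (by positivity), ← hA, Real.norm_eq_abs, sq_abs]
    have h3 : (A - I) / l * l = A - I := div_mul_cancel₀ _ hl.ne'
    have h4 : (A - 2 * ((A - I) / l * ((A - I) / l)) + ((A - I) / l) ^ 2) * l ^ 2 =
        A * l ^ 2 - ((A - I) / l * l) ^ 2 := by ring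
    rw [h4, h3, hl2]
    ring
  · intro m hma hmb
    rw [inner_smul_right, hcv, inner_add_right, inner_smul_right, inner_smul_right]
    have h1 := hz.neg m a hma
    have h2 := hz.neg m b hmb
    have h3 : (1 - θ) * inner ℝ (z m) (z a) + θ * inner ℝ (z m) (z b) < 0 := by
      have := mul_neg_of_pos_of_neg hθ1' h1
      have := mul_neg_of_pos_of_neg hθ0 h2
      linarith
    exact mul_neg_of_pos_of_neg (inv_pos.mpr hr) h3

/-- the slab of the cell `a` near its facet with the cell `b` -/
lemma Crit.slab_upper (hz : Crit z) (a b : ι) (hab : a ≠ b) :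
    ∃ C : ℝ, ∀ δ : ℝ, 0 < δ →
      (stdGaussian (E d)).real {x | x ∈ cell z a ∧ inner ℝ x (z a) - inner ℝ x (z b) < δ} ≤
        δ / (Fintype.card ι : ℝ) + C * δ ^ 2 := by
  have hk : (0 : ℝ) < (Fintype.card ι : ℝ) := by
    have := hz.card
    exact_mod_cast (by omega : 0 < Fintype.card ι)
  obtain ⟨r, hr⟩ := hz.exists_dual
    (fun j => 1 / (Fintype.card ι : ℝ) - if j = b then 1 else 0) (by
      rw [Finset.sum_sub_distrib, Finset.sum_const, Finset.card_univ, nsmul_eq_mul,
        mul_one_div_cancel hk.ne', Finset.sum_ite_eq', if_pos (Finset.mem_univ _), sub_self])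
  refine ⟨‖r‖ ^ 2 / 2, fun δ hδ => ?_⟩
  set S : Set (E d) := {x | x ∈ cell z a ∧ inner ℝ x (z a) - inner ℝ x (z b) < δ} with hS
  set T : Set (E d) := {x | x - δ • r ∈ cell z a} with hT
  have hTsub : ∀ x ∈ T, x ∈ cell z a ∧ δ ≤ inner ℝ x (z a) - inner ℝ x (z b) := by
    intro x hx
    have h1 : ∀ j, inner ℝ x (z j) ≤ inner ℝ x (z a) - δ * (if j = b then 1 else 0) := by
      intro j
      have h2 : inner ℝ (x - δ • r) (z j) ≤ inner ℝ (x - δ • r) (z a) := hx j
      rw [inner_sub_left, inner_sub_left, real_inner_smul_left, real_inner_smul_left, hr j, hr a,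
        if_neg hab] at h2
      linarith
    constructor
    · intro j
      have h2 := h1 j
      have h3 : 0 ≤ δ * (if j = b then (1 : ℝ) else 0) := by
        split_ifs
        · linarith
        · linarith
      linarith
    · have h2 := h1 b
      rw [if_pos rfl] at h2
      linarith
  have hcont : ∀ v : E d, Continuous fun x : E d => inner ℝ x v := fun v => by fun_prop
  have hTm : MeasurableSet T := by
    have hc : Continuous fun x : E d => x - δ • r := by fun_prop
    exact hc.measurable (measurableSet_cell z a)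
  have hdisj : Disjoint S T := by
    rw [Set.disjoint_left]
    intro x hxS hxT
    have h1 := hxS.2
    have h2 := (hTsub x hxT).2
    linarith
  have hunion : S ∪ T ⊆ cell z a := by
    rintro x (hx | hx)
    · exact hx.1
    · exact (hTsub x hx).1
  have h1 : (stdGaussian (E d)).real S + (stdGaussian (E d)).real T ≤
      (stdGaussian (E d)).real (cell z a) := by
    rw [← measureReal_union hdisj hTm]
    exact measureReal_mono hunion
  have h2 := real_translate_ge (cell z a) (measurableSet_cell z a) (δ • r)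
  rw [hz.moment a, inner_smul_right, real_inner_comm, hr a, if_neg hab, norm_smul, mul_pow,
    Real.norm_of_nonneg hδ.le] at h2
  have h3 : (stdGaussian (E d)).real {x | x - δ • r ∈ cell z a} = (stdGaussian (E d)).real T := rfl
  rw [h3] at h2
  have h4 : δ * (1 / (Fintype.card ι : ℝ) - 0) = δ / (Fintype.card ι : ℝ) := by ring
  rw [h4] at h2
  have h5 : δ ^ 2 * ‖r‖ ^ 2 / 2 = ‖r‖ ^ 2 / 2 * δ ^ 2 := by ring
  rw [h5] at h2
  linarith

lemma norm_sq_proj (u c x : E d) (hu : ‖u‖ = 1) (hc : ‖c‖ = 1) (huc : inner ℝ u c = (0 : ℝ)) :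
    ‖x - (inner ℝ x u : ℝ) • u - (inner ℝ x c : ℝ) • c‖ ^ 2 =
      ‖x‖ ^ 2 - (inner ℝ x u) ^ 2 - (inner ℝ x c) ^ 2 := by
  have huu : inner ℝ u u = (1 : ℝ) := by
    rw [real_inner_self_eq_norm_sq, hu]; norm_num
  have hcc : inner ℝ c c = (1 : ℝ) := by
    rw [real_inner_self_eq_norm_sq, hc]; norm_num
  have hcu : inner ℝ c u = (0 : ℝ) := by rw [real_inner_comm]; exact huc
  rw [← real_inner_self_eq_norm_sq, ← real_inner_self_eq_norm_sq]
  simp only [inner_sub_left, inner_sub_right, real_inner_smul_left, inner_smul_right, huu, hcc,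
    huc, hcu, real_inner_comm x u, real_inner_comm x c]
  ring

/-- the elementary inequality for the third vector -/
lemma arctan_le_arcsin_aux {w r P ρ2 c2 : ℝ} (hw : 0 ≤ w) (hr : 0 < r) (hc2 : c2 = r ^ 2)
    (hwρ : w ^ 2 ≤ ρ2 - P ^ 2) (hP : 0 < 3 * r - P) :
    arctan (w / (3 * r - P)) ≤ arcsin (√(ρ2 / (9 * c2))) := by
  rw [arctan_eq_arcsin]
  apply monotone_arcsin
  set g := 3 * r - P with hg
  have hρ : 0 ≤ ρ2 := by nlinarith [sq_nonneg w, sq_nonneg P]
  have h1 : 0 ≤ w / g := div_nonneg hw hP.le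
  apply Real.le_sqrt_of_sq_le
  rw [div_pow, Real.sq_sqrt (by positivity), div_le_div_iff₀ (by positivity)
    (by rw [hc2]; positivity), hc2, div_pow]
  have h2 : w ^ 2 / g ^ 2 * (9 * r ^ 2) ≤ ρ2 * (1 + w ^ 2 / g ^ 2) ↔
      w ^ 2 * (9 * r ^ 2) ≤ ρ2 * (g ^ 2 + w ^ 2) := by
    have hg2 : (0 : ℝ) < g ^ 2 := by positivity
    rw [div_mul_eq_mul_div, div_le_iff₀ hg2]
    have : ρ2 * (1 + w ^ 2 / g ^ 2) * g ^ 2 = ρ2 * (g ^ 2 + w ^ 2) := by
      field_simp
    rw [this]
  rw [h2]
  by_cases h3 : 9 * r ^ 2 ≤ ρ2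
  · nlinarith [mul_nonneg (sub_nonneg.mpr h3) (sq_nonneg w), mul_nonneg hρ (sq_nonneg g)]
  · push Not at h3
    have h4 : (9 * r ^ 2 - ρ2) * w ^ 2 ≤ (9 * r ^ 2 - ρ2) * (ρ2 - P ^ 2) :=
      mul_le_mul_of_nonneg_left hwρ (by linarith)
    have h5 : (9 * r ^ 2 - ρ2) * (ρ2 - P ^ 2) ≤ ρ2 * g ^ 2 := by
      rw [hg]
      nlinarith [sq_nonneg (ρ2 - 3 * r * P)]
    linarith

/-- crude form of the facet union bound, for distinct `a, b, t`. Here
`c2 = dist(0, line z_a z_b)^2` and `ρ2 = |z_a + z_b + z_t|^2`. -/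
theorem Crit.facet (hz : Crit z) (a b t : ι) (hab : a ≠ b) (hat : a ≠ t) (hbt : b ≠ t)
    (c2 ρ2 : ℝ)
    (hc2 : c2 = (‖z a‖ ^ 2 * ‖z b‖ ^ 2 - inner ℝ (z a) (z b) ^ 2) / ‖z a - z b‖ ^ 2)
    (hρ2 : ρ2 = ‖z a + z b + z t‖ ^ 2) :
    π - (2 * π) * √(2 * π) * ‖z a - z b‖ / (Fintype.card ι : ℝ) ≤
      ∑ m ∈ ((Finset.univ.erase a).erase b).erase t, arctan (√(‖z m‖ ^ 2 / c2))
        + arcsin (√(ρ2 / (9 * c2))) := by
  obtain ⟨u, c, r, hu, hc, huc, hr, hza, hzb, hlab, hr2, hneg⟩ := hz.frame a b t hab hat hbt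
  obtain ⟨C, hC⟩ := hz.slab_upper a b hab
  have hn : z a - z b ≠ 0 := sub_ne_zero.mpr (fun h => hab (hz.inj h))
  have hl : 0 < ‖z a - z b‖ := norm_pos_iff.mpr hn
  set l := ‖z a - z b‖ with hldef
  rw [← hr2] at hc2
  have huu : inner ℝ u u = (1 : ℝ) := by
    rw [real_inner_self_eq_norm_sq, hu]; norm_num
  have hcc : inner ℝ c c = (1 : ℝ) := by
    rw [real_inner_self_eq_norm_sq, hc]; norm_num
  have hcu : inner ℝ c u = (0 : ℝ) := by rw [real_inner_comm]; exact huc
  let w : {m : ι // m ≠ a ∧ m ≠ b} → E d := fun m =>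
    z m - (inner ℝ (z m) u : ℝ) • u - (inner ℝ (z m) c : ℝ) • c
  let g : {m : ι // m ≠ a ∧ m ≠ b} → ℝ := fun m => r - inner ℝ (z m) c
  let β : {m : ι // m ≠ a ∧ m ≠ b} → ℝ := fun m => inner ℝ (z a) u - inner ℝ (z m) u
  have hg : ∀ m, 0 < g m := fun m => by
    have := hneg m m.2.1 m.2.2
    change 0 < r - inner ℝ (z m) c
    linarith
  have hslab := slab_lower u c hu hc huc w
    (fun m => by
      change inner ℝ (z m - (inner ℝ (z m) u : ℝ) • u - (inner ℝ (z m) c : ℝ) • c) u = (0 : ℝ)
      rw [inner_sub_left, inner_sub_left, real_inner_smul_left, real_inner_smul_left, huu, hcu]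
      ring)
    (fun m => by
      change inner ℝ (z m - (inner ℝ (z m) u : ℝ) • u - (inner ℝ (z m) c : ℝ) • c) c = (0 : ℝ)
      rw [inner_sub_left, inner_sub_left, real_inner_smul_left, real_inner_smul_left, hcc, huc]
      ring)
    g β hg (l / (Fintype.card ι : ℝ)) (C * l ^ 2) (by
      intro ε hε _
      have h1 : {x : E d | 0 ≤ inner ℝ x u ∧ inner ℝ x u < ε ∧ 0 ≤ inner ℝ x c ∧
          ∀ m, inner ℝ x (w m) ≤ g m * inner ℝ x c + β m * inner ℝ x u} ⊆
          {x | x ∈ cell z a ∧ inner ℝ x (z a) - inner ℝ x (z b) < l * ε} := by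
        rintro x ⟨hx1, hx2, hx3, hx4⟩
        have hya : inner ℝ x (z a) = r * inner ℝ x c + inner ℝ (z a) u * inner ℝ x u := by
          conv_lhs => rw [hza]
          rw [inner_add_right, inner_smul_right, inner_smul_right]
        have hyb : inner ℝ x (z b) = r * inner ℝ x c + inner ℝ (z b) u * inner ℝ x u := by
          conv_lhs => rw [hzb]
          rw [inner_add_right, inner_smul_right, inner_smul_right]
        have hdiff : inner ℝ x (z a) - inner ℝ x (z b) = l * inner ℝ x u := by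
          rw [hya, hyb, ← hlab]; ring
        constructor
        · intro m
          by_cases hma : m = a
          · rw [hma]
          by_cases hmb : m = b
          · rw [hmb]
            have : 0 ≤ l * inner ℝ x u := mul_nonneg hl.le hx1
            linarith
          have h2 : inner ℝ x (z m - (inner ℝ (z m) u : ℝ) • u - (inner ℝ (z m) c : ℝ) • c) ≤
              (r - inner ℝ (z m) c) * inner ℝ x c +
                (inner ℝ (z a) u - inner ℝ (z m) u) * inner ℝ x u := hx4 ⟨m, hma, hmb⟩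
          rw [inner_sub_right, inner_sub_right, inner_smul_right, inner_smul_right] at h2
          rw [hya]
          linarith
        · rw [hdiff]
          exact mul_lt_mul_of_pos_left hx2 hl
      have h2 := hC (l * ε) (mul_pos hl hε)
      have h3 := measureReal_mono (μ := stdGaussian (E d)) h1
      have h4 : l * ε / (Fintype.card ι : ℝ) + C * (l * ε) ^ 2 =
          l / (Fintype.card ι : ℝ) * ε + C * l ^ 2 * ε ^ 2 := by ring
      rw [h4] at h2
      exact h3.trans h2)
  -- the sum over the subtype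
  have hsum : ∑ m, arctan (‖w m‖ / g m) ≤
      ∑ m ∈ ((Finset.univ.erase a).erase b).erase t, arctan (√(‖z m‖ ^ 2 / c2))
        + arcsin (√(ρ2 / (9 * c2))) := by
    let F : ι → ℝ := fun m =>
      arctan (‖z m - (inner ℝ (z m) u : ℝ) • u - (inner ℝ (z m) c : ℝ) • c‖ /
        (r - inner ℝ (z m) c))
    have h1 : ∑ m, arctan (‖w m‖ / g m) = ∑ m ∈ (Finset.univ.erase a).erase b, F m := by
      have h2 : ∀ m : ι, m ∈ (Finset.univ.erase a).erase b ↔ (m ≠ a ∧ m ≠ b) := by
        intro m
        rw [Finset.mem_erase, Finset.mem_erase]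
        constructor
        · rintro ⟨h3, h4, _⟩; exact ⟨h4, h3⟩
        · rintro ⟨h3, h4⟩; exact ⟨h4, h3, Finset.mem_univ _⟩
      rw [Finset.sum_subtype _ h2 F]
    have htmem : t ∈ (Finset.univ.erase a).erase b := by
      rw [Finset.mem_erase, Finset.mem_erase]
      exact ⟨hbt.symm, hat.symm, Finset.mem_univ _⟩
    rw [h1, ← Finset.sum_erase_add _ _ htmem]
    apply add_le_add
    · apply Finset.sum_le_sum
      intro m hm
      rw [Finset.mem_erase, Finset.mem_erase, Finset.mem_erase] at hm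
      obtain ⟨_, hmb, hma, _⟩ := hm
      apply arctan_mono
      apply Real.le_sqrt_of_sq_le
      rw [div_pow, norm_sq_proj u c (z m) hu hc huc, hc2]
      have hne := hneg m hma hmb
      apply div_le_div₀ (by positivity)
      · nlinarith [sq_nonneg (inner ℝ (z m) u : ℝ), sq_nonneg (inner ℝ (z m) c : ℝ)]
      · positivity
      · apply pow_le_pow_left₀ hr.le
        linarith
    · have hP : inner ℝ (z t) c = inner ℝ (z a + z b + z t) c - 2 * r := by
        have hac : inner ℝ (z a) c = r := by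
          rw [hza, inner_add_left, real_inner_smul_left, real_inner_smul_left, hcc, huc]
          ring
        have hbc : inner ℝ (z b) c = r := by
          rw [hzb, inner_add_left, real_inner_smul_left, real_inner_smul_left, hcc, huc]
          ring
        rw [inner_add_left, inner_add_left, hac, hbc]
        ring
      have hproj : z t - (inner ℝ (z t) u : ℝ) • u - (inner ℝ (z t) c : ℝ) • c =
          (z a + z b + z t) - (inner ℝ (z a + z b + z t) u : ℝ) • u -
            (inner ℝ (z a + z b + z t) c : ℝ) • c := by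
        have hU : inner ℝ (z a + z b + z t) u =
            (inner ℝ (z a) u + inner ℝ (z b) u + inner ℝ (z t) u : ℝ) := by
          rw [inner_add_left, inner_add_left]
        rw [hP, hU]
        have hza' : z a - (inner ℝ (z a) u : ℝ) • u = r • c := by
          nth_rewrite 1 [hza]
          abel
        have hzb' : z b - (inner ℝ (z b) u : ℝ) • u = r • c := by
          nth_rewrite 1 [hzb]
          abel
        have h5 : z a + z b + z t -
            (inner ℝ (z a) u + inner ℝ (z b) u + inner ℝ (z t) u : ℝ) • u -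
              (inner ℝ (z a + z b + z t) c : ℝ) • c =
            (z a - (inner ℝ (z a) u : ℝ) • u) + (z b - (inner ℝ (z b) u : ℝ) • u) +
              (z t - (inner ℝ (z t) u : ℝ) • u) - (inner ℝ (z a + z b + z t) c : ℝ) • c := by
          module
        rw [h5, hza', hzb']
        module
      have hgt : r - inner ℝ (z t) c = 3 * r - inner ℝ (z a + z b + z t) c := by
        rw [hP]; ring
      have hgt0 : 0 < 3 * r - inner ℝ (z a + z b + z t) c := by
        rw [← hgt]
        have := hneg t hat.symm hbt.symm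
        linarith
      change arctan (‖z t - (inner ℝ (z t) u : ℝ) • u - (inner ℝ (z t) c : ℝ) • c‖ /
        (r - inner ℝ (z t) c)) ≤ _
      rw [hproj, hgt]
      apply arctan_le_arcsin_aux (norm_nonneg _) hr hc2 _ hgt0
      rw [norm_sq_proj u c _ hu hc huc, hρ2]
      nlinarith [sq_nonneg (inner ℝ (z a + z b + z t) u : ℝ)]
  -- conclusion
  have hpi := Real.pi_pos
  have hs : 0 < √(2 * π) := Real.sqrt_pos.mpr (by positivity)
  have h1 : 1 / 2 - ∑ m, arctan (‖w m‖ / g m) / (2 * π) ≤ √(2 * π) * (l / (Fintype.card ι : ℝ)) := by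
    have := mul_le_mul_of_nonneg_left hslab hs.le
    rwa [← mul_assoc, mul_inv_cancel₀ hs.ne', one_mul] at this
  rw [← Finset.sum_div] at h1
  have h2 : (2 * π) * (1 / 2 - (∑ m, arctan (‖w m‖ / g m)) / (2 * π)) =
      π - ∑ m, arctan (‖w m‖ / g m) := by
    field_simp
  have h3 := mul_le_mul_of_nonneg_left h1 (by positivity : (0 : ℝ) ≤ 2 * π)
  rw [h2] at h3
  have h4 : 2 * π * (√(2 * π) * (l / (Fintype.card ι : ℝ))) =
      (2 * π) * √(2 * π) * l / (Fintype.card ι : ℝ) := by ring
  rw [h4] at h3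
  linarith

end Vale.Agent.P226
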