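import Vale.Agent.P226.Full.RedDefs
import Vale.Agent.P226.Full.Deletion
import Vale.Agent.P226.Full.Facet

/-! Task P226-R: from a critical configuration to the reduced configuration. -/

namespace Vale.Agent.P226

open MeasureTheory ProbabilityTheory Real Set Filter Topology

/-- geometry lemma: `xa, xb, xt` squared norms, `κ`'s minus the inner products of three of the
vectors, with `κab` the smallest; `r` bound on the ratio, `C` the constant. -/
theorem geo_lemma (xa xb xt κab κat κbt r C : ℝ) (hκ : 0 < κab) (h1 : κab ≤ κat) (h2 : κab ≤ κbt)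
    (ha : κab + κat ≤ xa) (hb : κab + κbt ≤ xb) (hra : xa ≤ r * xb) (hrb : xb ≤ r * xa)
    (hC : (r = 2.5 ∧ C = 12) ∨ (r = 3 ∧ C = 13)) :
    xa + xb + 2 * κab ≤ xa + xb + κat + κbt ∧
    (xa + xb + κat + κbt) / C ≤ (xa * xb - κab ^ 2) / (xa + xb + 2 * κab) := by
  refine ⟨by linarith, ?_⟩
  have hs : 0 < xa + xb + 2 * κab := by linarith
  have hC0 : 0 < C := by rcases hC with ⟨_, h⟩ | ⟨_, h⟩ <;> rw [h] <;> norm_num
  rw [div_le_div_iff₀ hC0 hs]
  have hT : xa + xb + κat + κbt ≤ 2 * (xa + xb) - 2 * κab := by linarith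
  have h3 : (xa + xb + κat + κbt) * (xa + xb + 2 * κab) ≤
      (2 * (xa + xb) - 2 * κab) * (xa + xb + 2 * κab) := mul_le_mul_of_nonneg_right hT hs.le
  refine h3.trans ?_
  have hκa : 2 * κab ≤ xa := by linarith
  have hκb : 2 * κab ≤ xb := by linarith
  have hxa : 0 < xa := by linarith
  have hxb : 0 < xb := by linarith
  rcases hC with ⟨hr, hCC⟩ | ⟨hr, hCC⟩
  · subst hCC; subst hr
    rcases le_total xa xb with h | h
    · have e1 : κab * (xa + xb) * 2 ≤ xa * (xa + xb) := by nlinarith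
      have e2 : 4 * κab ^ 2 ≤ xa ^ 2 := by nlinarith
      have e3 : 0 ≤ (xb - xa) * (5 * xa - 2 * xb) :=
        mul_nonneg (by linarith) (by linarith)
      nlinarith
    · have e1 : κab * (xa + xb) * 2 ≤ xb * (xa + xb) := by nlinarith
      have e2 : 4 * κab ^ 2 ≤ xb ^ 2 := by nlinarith
      have e3 : 0 ≤ (xa - xb) * (5 * xb - 2 * xa) :=
        mul_nonneg (by linarith) (by linarith)
      nlinarith
  · subst hCC; subst hr
    rcases le_total xa xb with h | h
    · have e1 : κab * (xa + xb) * 2 ≤ xa * (xa + xb) := by nlinarith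
      have e2 : 4 * κab ^ 2 ≤ xa ^ 2 := by nlinarith
      have e3 : 0 ≤ (xb - xa) * (3 * xa - xb) :=
        mul_nonneg (by linarith) (by linarith)
      nlinarith
    · have e1 : κab * (xa + xb) * 2 ≤ xb * (xa + xb) := by nlinarith
      have e2 : 4 * κab ^ 2 ≤ xb ^ 2 := by nlinarith
      have e3 : 0 ≤ (xa - xb) * (3 * xb - xa) :=
        mul_nonneg (by linarith) (by linarith)
      nlinarith

lemma cr_M0_pos : 0 < M0 := by
  unfold M0; positivity

lemma cr_gphi_sq_le (y : ℝ) : gphi y ^ 2 ≤ 4 / 9 * M0 := by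
  have h1 : gphi y ^ 2 = (2 * π)⁻¹ * rexp (-(y ^ 2) / 2) ^ 2 := by
    unfold gphi
    rw [mul_pow, inv_pow, Real.sq_sqrt (by positivity)]
  have h2 : rexp (-(y ^ 2) / 2) ^ 2 ≤ 1 := by
    have : rexp (-(y ^ 2) / 2) ≤ 1 := Real.exp_le_one_iff.2 (by nlinarith [sq_nonneg y])
    exact pow_le_one₀ (Real.exp_pos _).le this
  have h3 : 4 / 9 * M0 = (2 * π)⁻¹ := by
    unfold M0
    have := Real.pi_pos
    field_simp
    norm_num
  rw [h1, h3]
  have : (0:ℝ) < (2 * π)⁻¹ := by positivity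
  nlinarith

/-- scalar part of the deletion step -/
lemma cr_del_aux (T q u x : ℝ) (hT : 1 < T) (hq1 : 0 < q) (hq2 : q ≤ 4 / 3) (hu : u ≤ 4 / 9)
    (hx : x ≤ 4 / 9) (h : T - √(T - q * x) ≤ q * u) : x ≤ 2 * u - q * u ^ 2 := by
  rcases le_or_gt (2 * (q * u)) 1 with hc | hc
  · have h1 : 0 < T - q * u := by linarith
    have h2 : T - q * u ≤ √(T - q * x) := by linarith
    have h3 : 0 < √(T - q * x) := lt_of_lt_of_le h1 h2
    have h4 : 0 < T - q * x := Real.sqrt_pos.1 h3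
    have h5 : (T - q * u) ^ 2 ≤ T - q * x := by
      calc (T - q * u) ^ 2 ≤ (√(T - q * x)) ^ 2 := pow_le_pow_left₀ h1.le h2 2
        _ = T - q * x := Real.sq_sqrt h4.le
    have h6 : (T - 1) * (2 * (q * u) - T) ≤ 0 :=
      mul_nonpos_of_nonneg_of_nonpos (by linarith) (by linarith)
    have h7 : q * x ≤ q * (2 * u - q * u ^ 2) := by nlinarith
    exact le_of_mul_le_mul_left h7 hq1
  · have h1 : q * u ≤ 16 / 27 := by nlinarith
    have hu0 : 3 / 8 < u := by
      by_contra hcon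
      push Not at hcon
      nlinarith
    have h3 : u * (2 - q * u) ≥ 3 / 8 * (2 - 16 / 27) := by
      have : 2 - 16 / 27 ≤ 2 - q * u := by linarith
      nlinarith
    nlinarith

lemma cr_rest_comm1 {k : ℕ} (x : Fin k → ℝ) (a b t : Fin k) : rest x a b t = rest x a t b := by
  unfold rest
  rw [Finset.erase_right_comm (s := Finset.univ.erase a)]

lemma cr_rest_comm2 {k : ℕ} (x : Fin k → ℝ) (a b t : Fin k) : rest x a b t = rest x b a t := by
  unfold rest
  rw [Finset.erase_right_comm (s := Finset.univ)]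

lemma cr_lhs_comm1 {k : ℕ} (C : ℝ) (x : Fin k → ℝ) (a b t : Fin k) (Z : ℝ) :
    lhsW C x a b t Z = lhsW C x a t b Z := by
  unfold lhsW
  rw [Finset.erase_right_comm (s := Finset.univ.erase a), cr_rest_comm1]

lemma cr_lhs_comm2 {k : ℕ} (C : ℝ) (x : Fin k → ℝ) (a b t : Fin k) (Z : ℝ) :
    lhsW C x a b t Z = lhsW C x b a t Z := by
  unfold lhsW
  rw [Finset.erase_right_comm (s := Finset.univ), cr_rest_comm2]

/-- sum over everything, splitting off three distinct indices -/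
lemma cr_sum_split {k : ℕ} (f : Fin k → ℝ) (a b t : Fin k) (hab : a ≠ b) (hat : a ≠ t)
    (hbt : b ≠ t) : ∑ i, f i = f a + f b + f t +
      ∑ m ∈ ((Finset.univ.erase a).erase b).erase t, f m := by
  rw [← Finset.add_sum_erase _ f (Finset.mem_univ a),
    ← Finset.add_sum_erase (Finset.univ.erase a) f (a := b) (by simp [hab.symm]),
    ← Finset.add_sum_erase ((Finset.univ.erase a).erase b) f (a := t) (by simp [hat.symm, hbt.symm])]
  ring

/-- the facet inequality in reduced form for the pair with the smallest `κ` -/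
lemma Crit.red_facet_aux {k : ℕ} {d : ℕ} {z : Fin k → E d} (hz : Crit z) (x : Fin k → ℝ)
    (hx : ∀ i, x i = ‖z i‖ ^ 2 / M0) (r C : ℝ) (hC : (r = 2.5 ∧ C = 12) ∨ (r = 3 ∧ C = 13))
    (a b t : Fin k) (hab : a ≠ b) (hat : a ≠ t) (hbt : b ≠ t)
    (hra : x a ≤ r * x b) (hrb : x b ≤ r * x a)
    (h1 : inner ℝ (z a) (z t) ≤ (inner ℝ (z a) (z b) : ℝ))
    (h2 : inner ℝ (z b) (z t) ≤ (inner ℝ (z a) (z b) : ℝ)) :
    ∃ Z : ℝ, 0 < Z ∧ ∑ i, x i - 2 * rest x a b t ≤ Z ∧ Z ≤ ∑ i, x i - rest x a b t ∧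
      π * (1 - 3 / (k : ℝ) * √Z) ≤ lhsW C x a b t Z := by
  have hM : 0 < M0 := cr_M0_pos
  have hC0 : 0 < C := by rcases hC with ⟨_, h⟩ | ⟨_, h⟩ <;> rw [h] <;> norm_num
  set κ : Fin k → Fin k → ℝ := fun i j => -(inner ℝ (z i) (z j) : ℝ) / M0 with hκdef
  have hκpos : ∀ i j, i ≠ j → 0 < κ i j := fun i j hij => by
    have := hz.neg i j hij
    exact div_pos (by linarith) hM
  have hκsymm : ∀ i j, κ i j = κ j i := fun i j => by
    simp only [hκdef]; rw [real_inner_comm]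
  have hκin : ∀ i j, (inner ℝ (z i) (z j) : ℝ) = -(M0 * κ i j) := fun i j => by
    simp only [hκdef]; field_simp
  have hnorm : ∀ i, ‖z i‖ ^ 2 = M0 * x i := fun i => by rw [hx]; field_simp
  have hκself : ∀ i, κ i i = -x i := fun i => by
    simp only [hκdef]
    rw [real_inner_self_eq_norm_sq, hx]; ring
  have hrow : ∀ i, ∑ j, κ i j = 0 := fun i => by
    have h : ∑ j, (inner ℝ (z i) (z j) : ℝ) = 0 := by
      rw [← inner_sum, hz.sum_zero, inner_zero_right]
    simp only [hκdef]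
    rw [← Finset.sum_div, Finset.sum_neg_distrib, h]; simp
  set R : Finset (Fin k) := ((Finset.univ.erase a).erase b).erase t with hR
  have hRmem : ∀ m ∈ R, m ≠ t ∧ m ≠ b ∧ m ≠ a := fun m hm => by
    simpa [hR] using hm
  have hra' := cr_sum_split (fun j => κ a j) a b t hab hat hbt
  have hrb' := cr_sum_split (fun j => κ b j) a b t hab hat hbt
  have hrt' := cr_sum_split (fun j => κ t j) a b t hab hat hbt
  simp only [hrow, hκself] at hra' hrb' hrt'
  rw [← hR] at hra' hrb' hrt'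
  have hσa : 0 ≤ ∑ m ∈ R, κ a m := Finset.sum_nonneg fun m hm => (hκpos a m (hRmem m hm).2.2.symm).le
  have hσb : 0 ≤ ∑ m ∈ R, κ b m := Finset.sum_nonneg fun m hm => (hκpos b m (hRmem m hm).2.1.symm).le
  have hσt : 0 ≤ ∑ m ∈ R, κ t m := Finset.sum_nonneg fun m hm => (hκpos t m (hRmem m hm).1.symm).le
  have hrest : ∑ m ∈ R, κ a m + ∑ m ∈ R, κ b m + ∑ m ∈ R, κ t m ≤ rest x a b t := by
    unfold rest
    rw [← hR, ← Finset.sum_add_distrib, ← Finset.sum_add_distrib]
    refine Finset.sum_le_sum fun m hm => ?_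
    have h := cr_sum_split (fun j => κ m j) a b t hab hat hbt
    simp only [hrow] at h
    rw [← hR, ← Finset.add_sum_erase R (fun j => κ m j) hm, hκself] at h
    have h' : 0 ≤ ∑ j ∈ R.erase m, κ m j :=
      Finset.sum_nonneg fun j hj => (hκpos m j (Finset.ne_of_mem_erase hj).symm).le
    rw [hκsymm a m, hκsymm b m, hκsymm t m]
    linarith
  have hT := cr_sum_split x a b t hab hat hbt
  have hTrest : ∑ i, x i = x a + x b + x t + rest x a b t := hT
  have hba : κ b a = κ a b := hκsymm b a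
  have hta : κ t a = κ a t := hκsymm t a
  have htb : κ t b = κ b t := hκsymm t b
  rw [hba] at hrb'
  rw [hta, htb] at hrt'
  have hκab := hκpos a b hab
  have hκat := hκpos a t hat
  have hκbt := hκpos b t hbt
  have hm1 : κ a b ≤ κ a t := by
    simp only [hκdef]
    exact div_le_div_of_nonneg_right (by linarith) hM.le
  have hm2 : κ a b ≤ κ b t := by
    simp only [hκdef]
    exact div_le_div_of_nonneg_right (by linarith) hM.le
  obtain ⟨g1, g2⟩ := geo_lemma (x a) (x b) (x t) (κ a b) (κ a t) (κ b t) r C hκab hm1 hm2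
    (by linarith) (by linarith) hra hrb hC
  set Z := x a + x b + κ a t + κ b t with hZ
  have hxa : 0 < x a := by linarith
  have hxb : 0 < x b := by linarith
  have hZpos : 0 < Z := by rw [hZ]; linarith
  refine ⟨Z, hZpos, ?_, ?_, ?_⟩
  · rw [hTrest, hZ]; linarith
  · rw [hTrest, hZ]; linarith
  -- the facet inequality
  have hab2 : ‖z a - z b‖ ^ 2 = M0 * (x a + x b + 2 * κ a b) := by
    rw [norm_sub_sq_real, hnorm, hnorm, hκin]; ring
  have hρ : ‖z a + z b + z t‖ ^ 2 = M0 * (∑ m ∈ R, κ a m + ∑ m ∈ R, κ b m + ∑ m ∈ R, κ t m) := by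
    rw [norm_add_sq_real, norm_add_sq_real, inner_add_left, hnorm, hnorm, hnorm, hκin, hκin, hκin]
    have : ∑ m ∈ R, κ a m + ∑ m ∈ R, κ b m + ∑ m ∈ R, κ t m =
      x a + x b + x t - 2 * κ a b - 2 * κ a t - 2 * κ b t := by linarith
    rw [this]; ring
  have hf := hz.facet a b t hab hat hbt _ _ rfl rfl
  rw [← hR] at hf
  rw [Fintype.card_fin] at hf
  have hkpos : (0:ℝ) < k := by
    have := hz.card
    rw [Fintype.card_fin] at this
    exact_mod_cast (by omega : 0 < k)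
  set c2 := (‖z a‖ ^ 2 * ‖z b‖ ^ 2 - inner ℝ (z a) (z b) ^ 2) / ‖z a - z b‖ ^ 2 with hc2
  have hc2' : c2 = M0 * ((x a * x b - κ a b ^ 2) / (x a + x b + 2 * κ a b)) := by
    rw [hc2, hab2, hnorm, hnorm, hκin]
    have : x a + x b + 2 * κ a b ≠ 0 := by positivity
    field_simp
  have hc2ge : M0 * (Z / C) ≤ c2 := by
    rw [hc2']; exact mul_le_mul_of_nonneg_left g2 hM.le
  have hZC : 0 < M0 * (Z / C) := by positivity
  have hleft : π * (1 - 3 / (k : ℝ) * √Z) ≤ π - (2 * π) * √(2 * π) * ‖z a - z b‖ / (k : ℝ) := by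
    have e1 : ‖z a - z b‖ ≤ √M0 * √Z := by
      rw [← Real.sqrt_mul hM.le]
      apply Real.le_sqrt_of_sq_le
      rw [hab2]
      exact mul_le_mul_of_nonneg_left g1 hM.le
    have e2 : √(2 * π) * √M0 = 3 / 2 := by
      rw [← Real.sqrt_mul (by positivity)]
      have : 2 * π * M0 = (3 / 2) ^ 2 := by
        unfold M0
        have := Real.pi_pos
        field_simp
        norm_num
      rw [this, Real.sqrt_sq (by norm_num)]
    have e3 : (2 * π) * √(2 * π) * ‖z a - z b‖ ≤ 3 * π * √Z := by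
      calc (2 * π) * √(2 * π) * ‖z a - z b‖ ≤ (2 * π) * √(2 * π) * (√M0 * √Z) :=
            mul_le_mul_of_nonneg_left e1 (by positivity)
        _ = (2 * π) * (√(2 * π) * √M0) * √Z := by ring
        _ = 3 * π * √Z := by rw [e2]; ring
    have e4 : (2 * π) * √(2 * π) * ‖z a - z b‖ / (k : ℝ) ≤ 3 * π * √Z / (k : ℝ) :=
      div_le_div_of_nonneg_right e3 hkpos.le
    have e5 : π * (1 - 3 / (k : ℝ) * √Z) = π - 3 * π * √Z / (k : ℝ) := by
      field_simp
    rw [e5]
    linarith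
  refine hleft.trans (hf.trans ?_)
  unfold lhsW
  rw [← hR]
  refine add_le_add (Finset.sum_le_sum fun m _ => ?_) ?_
  · apply Real.arctan_mono
    apply Real.sqrt_le_sqrt
    rw [hnorm]
    have hxm : 0 ≤ x m := by rw [hx]; positivity
    calc M0 * x m / c2 ≤ M0 * x m / (M0 * (Z / C)) :=
          div_le_div_of_nonneg_left (by positivity) hZC hc2ge
      _ = C * x m / Z := by field_simp
  · apply Real.monotone_arcsin
    apply Real.sqrt_le_sqrt
    rw [hρ]
    have hr0 : 0 ≤ rest x a b t := by linarith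
    calc M0 * (∑ m ∈ R, κ a m + ∑ m ∈ R, κ b m + ∑ m ∈ R, κ t m) / (9 * c2)
        ≤ M0 * rest x a b t / (9 * c2) := by
          apply div_le_div_of_nonneg_right _ (by linarith)
          exact mul_le_mul_of_nonneg_left hrest hM.le
      _ ≤ M0 * rest x a b t / (9 * (M0 * (Z / C))) :=
          div_le_div_of_nonneg_left (by positivity) (by positivity) (by linarith)
      _ = C * rest x a b t / (9 * Z) := by field_simp

/-- the facet inequality in reduced form -/
lemma Crit.red_facet {k : ℕ} {d : ℕ} {z : Fin k → E d} (hz : Crit z) (x : Fin k → ℝ)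
    (hx : ∀ i, x i = ‖z i‖ ^ 2 / M0) (r C : ℝ) (hC : (r = 2.5 ∧ C = 12) ∨ (r = 3 ∧ C = 13))
    (a b t : Fin k) (hab : a ≠ b) (hat : a ≠ t) (hbt : b ≠ t)
    (hr : ∀ i ∈ ({a, b, t} : Set (Fin k)), ∀ j ∈ ({a, b, t} : Set (Fin k)), x i ≤ r * x j) :
    ∃ Z : ℝ, 0 < Z ∧ ∑ i, x i - 2 * rest x a b t ≤ Z ∧ Z ≤ ∑ i, x i - rest x a b t ∧
      π * (1 - 3 / (k : ℝ) * √Z) ≤ lhsW C x a b t Z := by
  have ha : a ∈ ({a, b, t} : Set (Fin k)) := by simp
  have hb : b ∈ ({a, b, t} : Set (Fin k)) := by simp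
  have ht : t ∈ ({a, b, t} : Set (Fin k)) := by simp
  by_cases c1 : inner ℝ (z a) (z t) ≤ (inner ℝ (z a) (z b) : ℝ) ∧
      inner ℝ (z b) (z t) ≤ (inner ℝ (z a) (z b) : ℝ)
  · exact hz.red_facet_aux x hx r C hC a b t hab hat hbt (hr a ha b hb) (hr b hb a ha) c1.1 c1.2
  by_cases c2 : inner ℝ (z a) (z b) ≤ (inner ℝ (z a) (z t) : ℝ) ∧
      inner ℝ (z t) (z b) ≤ (inner ℝ (z a) (z t) : ℝ)
  · have := hz.red_facet_aux x hx r C hC a t b hat hab hbt.symm (hr a ha t ht) (hr t ht a ha)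
      c2.1 c2.2
    rw [cr_rest_comm1]
    simp only [cr_lhs_comm1 C x a b t]
    exact this
  have c3 : inner ℝ (z b) (z a) ≤ (inner ℝ (z b) (z t) : ℝ) ∧
      inner ℝ (z t) (z a) ≤ (inner ℝ (z b) (z t) : ℝ) := by
    rw [real_inner_comm (z b) (z t)] at c2
    rw [real_inner_comm (z a) (z b), real_inner_comm (z a) (z t)]
    constructor
    · by_contra hcon
      push Not at hcon
      rcases le_total (inner ℝ (z a) (z t) : ℝ) (inner ℝ (z a) (z b)) with h | h
      · exact c1 ⟨h, hcon.le⟩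
      · exact c2 ⟨h, by linarith⟩
    · by_contra hcon
      push Not at hcon
      rcases le_total (inner ℝ (z a) (z t) : ℝ) (inner ℝ (z a) (z b)) with h | h
      · exact c1 ⟨h, by linarith⟩
      · exact c2 ⟨h, hcon.le⟩
  have := hz.red_facet_aux x hx r C hC b t a hbt hab.symm hat.symm (hr b hb t ht) (hr t ht b hb)
    c3.1 c3.2
  rw [cr_rest_comm2, cr_rest_comm1]
  simp only [cr_lhs_comm2 C x a b t, cr_lhs_comm1 C x b a t]
  exact this

theorem Crit.red {k : ℕ} {d : ℕ} {z : Fin k → E d} (hz : Crit z) :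
    ∃ x y : Fin k → ℝ, Red k ((k : ℝ) / ((k : ℝ) - 1)) x y ∧
      (∀ i, x i = ‖z i‖ ^ 2 / M0) ∧
      ∀ i, gQ (y i) = (stdGaussian (E d)).real (cell z i) := by
  have hM : 0 < M0 := cr_M0_pos
  have hk4 : (4:ℝ) ≤ k := by
    have := hz.card
    rw [Fintype.card_fin] at this
    exact_mod_cast this
  have hkpos : 0 < k := by
    have := hz.card
    rw [Fintype.card_fin] at this
    omega
  have : Nonempty (Fin k) := ⟨⟨0, hkpos⟩⟩
  choose y hy0 hyQ hyn using fun i => hz.exists_y i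
  refine ⟨fun i => ‖z i‖ ^ 2 / M0, y, ?_, fun i => rfl, hyQ⟩
  have hsum : ∑ i, ‖z i‖ ^ 2 / M0 = (∑ i, ‖z i‖ ^ 2) / M0 := by rw [Finset.sum_div]
  have hT : 1 < (∑ i, ‖z i‖ ^ 2) / M0 := by
    rw [one_lt_div hM]; exact hz.big
  refine ⟨fun i => ?_, ?_, ?_, ?_, ?_⟩
  · have hcap : ‖z i‖ ^ 2 ≤ gphi (y i) ^ 2 := pow_le_pow_left₀ (norm_nonneg _) (hyn i) 2
    refine ⟨?_, hy0 i, ?_, ?_⟩
    · have := norm_pos_iff.2 (hz.ne_zero i)
      positivity
    · change M0 * (‖z i‖ ^ 2 / M0) ≤ gphi (y i) ^ 2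
      rw [mul_div_cancel₀ _ hM.ne']
      exact hcap
    · change ‖z i‖ ^ 2 / M0 ≤ XE _ (y i)
      unfold XE
      set q : ℝ := (k : ℝ) / ((k : ℝ) - 1) with hq
      have hdel := hz.deletion i (y i) (hyQ i) q (by rw [Fintype.card_fin])
      set S := ∑ j, ‖z j‖ ^ 2 with hS
      have hk1 : (0:ℝ) < (k:ℝ) - 1 := by linarith
      have hq1 : 0 < q := by rw [hq]; positivity
      have hq2 : q ≤ 4 / 3 := by
        rw [hq, div_le_div_iff₀ hk1 (by norm_num)]; linarith
      have hℓ : ell (y i) ≤ gphi (y i) ^ 2 := by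
        unfold ell
        have h1 := gphi_pos (y i)
        have h2 := gQ_nonneg (y i)
        have h3 := mul_nonneg (hy0 i) h2
        nlinarith
      have h49 : ∀ s : ℝ, s ≤ gphi (y i) ^ 2 → s / M0 ≤ 4 / 9 := fun s hs => by
        rw [div_le_iff₀ hM]
        exact hs.trans (cr_gphi_sq_le _)
      apply cr_del_aux (S / M0) q (ell (y i) / M0) (‖z i‖ ^ 2 / M0) hT hq1 hq2 (h49 _ hℓ)
        (h49 _ hcap)
      have e1 : √(M0 * (S - q * ‖z i‖ ^ 2)) = M0 * √(S / M0 - q * (‖z i‖ ^ 2 / M0)) := by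
        have : M0 * (S - q * ‖z i‖ ^ 2) = M0 ^ 2 * (S / M0 - q * (‖z i‖ ^ 2 / M0)) := by
          field_simp
        rw [this, Real.sqrt_mul (by positivity), Real.sqrt_sq hM.le]
      rw [e1] at hdel
      have e2 : S / M0 - √(S / M0 - q * (‖z i‖ ^ 2 / M0)) =
          (S - M0 * √(S / M0 - q * (‖z i‖ ^ 2 / M0))) / M0 := by
        field_simp
      rw [e2]
      calc (S - M0 * √(S / M0 - q * (‖z i‖ ^ 2 / M0))) / M0 ≤ q * ell (y i) / M0 :=
            div_le_div_of_nonneg_right hdel hM.le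
        _ = q * (ell (y i) / M0) := by ring
  · rw [hsum]; exact hT
  · rw [Finset.sum_congr rfl fun i _ => hyQ i]
    exact sum_real_cell z hz.inj
  · intro a b t hab hat hbt hr
    exact hz.red_facet _ (fun i => rfl) 2.5 12 (Or.inl ⟨rfl, rfl⟩) a b t hab hat hbt hr
  · intro a b t hab hat hbt hr
    exact hz.red_facet _ (fun i => rfl) 3 13 (Or.inr ⟨rfl, rfl⟩) a b t hab hat hbt hr

end Vale.Agent.P226
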