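import Vale.Agent.P226.TailBound

/-!
# P226 (propeller conjecture): definitions for the full proof
-/

namespace Vale.Agent.P226

open MeasureTheory ProbabilityTheory Real Set Filter Topology

/-- The standard normal distribution function `Φ(t) = Q(-t)`. -/
noncomputable def Phi (t : ℝ) : ℝ := gQ (-t)

/-- The propeller constant `9/(8π)`. -/
noncomputable def M0 : ℝ := 9 / (8 * π)

/-- `l(y) = φ(y) (φ(y) - y Q(y))`. -/
noncomputable def ell (y : ℝ) : ℝ := gphi y * (gphi y - y * gQ y)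

/-- Euclidean space. -/
abbrev E (d : ℕ) := EuclideanSpace ℝ (Fin d)

/-- The expected maximum of the Gaussian variables `⟨x, v i⟩`. -/
noncomputable def emax {ι : Type} {d : ℕ} (v : ι → E d) : ℝ :=
  ∫ x, (⨆ i, inner ℝ x (v i)) ∂(stdGaussian (E d))

/-- The (closed) argmax cell. -/
def cell {ι : Type} {d : ℕ} (v : ι → E d) (i : ι) : Set (E d) :=
  {x | ∀ j, inner ℝ x (v j) ≤ inner ℝ x (v i)}

/-- The propeller inequality for `k` vectors. -/
def PK (k : ℕ) : Prop :=
  ∀ (ι : Type) [Fintype ι] (d : ℕ) (v : ι → E d), Fintype.card ι = k →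
    emax v ^ 2 ≤ M0 * ∑ i, ‖v i‖ ^ 2

/-- Critical configuration: what a minimal counterexample provides. -/
structure Crit {ι : Type} [Fintype ι] {d : ℕ} (z : ι → E d) : Prop where
  card : 4 ≤ Fintype.card ι
  pk : PK (Fintype.card ι - 1)
  big : M0 < ∑ i, ‖z i‖ ^ 2
  emax_eq : emax z = ∑ i, ‖z i‖ ^ 2
  moment : ∀ i, ∫ x in cell z i, x ∂(stdGaussian (E d)) = z i
  sum_zero : ∑ i, z i = 0
  inj : Function.Injective z
  neg : ∀ i j, i ≠ j → inner ℝ (z i) (z j) < 0

end Vale.Agent.P226
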