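import Mathlib

/-! Maximum principle for the Borell flow `u_s = s (u_xx - u u_x²)`. -/

namespace Vale.Agent.P226

open Set Filter Topology

/-- A solution of the flow, with bounds. -/
structure Flow (B K : ℝ) (u u1 u2 : ℝ → ℝ → ℝ) : Prop where
  cont : Continuous (fun p : ℝ × ℝ => u p.1 p.2)
  dx : ∀ s x, HasDerivAt (u s) (u1 s x) x
  dxx : ∀ s x, HasDerivAt (u1 s) (u2 s x) x
  ds : ∀ s x, HasDerivAt (fun s => u s x) (s * (u2 s x - u s x * (u1 s x) ^ 2)) s
  bd : ∀ s x, |u s x| ≤ B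
  bd1 : ∀ s x, |u1 s x| ≤ K

lemma second_deriv_nonneg_of_isLocalMin (g g1 : ℝ → ℝ) (c a : ℝ)
    (hg : ∀ r, HasDerivAt g (g1 r) r) (hg1 : HasDerivAt g1 c a) (hmin : IsLocalMin g a) :
    0 ≤ c := by
  by_contra hc
  push Not at hc
  have h0 : g1 a = 0 := hmin.hasDerivAt_eq_zero (hg a)
  have hd : deriv g = g1 := funext fun r => (hg r).deriv
  have hnd : deriv (fun r => -g r) = fun r => -g1 r := funext fun r => (hg r).fun_neg.deriv
  have hmax : IsLocalMin (fun r => -g r) a := by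
    apply isLocalMin_of_deriv_deriv_pos
    · rw [hnd, (hg1.fun_neg).deriv]; linarith
    · rw [hnd]; simp [h0]
    · exact (hg a).fun_neg.continuousAt
  have heq : g =ᶠ[𝓝 a] fun _ => g a := by
    filter_upwards [hmin, hmax] with r h1 h2
    linarith
  have h1 : deriv g =ᶠ[𝓝 a] deriv (fun _ => g a) := heq.deriv
  have h2 : deriv (deriv g) a = deriv (deriv (fun _ => g a)) a := h1.deriv_eq
  rw [hd, hg1.deriv] at h2
  simp at h2
  linarith

lemma deriv_nonpos_of_left_min (g : ℝ → ℝ) (c s0 : ℝ) (hs0 : 0 < s0)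
    (hg : HasDerivAt g c s0) (hmin : ∀ s, 0 ≤ s → s ≤ s0 → g s0 ≤ g s) : c ≤ 0 := by
  have h1 := (hasDerivWithinAt_iff_tendsto_slope' (s := Iio s0) (by simp)).1
    (hg.hasDerivWithinAt (s := Iio s0))
  refine le_of_tendsto h1 ?_
  have h2 : ∀ᶠ s in 𝓝[Iio s0] s0, 0 < s := by
    apply nhdsWithin_le_nhds
    exact lt_mem_nhds hs0
  filter_upwards [h2, self_mem_nhdsWithin] with s hs hs'
  have hs' : s < s0 := hs'
  rw [slope_def_field]
  have h3 := hmin s hs.le hs'.le
  apply div_nonpos_of_nonneg_of_nonpos <;> linarith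

/-- one remainder term -/
lemma flow_rem (B K η x U p a : ℝ) (hB : 0 ≤ B) (hη : 0 < η) (hU : |U| ≤ B)
    (hp : |p| ≤ K) (ha : |a| ≤ K) (hae : a - p = 4 * η * x) :
    -(2 * η * (B * K) * (1 + x ^ 2)) ≤ U * (a ^ 2 - p ^ 2) / 2 := by
  have e1 : U * (a ^ 2 - p ^ 2) / 2 = 4 * η * (x * (U * ((a + p) / 2))) := by
    rw [show a ^ 2 - p ^ 2 = (a - p) * (a + p) by ring, hae]
    ring
  have e2 : |U * ((a + p) / 2)| ≤ B * K := by
    rw [abs_mul]
    apply mul_le_mul hU _ (abs_nonneg _) hB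
    rw [abs_le] at *
    constructor
    · linarith [hp.1, ha.1]
    · linarith [hp.2, ha.2]
  have e3 : |x * (U * ((a + p) / 2))| ≤ (1 + x ^ 2) / 2 * (B * K) := by
    rw [abs_mul]
    apply mul_le_mul _ e2 (abs_nonneg _) (by positivity)
    have := sq_abs x
    nlinarith [sq_nonneg (|x| - 1)]
  have e4 := (abs_le.1 e3).1
  rw [e1]
  have e5 := mul_le_mul_of_nonneg_left e4 (by positivity : 0 ≤ 4 * η)
  calc -(2 * η * (B * K) * (1 + x ^ 2)) = 4 * η * -((1 + x ^ 2) / 2 * (B * K)) := by ring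
    _ ≤ _ := e5

/-- the final algebraic contradiction -/
lemma flow_algebra (B K η s0 x0 y0 M U V p a b D Du Dv : ℝ) (hB : 0 ≤ B) (hK : 0 ≤ K)
    (hη : 0 < η) (hs0 : 0 < s0) (hs1 : s0 ≤ 1) (hneg : M - (U + V) / 2 < 0)
    (hU : |U| ≤ B) (hV : |V| ≤ B) (hp : |p| ≤ K) (ha : |a| ≤ K) (hb : |b| ≤ K)
    (hae : a - p = 4 * η * x0) (hbe : b - p = 4 * η * y0)
    (hD2 : 0 ≤ D - (Du + Dv) / 2 + 4 * η)
    (hT : s0 * (D - M * p ^ 2)
        - (s0 * (Du - U * a ^ 2) + s0 * (Dv - V * b ^ 2)) / 2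
        + (5 + 4 * B * K) * η * (1 + x0 ^ 2 + y0 ^ 2) ≤ 0) : False := by
  have r1 := flow_rem B K η x0 U p a hB hη hU hp ha hae
  have r2 := flow_rem B K η y0 V p b hB hη hV hp hb hbe
  have hBK : 0 ≤ B * K := mul_nonneg hB hK
  have hC2 : 0 ≤ (-(M - (U + V) / 2)) * p ^ 2 :=
    mul_nonneg (by linarith) (sq_nonneg p)
  generalize hS : 1 + x0 ^ 2 + y0 ^ 2 = S at hT
  have hS1 : 1 ≤ S := by rw [← hS]; nlinarith [sq_nonneg x0, sq_nonneg y0]
  have hsum : s0 * (D - M * p ^ 2)
        - (s0 * (Du - U * a ^ 2) + s0 * (Dv - V * b ^ 2)) / 2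
        = s0 * ((D - (Du + Dv) / 2) + (-(M - (U + V) / 2)) * p ^ 2 + U * (a ^ 2 - p ^ 2) / 2
          + V * (b ^ 2 - p ^ 2) / 2) := by ring
  rw [hsum] at hT
  have t1 : 4 * η ≤ 4 * η * S := le_mul_of_one_le_right (by positivity) hS1
  have t2 : 2 * η * (B * K) * (1 + x0 ^ 2) + 2 * η * (B * K) * (1 + y0 ^ 2)
      ≤ 4 * (B * K) * η * S := by
    have e : 2 * η * (B * K) * (1 + x0 ^ 2) + 2 * η * (B * K) * (1 + y0 ^ 2)
      = 2 * η * (B * K) * (1 + S) := by rw [← hS]; ring
    rw [e]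
    have : 4 * (B * K) * η * S = 2 * η * (B * K) * (2 * S) := by ring
    rw [this]
    apply mul_le_mul_of_nonneg_left _ (by positivity)
    linarith
  have hlow : -((4 + 4 * (B * K)) * η * S) ≤ (D - (Du + Dv) / 2)
      + (-(M - (U + V) / 2)) * p ^ 2
      + U * (a ^ 2 - p ^ 2) / 2 + V * (b ^ 2 - p ^ 2) / 2 := by
    have : (4 + 4 * (B * K)) * η * S = 4 * η * S + 4 * (B * K) * η * S := by ring
    rw [this]
    linarith
  have hA : 0 ≤ (4 + 4 * (B * K)) * η * S := by positivity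
  have hneg2 : -((4 + 4 * (B * K)) * η * S) ≤ s0 * ((D - (Du + Dv) / 2)
      + (-(M - (U + V) / 2)) * p ^ 2
      + U * (a ^ 2 - p ^ 2) / 2 + V * (b ^ 2 - p ^ 2) / 2) := by
    have e1 := mul_le_mul_of_nonneg_left hlow hs0.le
    have e2 : -((4 + 4 * (B * K)) * η * S) ≤ s0 * -((4 + 4 * (B * K)) * η * S) := by
      nlinarith
    linarith
  have hfin : 0 < η * S := by positivity
  have hLe : (5 + 4 * B * K) * η * S = (4 + 4 * (B * K)) * η * S + η * S := by ring
  linarith

theorem flow_compare (B K : ℝ) (u u1 u2 v v1 v2 w w1 w2 : ℝ → ℝ → ℝ)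
    (hu : Flow B K u u1 u2) (hv : Flow B K v v1 v2) (hw : Flow B K w w1 w2)
    (h0 : ∀ x y, (u 0 x + v 0 y) / 2 ≤ w 0 ((x + y) / 2)) (s x y : ℝ) (hs0 : 0 ≤ s)
    (hs1 : s ≤ 1) : (u s x + v s y) / 2 ≤ w s ((x + y) / 2) := by
  have hB : 0 ≤ B := (abs_nonneg _).trans (hu.bd 0 0)
  have hK : 0 ≤ K := (abs_nonneg _).trans (hu.bd1 0 0)
  set L : ℝ := 5 + 4 * B * K with hL
  set C : ℝ → ℝ → ℝ → ℝ := fun s x y => w s ((x + y) / 2) - (u s x + v s y) / 2 with hC
  have hCb : ∀ s x y, -(2 * B) ≤ C s x y := by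
    intro s x y
    have e1 := abs_le.1 (hu.bd s x)
    have e2 := abs_le.1 (hv.bd s y)
    have e3 := abs_le.1 (hw.bd s ((x + y) / 2))
    simp only [hC]
    linarith [e1.1, e1.2, e2.1, e2.2, e3.1, e3.2]
  -- main claim
  have key : ∀ ε : ℝ, 0 < ε → ∀ s x y, 0 ≤ s → s ≤ 1 →
      0 ≤ C s x y + ε * (1 + x ^ 2 + y ^ 2) * Real.exp (L * s) := by
    intro ε hε s1 x1 y1 hs0 hs1
    by_contra hneg
    push Not at hneg
    set W : ℝ × ℝ × ℝ → ℝ := fun p =>
      C p.1 p.2.1 p.2.2 + ε * (1 + p.2.1 ^ 2 + p.2.2 ^ 2) * Real.exp (L * p.1) with hW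
    have hWc : Continuous W := by
      have c1 : Continuous fun p : ℝ × ℝ × ℝ => u p.1 p.2.1 :=
        hu.cont.comp (continuous_fst.prodMk (continuous_fst.comp continuous_snd))
      have c2 : Continuous fun p : ℝ × ℝ × ℝ => v p.1 p.2.2 :=
        hv.cont.comp (continuous_fst.prodMk (continuous_snd.comp continuous_snd))
      have c3 : Continuous fun p : ℝ × ℝ × ℝ => w p.1 ((p.2.1 + p.2.2) / 2) :=
        hw.cont.comp (continuous_fst.prodMk
          (((continuous_fst.comp continuous_snd).add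
            (continuous_snd.comp continuous_snd)).div_const 2))
      have c4 : Continuous fun p : ℝ × ℝ × ℝ =>
          ε * (1 + p.2.1 ^ 2 + p.2.2 ^ 2) * Real.exp (L * p.1) := by fun_prop
      exact (c3.sub ((c1.add c2).div_const 2)).add c4
    -- far away W > 0
    set R : ℝ := 2 * B / ε + 1 + |x1| + |y1| with hR
    have hR1 : 1 ≤ R := by
      have : 0 ≤ 2 * B / ε := by positivity
      have := abs_nonneg x1
      have := abs_nonneg y1
      linarith
    have hfar : ∀ s x y : ℝ, 0 ≤ s → (R ≤ |x| ∨ R ≤ |y|) → 0 < W (s, x, y) := by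
      intro s x y hs hxy
      have hsq : R ≤ x ^ 2 + y ^ 2 := by
        rcases hxy with h | h
        · have : |x| ^ 2 = x ^ 2 := sq_abs x
          nlinarith [sq_nonneg y]
        · have : |y| ^ 2 = y ^ 2 := sq_abs y
          nlinarith [sq_nonneg x]
      have h1 : 2 * B / ε + 1 ≤ R := by
        have := abs_nonneg x1
        have := abs_nonneg y1
        linarith
      have h2 : 2 * B < ε * (1 + x ^ 2 + y ^ 2) := by
        have : 2 * B / ε < 1 + x ^ 2 + y ^ 2 := by linarith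
        rwa [div_lt_iff₀' hε] at this
      have h3 : 1 ≤ Real.exp (L * s) := by
        apply Real.one_le_exp
        have : 0 ≤ L := by positivity
        positivity
      have h4 := hCb s x y
      have h5 : 0 ≤ ε * (1 + x ^ 2 + y ^ 2) := by positivity
      simp only [hW]
      nlinarith
    have hcomp : IsCompact (Icc (0:ℝ) 1 ×ˢ (Icc (-R) R ×ˢ Icc (-R) R)) :=
      isCompact_Icc.prod (isCompact_Icc.prod isCompact_Icc)
    have hmem1 : ((s1, x1, y1) : ℝ × ℝ × ℝ) ∈ Icc (0:ℝ) 1 ×ˢ (Icc (-R) R ×ˢ Icc (-R) R) := by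
      have h1 : 0 ≤ 2 * B / ε := by positivity
      have hx : |x1| ≤ R := by have := abs_nonneg y1; linarith
      have hy : |y1| ≤ R := by have := abs_nonneg x1; linarith
      exact ⟨⟨hs0, hs1⟩, ⟨(abs_le.1 hx).1, (abs_le.1 hx).2⟩, ⟨(abs_le.1 hy).1, (abs_le.1 hy).2⟩⟩
    obtain ⟨⟨s0, x0, y0⟩, hmem, hmin⟩ := hcomp.exists_isMinOn ⟨_, hmem1⟩ hWc.continuousOn
    have hW0 : W (s0, x0, y0) < 0 := lt_of_le_of_lt (hmin hmem1) hneg
    obtain ⟨hs, -, -⟩ := hmem
    have hs' : 0 ≤ s0 ∧ s0 ≤ 1 := hs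
    have hglob : ∀ s x y, 0 ≤ s → s ≤ 1 → W (s0, x0, y0) ≤ W (s, x, y) := by
      intro s x y hs hs2
      by_cases hx : R ≤ |x|
      · exact hW0.le.trans (hfar s x y hs (Or.inl hx)).le
      by_cases hy : R ≤ |y|
      · exact hW0.le.trans (hfar s x y hs (Or.inr hy)).le
      push Not at hx hy
      apply hmin
      exact ⟨⟨hs, hs2⟩, ⟨(abs_le.1 hx.le).1, (abs_le.1 hx.le).2⟩,
        ⟨(abs_le.1 hy.le).1, (abs_le.1 hy.le).2⟩⟩
    -- s0 > 0
    have hs0pos : 0 < s0 := by
      rcases hs'.1.eq_or_lt with h | h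
      · exfalso
        rw [← h] at hW0
        simp only [hW, hC] at hW0
        have e1 := h0 x0 y0
        have e2 : 0 ≤ ε * (1 + x0 ^ 2 + y0 ^ 2) * Real.exp (L * 0) := by positivity
        linarith
      · exact h
    set η : ℝ := ε * Real.exp (L * s0) with hη
    have hηpos : 0 < η := by positivity
    set p := w1 s0 ((x0 + y0) / 2) with hp
    set a := u1 s0 x0 with ha
    set b := v1 s0 y0 with hb
    -- first order in x
    have hx1 : p - a + 4 * η * x0 = 0 := by
      have hd : HasDerivAt (fun x => W (s0, x, y0))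
          (p * (1 / 2) - (a) / 2 + ε * (2 * x0) * Real.exp (L * s0)) x0 := by
        have d1 : HasDerivAt (fun x => w s0 ((x + y0) / 2)) (p * (1 / 2)) x0 := by
          have e : HasDerivAt (fun x : ℝ => (x + y0) / 2) (1 / 2) x0 :=
            ((hasDerivAt_id x0).add_const y0).div_const 2
          exact (hw.dx s0 ((x0 + y0) / 2)).comp x0 e
        have d2 : HasDerivAt (fun x => (u s0 x + v s0 y0) / 2) (a / 2) x0 :=
          ((hu.dx s0 x0).add_const _).div_const 2
        have d3 : HasDerivAt (fun x : ℝ => ε * (1 + x ^ 2 + y0 ^ 2) * Real.exp (L * s0))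
            (ε * (2 * x0) * Real.exp (L * s0)) x0 := by
          have e : HasDerivAt (fun x : ℝ => 1 + x ^ 2 + y0 ^ 2) (2 * x0) x0 := by
            have := ((hasDerivAt_pow 2 x0).const_add 1).add_const (y0 ^ 2)
            exact this.congr_deriv (by norm_num)
          exact (e.const_mul ε).mul_const _
        exact (d1.fun_sub d2).fun_add d3
      have hlm : IsLocalMin (fun x => W (s0, x, y0)) x0 :=
        Eventually.of_forall fun x => hglob s0 x y0 hs'.1 hs'.2
      have := hlm.hasDerivAt_eq_zero hd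
      simp only [hη]
      linarith
    have hy1 : p - b + 4 * η * y0 = 0 := by
      have hd : HasDerivAt (fun y => W (s0, x0, y))
          (p * (1 / 2) - (b) / 2 + ε * (2 * y0) * Real.exp (L * s0)) y0 := by
        have d1 : HasDerivAt (fun y => w s0 ((x0 + y) / 2)) (p * (1 / 2)) y0 := by
          have e : HasDerivAt (fun y : ℝ => (x0 + y) / 2) (1 / 2) y0 :=
            ((hasDerivAt_id y0).const_add x0).div_const 2
          exact (hw.dx s0 ((x0 + y0) / 2)).comp y0 e
        have d2 : HasDerivAt (fun y => (u s0 x0 + v s0 y) / 2) (b / 2) y0 :=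
          ((hv.dx s0 y0).const_add _).div_const 2
        have d3 : HasDerivAt (fun y : ℝ => ε * (1 + x0 ^ 2 + y ^ 2) * Real.exp (L * s0))
            (ε * (2 * y0) * Real.exp (L * s0)) y0 := by
          have e : HasDerivAt (fun y : ℝ => 1 + x0 ^ 2 + y ^ 2) (2 * y0) y0 := by
            have := (hasDerivAt_pow 2 y0).const_add (1 + x0 ^ 2)
            exact this.congr_deriv (by norm_num)
          exact (e.const_mul ε).mul_const _
        exact (d1.fun_sub d2).fun_add d3
      have hlm : IsLocalMin (fun y => W (s0, x0, y)) y0 :=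
        Eventually.of_forall fun y => hglob s0 x0 y hs'.1 hs'.2
      have := hlm.hasDerivAt_eq_zero hd
      simp only [hη]
      linarith
    -- second order in the direction (1,1)
    have hD2 : 0 ≤ w2 s0 ((x0 + y0) / 2) - (u2 s0 x0 + v2 s0 y0) / 2 + 4 * η := by
      have g0 : ∀ r : ℝ, HasDerivAt (fun r => W (s0, x0 + r, y0 + r))
          (w1 s0 ((x0 + r + (y0 + r)) / 2) - (u1 s0 (x0 + r) + v1 s0 (y0 + r)) / 2
            + ε * (2 * (x0 + r) + 2 * (y0 + r)) * Real.exp (L * s0)) r := by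
        intro r
        have ex : HasDerivAt (fun r : ℝ => x0 + r) 1 r := (hasDerivAt_id r).const_add x0
        have ey : HasDerivAt (fun r : ℝ => y0 + r) 1 r := (hasDerivAt_id r).const_add y0
        have em : HasDerivAt (fun r : ℝ => (x0 + r + (y0 + r)) / 2) 1 r :=
          ((ex.fun_add ey).div_const 2).congr_deriv (by norm_num)
        have d1 := (hw.dx s0 ((x0 + r + (y0 + r)) / 2)).comp r em
        have d2 := (((hu.dx s0 (x0 + r)).comp r ex).fun_add
          ((hv.dx s0 (y0 + r)).comp r ey)).div_const 2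
        have d3 : HasDerivAt (fun r : ℝ => ε * (1 + (x0 + r) ^ 2 + (y0 + r) ^ 2)
            * Real.exp (L * s0)) (ε * (2 * (x0 + r) + 2 * (y0 + r)) * Real.exp (L * s0)) r := by
          have e1 := (ex.fun_pow 2)
          have e2 := (ey.fun_pow 2)
          have e := ((e1.const_add 1).fun_add e2)
          exact ((e.congr_deriv (by norm_num)).const_mul ε).mul_const _
        exact ((d1.fun_sub d2).fun_add d3).congr_deriv (by ring)
      have g1 : HasDerivAt (fun r => w1 s0 ((x0 + r + (y0 + r)) / 2)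
            - (u1 s0 (x0 + r) + v1 s0 (y0 + r)) / 2
            + ε * (2 * (x0 + r) + 2 * (y0 + r)) * Real.exp (L * s0))
          (w2 s0 ((x0 + y0) / 2) - (u2 s0 x0 + v2 s0 y0) / 2 + 4 * η) 0 := by
        have ex : HasDerivAt (fun r : ℝ => x0 + r) 1 0 := (hasDerivAt_id 0).const_add x0
        have ey : HasDerivAt (fun r : ℝ => y0 + r) 1 0 := (hasDerivAt_id 0).const_add y0
        have em : HasDerivAt (fun r : ℝ => (x0 + r + (y0 + r)) / 2) 1 0 :=
          ((ex.fun_add ey).div_const 2).congr_deriv (by norm_num)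
        have d1 := (hw.dxx s0 ((x0 + 0 + (y0 + 0)) / 2)).comp 0 em
        have d2 := (((hu.dxx s0 (x0 + 0)).comp 0 ex).fun_add
          ((hv.dxx s0 (y0 + 0)).comp 0 ey)).div_const 2
        have d3 : HasDerivAt (fun r : ℝ => ε * (2 * (x0 + r) + 2 * (y0 + r))
            * Real.exp (L * s0)) (ε * 4 * Real.exp (L * s0)) 0 := by
          have e := ((ex.const_mul 2).fun_add (ey.const_mul 2))
          exact ((e.congr_deriv (by norm_num : (2:ℝ) * 1 + 2 * 1 = 4)).const_mul ε).mul_const _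
        refine ((d1.fun_sub d2).fun_add d3).congr_deriv ?_
        simp only [add_zero, hη]
        ring
      have hlm : IsLocalMin (fun r => W (s0, x0 + r, y0 + r)) 0 :=
        Eventually.of_forall fun r => by
          have := hglob s0 (x0 + r) (y0 + r) hs'.1 hs'.2
          simpa using this
      exact second_deriv_nonneg_of_isLocalMin _ _ _ _ g0 g1 hlm
    -- time derivative
    set U := u s0 x0 with hU
    set V := v s0 y0 with hV
    set M := w s0 ((x0 + y0) / 2) with hM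
    have hT : s0 * (w2 s0 ((x0 + y0) / 2) - M * p ^ 2)
        - (s0 * (u2 s0 x0 - U * a ^ 2) + s0 * (v2 s0 y0 - V * b ^ 2)) / 2
        + L * η * (1 + x0 ^ 2 + y0 ^ 2) ≤ 0 := by
      have hd : HasDerivAt (fun s => W (s, x0, y0))
          (s0 * (w2 s0 ((x0 + y0) / 2) - M * p ^ 2)
            - (s0 * (u2 s0 x0 - U * a ^ 2) + s0 * (v2 s0 y0 - V * b ^ 2)) / 2
            + L * η * (1 + x0 ^ 2 + y0 ^ 2)) s0 := by
        have d1 := hw.ds s0 ((x0 + y0) / 2)
        have d2 := ((hu.ds s0 x0).fun_add (hv.ds s0 y0)).div_const 2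
        have d3 : HasDerivAt (fun s : ℝ => ε * (1 + x0 ^ 2 + y0 ^ 2) * Real.exp (L * s))
            (L * η * (1 + x0 ^ 2 + y0 ^ 2)) s0 := by
          have e : HasDerivAt (fun s : ℝ => L * s) L s0 := by
            simpa using (hasDerivAt_id s0).const_mul L
          refine (e.exp.const_mul (ε * (1 + x0 ^ 2 + y0 ^ 2))).congr_deriv ?_
          simp only [hη]; ring
        exact (d1.fun_sub d2).fun_add d3
      exact deriv_nonpos_of_left_min _ _ s0 hs0pos hd
        (fun s h1 h2 => hglob s x0 y0 h1 (h2.trans hs'.2))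
    have hCneg : M - (U + V) / 2 < 0 := by
      have e : 0 ≤ ε * (1 + x0 ^ 2 + y0 ^ 2) * Real.exp (L * s0) := by positivity
      have h : M - (U + V) / 2 + ε * (1 + x0 ^ 2 + y0 ^ 2) * Real.exp (L * s0) < 0 := hW0
      linarith
    exact flow_algebra B K η s0 x0 y0 M U V p a b _ _ _ hB hK hηpos hs0pos hs'.2 hCneg
      (hu.bd s0 x0) (hv.bd s0 y0) (hw.bd1 s0 _) (hu.bd1 s0 x0) (hv.bd1 s0 y0)
      (by linarith) (by linarith) hD2 hT
  -- let ε → 0
  have hfinal : 0 ≤ C s x y := by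
    by_contra hneg
    push Not at hneg
    have hpos : 0 < (1 + x ^ 2 + y ^ 2) * Real.exp (L * s) := by positivity
    have h1 := key (-(C s x y) / (2 * ((1 + x ^ 2 + y ^ 2) * Real.exp (L * s))))
      (by apply div_pos; · linarith
          · positivity) s x y hs0 hs1
    have h2 : -(C s x y) / (2 * ((1 + x ^ 2 + y ^ 2) * Real.exp (L * s)))
        * (1 + x ^ 2 + y ^ 2) * Real.exp (L * s) = -(C s x y) / 2 := by
      field_simp
    rw [h2] at h1
    linarith
  simp only [hC] at hfinal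
  linarith

end Vale.Agent.P226
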