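import Vale.Agent.P226.Full.PhiInv
import Vale.Agent.P226.Full.EhrMax

/-! Gaussian averages `E f(x + s g)` and the flow attached to a bounded `C²` function. -/

namespace Vale.Agent.P226

open MeasureTheory ProbabilityTheory Real Set Filter Topology

/-- Gaussian average. -/
noncomputable def heat (f : ℝ → ℝ) (s x : ℝ) : ℝ := ∫ g, f (x + s * g) ∂(gaussianReal 0 1)

lemma integrable_abs_gaussian : Integrable (fun g : ℝ => |g|) (gaussianReal 0 1) := by
  have h : MemLp id 1 (gaussianReal 0 1) := memLp_id_gaussianReal 1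
  have h2 : Integrable (id : ℝ → ℝ) (gaussianReal 0 1) := memLp_one_iff_integrable.1 h
  simpa using h2.abs

lemma integrable_bdd_gauss (f : ℝ → ℝ) (K : ℝ) (hc : Continuous f) (hb : ∀ x, |f x| ≤ K) :
    Integrable f (gaussianReal 0 1) :=
  Integrable.of_bound hc.aestronglyMeasurable K (ae_of_all _ fun x => by simpa using hb x)

lemma heat_dx (f f' : ℝ → ℝ) (K : ℝ) (hf : ∀ x, HasDerivAt f (f' x) x) (hb : ∀ x, |f x| ≤ K)
    (hb' : ∀ x, |f' x| ≤ K) (hc : Continuous f') (s x : ℝ) :
    HasDerivAt (heat f s) (heat f' s x) x := by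
  have hcf : Continuous f := continuous_iff_continuousAt.2 fun x => (hf x).continuousAt
  have h := hasDerivAt_integral_of_dominated_loc_of_deriv_le (μ := gaussianReal 0 1)
    (F := fun x g => f (x + s * g)) (F' := fun x g => f' (x + s * g)) (x₀ := x)
    (s := univ) (bound := fun _ => K) univ_mem
    (Eventually.of_forall fun y => (by fun_prop : Continuous fun g => f (y + s * g)).aestronglyMeasurable)
    (integrable_bdd_gauss _ K (by fun_prop) (fun g => hb _))
    (by fun_prop : Continuous fun g => f' (x + s * g)).aestronglyMeasurable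
    (ae_of_all _ fun g y _ => by simpa using hb' (y + s * g))
    (integrable_const K)
    (ae_of_all _ fun g y _ => by
      have e : HasDerivAt (fun y : ℝ => y + s * g) 1 y := (hasDerivAt_id y).add_const _
      exact ((hf (y + s * g)).comp y e).congr_deriv (by ring))
  exact h.2

/-- Gaussian integration by parts. -/
lemma gauss_ibp (h h' : ℝ → ℝ) (K : ℝ) (hh : ∀ x, HasDerivAt h (h' x) x) (hb : ∀ x, |h x| ≤ K)
    (hb' : ∀ x, |h' x| ≤ K) (hc : Continuous h') :
    ∫ g, g * h g ∂(gaussianReal 0 1) = ∫ g, h' g ∂(gaussianReal 0 1) := by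
  have hch : Continuous h := continuous_iff_continuousAt.2 fun x => (hh x).continuousAt
  rw [integral_gaussianReal_eq_integral_smul (by norm_num),
    integral_gaussianReal_eq_integral_smul (by norm_num)]
  simp only [gphi_eq_pdf, smul_eq_mul]
  have i1 : Integrable (fun x => gphi x * h' x) :=
    integrable_gphi.mul_bdd (c := K) hc.aestronglyMeasurable
      (ae_of_all _ fun x => by simpa using hb' x)
  have i2 : Integrable (fun x => (x * gphi x) * h x) :=
    integrable_mul_gphi.mul_bdd (c := K) hch.aestronglyMeasurable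
      (ae_of_all _ fun x => by simpa using hb x)
  have i3 : Integrable (fun x => gphi x * h x) :=
    integrable_gphi.mul_bdd (c := K) hch.aestronglyMeasurable
      (ae_of_all _ fun x => by simpa using hb x)
  have hd : ∀ x, HasDerivAt (fun x => gphi x * h x) (gphi x * h' x - (x * gphi x) * h x) x := by
    intro x
    exact ((hasDerivAt_gphi x).mul (hh x)).congr_deriv (by ring)
  have h0 := integral_eq_zero_of_hasDerivAt_of_integrable hd (i1.sub i2) i3
  rw [integral_sub i1 i2] at h0
  have e : ∀ x, gphi x * (x * h x) = (x * gphi x) * h x := fun x => by ring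
  simp_rw [e]
  linarith

lemma heat_ds (f f' f'' : ℝ → ℝ) (K : ℝ) (hf : ∀ x, HasDerivAt f (f' x) x)
    (hf' : ∀ x, HasDerivAt f' (f'' x) x) (hb : ∀ x, |f x| ≤ K)
    (hb' : ∀ x, |f' x| ≤ K) (hb'' : ∀ x, |f'' x| ≤ K) (hc : Continuous f'') (s x : ℝ) :
    HasDerivAt (fun s => heat f s x) (s * heat f'' s x) s := by
  have hcf : Continuous f := continuous_iff_continuousAt.2 fun x => (hf x).continuousAt
  have hcf' : Continuous f' := continuous_iff_continuousAt.2 fun x => (hf' x).continuousAt
  have h := hasDerivAt_integral_of_dominated_loc_of_deriv_le (μ := gaussianReal 0 1)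
    (F := fun s g => f (x + s * g)) (F' := fun s g => g * f' (x + s * g)) (x₀ := s)
    (s := univ) (bound := fun g => |g| * K) univ_mem
    (Eventually.of_forall fun y => (by fun_prop : Continuous fun g => f (x + y * g)).aestronglyMeasurable)
    (integrable_bdd_gauss _ K (by fun_prop) (fun g => hb _))
    (by fun_prop : Continuous fun g => g * f' (x + s * g)).aestronglyMeasurable
    (ae_of_all _ fun g y _ => by
      rw [norm_mul, Real.norm_eq_abs, Real.norm_eq_abs]
      exact mul_le_mul_of_nonneg_left (hb' _) (abs_nonneg _))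
    (integrable_abs_gaussian.mul_const K)
    (ae_of_all _ fun g y _ => by
      have e : HasDerivAt (fun y : ℝ => x + y * g) g y := by
        simpa using ((hasDerivAt_id y).mul_const g).const_add x
      exact ((hf (x + y * g)).comp y e).congr_deriv (by ring))
  refine h.2.congr_deriv ?_
  have hK : 0 ≤ K := (abs_nonneg _).trans (hb 0)
  have hi := gauss_ibp (fun g => f' (x + s * g)) (fun g => s * f'' (x + s * g)) (|s| * K + K)
    (fun g => by
      have e : HasDerivAt (fun g : ℝ => x + s * g) s g := by
        simpa using ((hasDerivAt_id g).const_mul s).const_add x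
      exact ((hf' (x + s * g)).comp g e).congr_deriv (by ring))
    (fun g => by
      have := hb' (x + s * g)
      have : 0 ≤ |s| * K := by positivity
      linarith)
    (fun g => by
      rw [abs_mul]
      have := mul_le_mul_of_nonneg_left (hb'' (x + s * g)) (abs_nonneg s)
      linarith)
    (by fun_prop)
  rw [hi, integral_const_mul]
  rfl

lemma heat_continuous (f : ℝ → ℝ) (K : ℝ) (hf : Continuous f) (hb : ∀ x, |f x| ≤ K) :
    Continuous fun p : ℝ × ℝ => heat f p.1 p.2 := by
  unfold heat
  refine continuous_of_dominated (bound := fun _ => K) ?_ ?_ (integrable_const K) ?_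
  · intro p
    exact (by fun_prop : Continuous fun g => f (p.2 + p.1 * g)).aestronglyMeasurable
  · intro p
    exact ae_of_all _ fun g => by simpa using hb _
  · exact ae_of_all _ fun g => by fun_prop

lemma heat_abs_le (f : ℝ → ℝ) (K : ℝ) (hb : ∀ x, |f x| ≤ K) (s x : ℝ) : |heat f s x| ≤ K := by
  have h := norm_integral_le_of_norm_le_const (μ := gaussianReal 0 1)
    (f := fun g => f (x + s * g)) (C := K) (ae_of_all _ fun g => by simpa using hb (x + s * g))
  simpa [heat] using h

lemma heat_mem (f : ℝ → ℝ) (a b : ℝ) (hf : Continuous f) (hb : ∀ x, a ≤ f x ∧ f x ≤ b) (s x : ℝ) :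
    a ≤ heat f s x ∧ heat f s x ≤ b := by
  have hi : Integrable (fun g => f (x + s * g)) (gaussianReal 0 1) := by
    refine integrable_bdd_gauss _ (|a| + |b|) (by fun_prop) fun g => ?_
    have h := hb (x + s * g)
    rw [abs_le]
    constructor
    · have := neg_abs_le a; have := abs_nonneg b; linarith [h.1]
    · have := le_abs_self b; have := abs_nonneg a; linarith [h.2]
  constructor
  · have := integral_mono (μ := gaussianReal 0 1) (integrable_const a) hi fun g => (hb _).1
    simpa [heat] using this
  · have := integral_mono (μ := gaussianReal 0 1) hi (integrable_const b) fun g => (hb _).2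
    simpa [heat] using this

lemma heat_zero (f : ℝ → ℝ) (x : ℝ) : heat f 0 x = f x := by
  simp [heat]

lemma gphi_le_one (t : ℝ) : gphi t ≤ 1 := by
  unfold gphi
  have h1 : (√(2 * π))⁻¹ ≤ 1 := by
    apply inv_le_one_of_one_le₀
    rw [Real.one_le_sqrt]
    have := Real.pi_gt_three
    linarith
  have h2 : rexp (-(t ^ 2) / 2) ≤ 1 := by
    rw [Real.exp_le_one_iff]
    nlinarith [sq_nonneg t]
  calc _ ≤ (1:ℝ) * 1 := mul_le_mul h1 h2 (by positivity) (by norm_num)
    _ = 1 := one_mul 1

lemma gphi_le_of_abs_le (t B : ℝ) (h : |t| ≤ B) : gphi B ≤ gphi t := by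
  unfold gphi
  apply mul_le_mul_of_nonneg_left _ (by positivity)
  apply Real.exp_le_exp.2
  have : t ^ 2 ≤ B ^ 2 := sq_le_sq' (abs_le.1 h).1 (abs_le.1 h).2
  linarith

end Vale.Agent.P226
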