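import Vale.Agent.P226.Full.EhrSmooth

/-! Task P226-E1b: one-dimensional functional Ehrhard inequality, bounded continuous case. -/

namespace Vale.Agent.P226

open MeasureTheory ProbabilityTheory Real Set Filter Topology

/-! ### Facts on `Phi` -/

lemma eo_hasDerivAt_Phi (t : ℝ) : HasDerivAt Phi (gphi (-t)) t := by
  have h := (hasDerivAt_gQ (-t)).comp t (hasDerivAt_neg t)
  have h2 : HasDerivAt (fun s => gQ (-s)) (gphi (-t)) t :=
    h.congr_deriv (by ring)
  exact h2

lemma eo_continuous_Phi : Continuous Phi :=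
  continuous_iff_continuousAt.mpr fun t => (eo_hasDerivAt_Phi t).continuousAt

lemma eo_strictMono_Phi : StrictMono Phi := by
  refine strictMono_of_deriv_pos ?_
  intro t
  rw [(eo_hasDerivAt_Phi t).deriv]
  exact gphi_pos _

lemma eo_Phi_nonneg (t : ℝ) : 0 ≤ Phi t := gQ_nonneg _

lemma eo_Phi_le_one (t : ℝ) : Phi t ≤ 1 := by
  unfold Phi gQ
  calc ∫ x in Ioi (-t), gphi x ≤ ∫ x, gphi x :=
        setIntegral_le_integral integrable_gphi (ae_of_all _ fun x => (gphi_pos x).le)
    _ = 1 := integral_gphi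

lemma eo_integrable_Phi {H : ℝ → ℝ} (hH : Continuous H) :
    Integrable (fun x => Phi (H x)) (gaussianReal 0 1) := by
  refine Integrable.of_bound (eo_continuous_Phi.comp hH).aestronglyMeasurable 1 ?_
  refine ae_of_all _ fun x => ?_
  rw [Real.norm_eq_abs, abs_of_nonneg (eo_Phi_nonneg _)]
  exact eo_Phi_le_one _

lemma eo_tendsto_of_Phi {u : ℕ → ℝ} {a : ℝ} (h : Tendsto (fun n => Phi (u n)) atTop (𝓝 (Phi a))) :
    Tendsto u atTop (𝓝 a) := by
  rw [tendsto_order] at h ⊢
  constructor
  · intro b hb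
    filter_upwards [h.1 (Phi b) (eo_strictMono_Phi hb)] with n hn
    exact eo_strictMono_Phi.lt_iff_lt.mp hn
  · intro b hb
    filter_upwards [h.2 (Phi b) (eo_strictMono_Phi hb)] with n hn
    exact eo_strictMono_Phi.lt_iff_lt.mp hn

/-- Existence of the normal quantile of the average. -/
lemma eo_exists_quantile {H : ℝ → ℝ} (hH : Continuous H) {B : ℝ} (hB : ∀ x, |H x| ≤ B) :
    ∃ a, ∫ x, Phi (H x) ∂(gaussianReal 0 1) = Phi a := by
  have hB0 : 0 ≤ B := (abs_nonneg _).trans (hB 0)
  have h1 : Phi (-B) ≤ ∫ x, Phi (H x) ∂(gaussianReal 0 1) := by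
    have : ∫ x, Phi (-B) ∂(gaussianReal 0 1) = Phi (-B) := by simp
    rw [← this]
    refine integral_mono (integrable_const _) (eo_integrable_Phi hH) ?_
    intro x
    exact eo_strictMono_Phi.monotone (neg_le_of_abs_le (hB x))
  have h2 : ∫ x, Phi (H x) ∂(gaussianReal 0 1) ≤ Phi B := by
    have : ∫ x, Phi B ∂(gaussianReal 0 1) = Phi B := by simp
    rw [← this]
    refine integral_mono (eo_integrable_Phi hH) (integrable_const _) ?_
    intro x
    exact eo_strictMono_Phi.monotone (le_of_abs_le (hB x))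
  have h3 := intermediate_value_Icc (by linarith : -B ≤ B) eo_continuous_Phi.continuousOn
  obtain ⟨a, _, ha⟩ := h3 ⟨h1, h2⟩
  exact ⟨a, ha.symm⟩

/-! ### Moving averages -/

/-- The moving average over `[x - e, x + e]`. -/
noncomputable def mavg (e : ℝ) (H : ℝ → ℝ) (x : ℝ) : ℝ :=
  (∫ z in (-e)..e, H (x + z)) / (2 * e)

lemma mavg_eq (e : ℝ) (H : ℝ → ℝ) (x : ℝ) :
    mavg e H x = (∫ t in (x - e)..(x + e), H t) / (2 * e) := by
  unfold mavg
  rw [intervalIntegral.integral_comp_add_left (fun t => H t) x, ← sub_eq_add_neg]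

lemma mavg_hasDerivAt {e : ℝ} {H : ℝ → ℝ} (hH : Continuous H) (x : ℝ) :
    HasDerivAt (mavg e H) ((H (x + e) - H (x - e)) / (2 * e)) x := by
  have hF : ∀ y, HasDerivAt (fun y => ∫ t in (0:ℝ)..y, H t) (H y) y := fun y =>
    (hH.integral_hasStrictDerivAt 0 y).hasDerivAt
  have h1 : HasDerivAt (fun y => ∫ t in (0:ℝ)..(y + e), H t) (H (x + e)) x := by
    have := (hF (x + e)).comp x ((hasDerivAt_id x).add_const e)
    simpa [Function.comp_def] using this
  have h2 : HasDerivAt (fun y => ∫ t in (0:ℝ)..(y - e), H t) (H (x - e)) x := by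
    have := (hF (x - e)).comp x ((hasDerivAt_id x).sub_const e)
    simpa [Function.comp_def] using this
  have h3 := (h1.sub h2).div_const (2 * e)
  refine h3.congr_of_eventuallyEq (Eventually.of_forall fun y => ?_)
  rw [mavg_eq]
  congr 1
  have hint : ∀ a b, IntervalIntegrable H volume a b := fun a b => hH.intervalIntegrable a b
  have := intervalIntegral.integral_interval_sub_left (hint 0 (y + e)) (hint 0 (y - e))
  simp only [Pi.sub_apply]
  rw [this]

lemma mavg_continuous {e : ℝ} {H : ℝ → ℝ} (hH : Continuous H) : Continuous (mavg e H) :=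
  continuous_iff_continuousAt.mpr fun x => (mavg_hasDerivAt hH x).continuousAt

lemma mavg_near {e : ℝ} (he : 0 < e) {H : ℝ → ℝ} (hH : Continuous H) {x c δ : ℝ}
    (h : ∀ z, |z| ≤ e → |H (x + z) - c| ≤ δ) : |mavg e H x - c| ≤ δ := by
  have h1 : mavg e H x - c = (∫ z in (-e)..e, (H (x + z) - c)) / (2 * e) := by
    unfold mavg
    rw [intervalIntegral.integral_sub]
    · rw [intervalIntegral.integral_const, smul_eq_mul]
      field_simp
      ring
    · exact (hH.comp (continuous_const.add continuous_id)).intervalIntegrable _ _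
    · exact intervalIntegrable_const
  have h2 : ‖∫ z in (-e)..e, (H (x + z) - c)‖ ≤ δ * |e - -e| := by
    refine intervalIntegral.norm_integral_le_of_norm_le_const ?_
    intro z hz
    rw [uIoc_of_le (by linarith)] at hz
    rw [Real.norm_eq_abs]
    exact h z (abs_le.mpr ⟨hz.1.le, hz.2⟩)
  rw [h1, abs_div, abs_of_pos (by linarith : (0:ℝ) < 2 * e), div_le_iff₀ (by linarith)]
  rw [Real.norm_eq_abs] at h2
  have h3 : |e - -e| = 2 * e := by
    rw [sub_neg_eq_add, ← two_mul, abs_of_pos (by linarith)]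
  rwa [h3] at h2

lemma mavg_bound {e : ℝ} (he : 0 < e) {H : ℝ → ℝ} (hH : Continuous H) {B : ℝ}
    (hB : ∀ x, |H x| ≤ B) (x : ℝ) : |mavg e H x| ≤ B := by
  have h := mavg_near he hH (x := x) (c := 0) (δ := B) (fun z _ => by simpa using hB (x + z))
  simpa using h

lemma mavg_mid {e : ℝ} (he : 0 < e) {H0 H1 Hm : ℝ → ℝ} (c0 : Continuous H0) (c1 : Continuous H1)
    (cm : Continuous Hm) (hmid : ∀ x y, (H0 x + H1 y) / 2 ≤ Hm ((x + y) / 2)) (x y : ℝ) :
    (mavg e H0 x + mavg e H1 y) / 2 ≤ mavg e Hm ((x + y) / 2) := by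
  have i0 : IntervalIntegrable (fun z => H0 (x + z)) volume (-e) e :=
    (c0.comp (continuous_const.add continuous_id)).intervalIntegrable _ _
  have i1 : IntervalIntegrable (fun z => H1 (y + z)) volume (-e) e :=
    (c1.comp (continuous_const.add continuous_id)).intervalIntegrable _ _
  have im : IntervalIntegrable (fun z => Hm ((x + y) / 2 + z)) volume (-e) e :=
    (cm.comp (continuous_const.add continuous_id)).intervalIntegrable _ _
  have h1 : (mavg e H0 x + mavg e H1 y) / 2 =
      (∫ z in (-e)..e, (H0 (x + z) + H1 (y + z)) / 2) / (2 * e) := by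
    unfold mavg
    rw [intervalIntegral.integral_div, intervalIntegral.integral_add i0 i1]
    ring
  rw [h1]
  unfold mavg
  refine div_le_div_of_nonneg_right ?_ (by linarith)
  refine intervalIntegral.integral_mono_on (by linarith) ((i0.add i1).div_const 2) im ?_
  intro z _
  have := hmid (x + z) (y + z)
  have h2 : (x + z + (y + z)) / 2 = (x + y) / 2 + z := by ring
  rwa [h2] at this

/-- The double moving average is `C²` with explicit bounds. -/
lemma mavg_C2B {e : ℝ} (he : 0 < e) (he1 : e ≤ 1) {H : ℝ → ℝ} (hH : Continuous H) {B : ℝ}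
    (hB : ∀ x, |H x| ≤ B) : C2B (B / e ^ 2) (mavg e (mavg e H)) := by
  have hB0 : 0 ≤ B := (abs_nonneg _).trans (hB 0)
  have hc1 := mavg_continuous (e := e) hH
  have hd2 : ∀ x, HasDerivAt (mavg e (mavg e H))
      ((mavg e H (x + e) - mavg e H (x - e)) / (2 * e)) x := fun x => mavg_hasDerivAt hc1 x
  have hderiv1 : deriv (mavg e (mavg e H)) =
      fun x => (mavg e H (x + e) - mavg e H (x - e)) / (2 * e) := by
    funext x; exact (hd2 x).deriv
  have hd3 : ∀ x, HasDerivAt (fun x => (mavg e H (x + e) - mavg e H (x - e)) / (2 * e))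
      (((H (x + e + e) - H (x + e - e)) / (2 * e) - (H (x - e + e) - H (x - e - e)) / (2 * e)) /
        (2 * e)) x := by
    intro x
    have h1 : HasDerivAt (fun y => mavg e H (y + e)) ((H (x + e + e) - H (x + e - e)) / (2 * e)) x := by
      have := (mavg_hasDerivAt (e := e) hH (x + e)).comp x ((hasDerivAt_id x).add_const e)
      simpa [Function.comp_def] using this
    have h2 : HasDerivAt (fun y => mavg e H (y - e)) ((H (x - e + e) - H (x - e - e)) / (2 * e)) x := by
      have := (mavg_hasDerivAt (e := e) hH (x - e)).comp x ((hasDerivAt_id x).sub_const e)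
      simpa [Function.comp_def] using this
    exact (h1.sub h2).div_const (2 * e)
  have hderiv2 : deriv (deriv (mavg e (mavg e H))) = fun x =>
      ((H (x + e + e) - H (x + e - e)) / (2 * e) - (H (x - e + e) - H (x - e - e)) / (2 * e)) /
        (2 * e) := by
    rw [hderiv1]; funext x; exact (hd3 x).deriv
  have hcd2 : Continuous (deriv (deriv (mavg e (mavg e H)))) := by
    rw [hderiv2]
    have : ∀ c : ℝ, Continuous fun x => H (x + c) := fun c =>
      hH.comp (continuous_id.add continuous_const)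
    fun_prop
  have hee : e ^ 2 ≤ 1 := by nlinarith
  have hee2 : e ^ 2 ≤ e := by nlinarith
  have he2 : 0 < e ^ 2 := by positivity
  refine ⟨?_, ?_, ?_, ?_⟩
  · have h2 : (2 : WithTop ℕ∞) = 1 + 1 := by norm_num
    rw [h2, contDiff_succ_iff_deriv]
    refine ⟨fun x => (hd2 x).differentiableAt, by simp, ?_⟩
    rw [contDiff_one_iff_deriv]
    refine ⟨?_, hcd2⟩
    rw [hderiv1]
    exact fun x => (hd3 x).differentiableAt
  · intro x
    refine (mavg_bound he hc1 (mavg_bound he hH hB) x).trans ?_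
    rw [le_div_iff₀ he2]
    nlinarith
  · intro x
    rw [hderiv1]
    simp only
    have h1 := mavg_bound he hH hB (x + e)
    have h2 := mavg_bound he hH hB (x - e)
    rw [abs_div, abs_of_pos (by linarith : (0:ℝ) < 2 * e), div_le_iff₀ (by linarith)]
    have h3 : |mavg e H (x + e) - mavg e H (x - e)| ≤ 2 * B := by
      rw [abs_le] at h1 h2 ⊢
      constructor <;> linarith [h1.1, h1.2, h2.1, h2.2]
    refine h3.trans ?_
    have h4 : B / e ^ 2 * (2 * e) = 2 * (B / e) := by
      field_simp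
    rw [h4]
    have h5 : B ≤ B / e := by
      rw [le_div_iff₀ he]
      nlinarith
    linarith
  · intro x
    rw [hderiv2]
    simp only
    have h1 := hB (x + e + e)
    have h2 := hB (x + e - e)
    have h3 := hB (x - e + e)
    have h4 := hB (x - e - e)
    have h5 : ((H (x + e + e) - H (x + e - e)) / (2 * e) -
        (H (x - e + e) - H (x - e - e)) / (2 * e)) / (2 * e) =
        (H (x + e + e) - H (x + e - e) - H (x - e + e) + H (x - e - e)) / (4 * e ^ 2) := by
      field_simp
      ring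
    rw [h5, abs_div, abs_of_pos (by positivity : (0:ℝ) < 4 * e ^ 2), div_le_iff₀ (by positivity)]
    have h6 : B / e ^ 2 * (4 * e ^ 2) = 4 * B := by
      field_simp
    rw [h6]
    rw [abs_le] at h1 h2 h3 h4 ⊢
    constructor <;> linarith [h1.1, h1.2, h2.1, h2.2, h3.1, h3.2, h4.1, h4.2]

/-- Pointwise convergence of the double moving averages. -/
lemma mavg_tendsto {H : ℝ → ℝ} (hH : Continuous H) (x : ℝ) {e : ℕ → ℝ} (he : ∀ n, 0 < e n)
    (hlim : Tendsto e atTop (𝓝 0)) :
    Tendsto (fun n => mavg (e n) (mavg (e n) H) x) atTop (𝓝 (H x)) := by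
  rw [Metric.tendsto_atTop]
  intro δ hδ
  obtain ⟨r, hr, hr2⟩ := Metric.continuous_iff.mp hH x (δ / 2) (by linarith)
  rw [Metric.tendsto_atTop] at hlim
  obtain ⟨N, hN⟩ := hlim (r / 2) (by linarith)
  refine ⟨N, fun n hn => ?_⟩
  have h1 := hN n hn
  rw [Real.dist_eq, sub_zero, abs_of_pos (he n)] at h1
  rw [Real.dist_eq]
  have h2 : |mavg (e n) (mavg (e n) H) x - H x| ≤ δ / 2 := by
    refine mavg_near (he n) (mavg_continuous hH) ?_
    intro z hz
    refine mavg_near (he n) hH ?_
    intro w hw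
    have h3 : dist (x + z + w) x < r := by
      rw [Real.dist_eq]
      have : x + z + w - x = z + w := by ring
      rw [this]
      calc |z + w| ≤ |z| + |w| := abs_add_le z w
        _ < r := by linarith
    have h4 := hr2 (x + z + w) h3
    rw [Real.dist_eq] at h4
    exact h4.le
  linarith

lemma eo_tendsto_integral {H : ℝ → ℝ} (hH : Continuous H) {e : ℕ → ℝ} (he : ∀ n, 0 < e n)
    (hlim : Tendsto e atTop (𝓝 0)) :
    Tendsto (fun n => ∫ x, Phi (mavg (e n) (mavg (e n) H) x) ∂(gaussianReal 0 1)) atTop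
      (𝓝 (∫ x, Phi (H x) ∂(gaussianReal 0 1))) := by
  refine tendsto_integral_of_dominated_convergence (fun _ => (1 : ℝ)) ?_ (integrable_const _) ?_ ?_
  · intro n
    exact (eo_continuous_Phi.comp (mavg_continuous (mavg_continuous hH))).aestronglyMeasurable
  · intro n
    refine ae_of_all _ fun x => ?_
    rw [Real.norm_eq_abs, abs_of_nonneg (eo_Phi_nonneg _)]
    exact eo_Phi_le_one _
  · refine ae_of_all _ fun x => ?_
    exact (eo_continuous_Phi.tendsto _).comp (mavg_tendsto hH x he hlim)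

theorem ehrhard_one (B : ℝ) (H0 H1 Hm : ℝ → ℝ) (c0 : Continuous H0) (c1 : Continuous H1)
    (cm : Continuous Hm) (b0 : ∀ x, |H0 x| ≤ B) (b1 : ∀ x, |H1 x| ≤ B) (bm : ∀ x, |Hm x| ≤ B)
    (hmid : ∀ x y, (H0 x + H1 y) / 2 ≤ Hm ((x + y) / 2)) (a0 a1 : ℝ)
    (ha0 : ∫ x, Phi (H0 x) ∂(gaussianReal 0 1) = Phi a0)
    (ha1 : ∫ x, Phi (H1 x) ∂(gaussianReal 0 1) = Phi a1) :
    Phi ((a0 + a1) / 2) ≤ ∫ x, Phi (Hm x) ∂(gaussianReal 0 1) := by
  set e : ℕ → ℝ := fun n => 1 / ((n : ℝ) + 1) with he
  have hepos : ∀ n, 0 < e n := fun n => by rw [he]; positivity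
  have hle : ∀ n, e n ≤ 1 := fun n => by
    rw [he]
    simp only
    rw [div_le_one (by positivity)]
    have : (0 : ℝ) ≤ n := by positivity
    linarith
  have hlim : Tendsto e atTop (𝓝 0) := tendsto_one_div_add_atTop_nhds_zero_nat
  have hd : ∀ (H : ℝ → ℝ) (n : ℕ), Continuous H → Continuous (mavg (e n) (mavg (e n) H)) :=
    fun H n hH => mavg_continuous (mavg_continuous hH)
  have hb : ∀ (H : ℝ → ℝ) (n : ℕ), Continuous H → (∀ x, |H x| ≤ B) →
      ∀ x, |mavg (e n) (mavg (e n) H) x| ≤ B :=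
    fun H n hH hB => mavg_bound (hepos n) (mavg_continuous hH) (mavg_bound (hepos n) hH hB)
  choose u0 hu0 using fun n => eo_exists_quantile (hd H0 n c0) (hb H0 n c0 b0)
  choose u1 hu1 using fun n => eo_exists_quantile (hd H1 n c1) (hb H1 n c1 b1)
  have t0 : Tendsto u0 atTop (𝓝 a0) := by
    apply eo_tendsto_of_Phi
    have := eo_tendsto_integral c0 hepos hlim
    rw [ha0] at this
    refine this.congr fun n => hu0 n
  have t1 : Tendsto u1 atTop (𝓝 a1) := by
    apply eo_tendsto_of_Phi
    have := eo_tendsto_integral c1 hepos hlim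
    rw [ha1] at this
    refine this.congr fun n => hu1 n
  have tm := eo_tendsto_integral cm hepos hlim
  have tl : Tendsto (fun n => Phi ((u0 n + u1 n) / 2)) atTop (𝓝 (Phi ((a0 + a1) / 2))) :=
    (eo_continuous_Phi.tendsto _).comp ((t0.add t1).div_const 2)
  refine le_of_tendsto_of_tendsto' tl tm ?_
  intro n
  refine ehrhard_smooth (B / (e n) ^ 2) (mavg (e n) (mavg (e n) H0)) (mavg (e n) (mavg (e n) H1))
    (mavg (e n) (mavg (e n) Hm)) (mavg_C2B (hepos n) (hle n) c0 b0)
    (mavg_C2B (hepos n) (hle n) c1 b1) (mavg_C2B (hepos n) (hle n) cm bm) ?_ (u0 n) (u1 n)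
    (hu0 n) (hu1 n)
  exact mavg_mid (hepos n) (mavg_continuous c0) (mavg_continuous c1) (mavg_continuous cm)
    (mavg_mid (hepos n) c0 c1 cm hmid)

end Vale.Agent.P226
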