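import Vale.Agent.P226.Full.EhrOne

/-! Task P226-E2: `n`-dimensional functional Ehrhard inequality by induction. -/

namespace Vale.Agent.P226

open MeasureTheory ProbabilityTheory Real Set Filter Topology

lemma pi_hasDerivAt_Phi (t : ℝ) : HasDerivAt Phi (gphi t) t := by
  have h := (hasDerivAt_gQ (-t)).comp t (hasDerivAt_neg t)
  have e : -gphi (-t) * -1 = gphi t := by
    unfold gphi; rw [neg_sq]; ring
  rw [e] at h
  exact h

lemma pi_Phi_strictMono : StrictMono Phi := by
  apply strictMono_of_deriv_pos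
  intro t
  rw [(pi_hasDerivAt_Phi t).deriv]
  exact gphi_pos t

lemma pi_Phi_continuous : Continuous Phi :=
  continuous_iff_continuousAt.mpr fun t => (pi_hasDerivAt_Phi t).continuousAt

lemma pi_Phi_nonneg (t : ℝ) : 0 ≤ Phi t := gQ_nonneg _

lemma pi_Phi_le_one (t : ℝ) : Phi t ≤ 1 := by
  unfold Phi gQ
  rw [← integral_gphi]
  exact setIntegral_le_integral integrable_gphi
    (Filter.Eventually.of_forall fun x => (gphi_pos x).le)

lemma pi_exists_Phi {B p : ℝ} (hB : 0 ≤ B) (h0 : Phi (-B) ≤ p) (h1 : p ≤ Phi B) :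
    ∃ a, |a| ≤ B ∧ Phi a = p := by
  obtain ⟨a, ha, he⟩ := intermediate_value_Icc (by linarith : -B ≤ B)
    pi_Phi_continuous.continuousOn (show p ∈ Icc (Phi (-B)) (Phi B) from ⟨h0, h1⟩)
  exact ⟨a, abs_le.mpr ha, he⟩

lemma pi_cont_of {X : Type*} [TopologicalSpace X] {h : X → ℝ}
    (hc : Continuous fun x => Phi (h x)) : Continuous h := by
  rw [continuous_iff_continuousAt]
  intro x
  have hx : Tendsto (fun x => Phi (h x)) (𝓝 x) (𝓝 (Phi (h x))) := hc.continuousAt
  rw [tendsto_order] at hx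
  refine tendsto_order.2 ⟨fun a ha => ?_, fun a ha => ?_⟩
  · filter_upwards [hx.1 (Phi a) (pi_Phi_strictMono ha)] with y hy
    exact pi_Phi_strictMono.lt_iff_lt.mp hy
  · filter_upwards [hx.2 (Phi a) (pi_Phi_strictMono ha)] with y hy
    exact pi_Phi_strictMono.lt_iff_lt.mp hy

lemma pi_continuous_cons (n : ℕ) :
    Continuous fun p : ℝ × (Fin n → ℝ) => (Fin.cons p.1 p.2 : Fin (n + 1) → ℝ) := by
  refine continuous_pi fun i => ?_
  refine Fin.cases ?_ (fun j => ?_) i
  · simpa using continuous_fst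
  · have h : Continuous fun p : ℝ × (Fin n → ℝ) => p.2 j :=
      (continuous_apply j).comp continuous_snd
    simpa using h

lemma pi_fubini (n : ℕ) {F : (Fin (n + 1) → ℝ) → ℝ} (hF : Continuous F) (hb : ∀ x, |F x| ≤ 1) :
    ∫ x, F x ∂(Measure.pi fun _ : Fin (n + 1) => gaussianReal 0 1) =
      ∫ x' : Fin n → ℝ, ∫ t, F (Fin.cons t x') ∂(gaussianReal 0 1)
        ∂(Measure.pi fun _ : Fin n => gaussianReal 0 1) := by
  have hmp := measurePreserving_piFinSuccAbove (fun _ : Fin (n + 1) => gaussianReal 0 1) 0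
  have hsymm : ∀ p : ℝ × (Fin n → ℝ),
      (MeasurableEquiv.piFinSuccAbove (fun _ : Fin (n + 1) => ℝ) 0).symm p =
        Fin.cons p.1 p.2 := by
    intro p
    exact Fin.insertNth_zero' p.1 p.2
  have h1 := hmp.symm.integral_comp (MeasurableEquiv.measurableEmbedding _) F
  rw [← h1]
  simp only [hsymm]
  have hint : Integrable (fun p : ℝ × (Fin n → ℝ) => F (Fin.cons p.1 p.2))
      ((gaussianReal 0 1).prod (Measure.pi fun _ : Fin n => gaussianReal 0 1)) := by
    refine Integrable.of_bound (hF.comp (pi_continuous_cons n)).aestronglyMeasurable 1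
      (Filter.Eventually.of_forall fun p => hb _)
  exact integral_prod_symm _ hint

lemma pi_int_bounds {B : ℝ} {G : ℝ → ℝ} (hG : Continuous G) (hb : ∀ x, |G x| ≤ B) :
    Phi (-B) ≤ ∫ t, Phi (G t) ∂(gaussianReal 0 1) ∧ ∫ t, Phi (G t) ∂(gaussianReal 0 1) ≤ Phi B := by
  have hint : Integrable (fun t => Phi (G t)) (gaussianReal 0 1) :=
    Integrable.of_bound (pi_Phi_continuous.comp hG).aestronglyMeasurable 1
      (Filter.Eventually.of_forall fun p => by
        rw [Real.norm_of_nonneg (pi_Phi_nonneg _)]; exact pi_Phi_le_one _)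
  constructor
  · calc Phi (-B) = ∫ _, Phi (-B) ∂(gaussianReal 0 1) := by simp
      _ ≤ _ := integral_mono (integrable_const _) hint fun t =>
        pi_Phi_strictMono.monotone (abs_le.mp (hb t)).1
  · calc _ ≤ ∫ _, Phi B ∂(gaussianReal 0 1) := integral_mono hint (integrable_const _) fun t =>
        pi_Phi_strictMono.monotone (abs_le.mp (hb t)).2
      _ = Phi B := by simp

lemma pi_cont_int {n : ℕ} {H : (Fin (n + 1) → ℝ) → ℝ} (hH : Continuous H) :
    Continuous fun x' : Fin n → ℝ => ∫ t, Phi (H (Fin.cons t x')) ∂(gaussianReal 0 1) := by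
  refine continuous_of_dominated (bound := fun _ => 1) (fun x' => ?_) (fun x' => ?_)
    (integrable_const _) ?_
  · have : Continuous fun t : ℝ => Phi (H (Fin.cons t x')) :=
      pi_Phi_continuous.comp (hH.comp ((pi_continuous_cons n).comp
        (continuous_id.prodMk continuous_const)))
    exact this.aestronglyMeasurable
  · refine Filter.Eventually.of_forall fun t => ?_
    rw [Real.norm_of_nonneg (pi_Phi_nonneg _)]
    exact pi_Phi_le_one _
  · refine Filter.Eventually.of_forall fun t => ?_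
    exact pi_Phi_continuous.comp (hH.comp ((pi_continuous_cons n).comp
        (continuous_const.prodMk continuous_id)))

theorem ehrhard_pi (n : ℕ) (B : ℝ) (H0 H1 Hm : (Fin n → ℝ) → ℝ) (c0 : Continuous H0)
    (c1 : Continuous H1) (cm : Continuous Hm) (b0 : ∀ x, |H0 x| ≤ B) (b1 : ∀ x, |H1 x| ≤ B)
    (bm : ∀ x, |Hm x| ≤ B) (hmid : ∀ x y, (H0 x + H1 y) / 2 ≤ Hm ((1 / 2 : ℝ) • (x + y)))
    (a0 a1 : ℝ)
    (ha0 : ∫ x, Phi (H0 x) ∂(Measure.pi fun _ : Fin n => gaussianReal 0 1) = Phi a0)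
    (ha1 : ∫ x, Phi (H1 x) ∂(Measure.pi fun _ : Fin n => gaussianReal 0 1) = Phi a1) :
    Phi ((a0 + a1) / 2) ≤ ∫ x, Phi (Hm x) ∂(Measure.pi fun _ : Fin n => gaussianReal 0 1) := by
  induction n generalizing a0 a1 with
  | zero =>
    rw [Measure.pi_of_empty, integral_dirac] at ha0 ha1 ⊢
    have e0 := pi_Phi_strictMono.injective ha0
    have e1 := pi_Phi_strictMono.injective ha1
    rw [← e0, ← e1]
    apply pi_Phi_strictMono.monotone
    refine (hmid _ _).trans (le_of_eq ?_)
    congr 1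
    exact Subsingleton.elim _ _
  | succ n ih =>
    have hB : 0 ≤ B := (abs_nonneg _).trans (b0 0)
    have hcons : ∀ (H : (Fin (n + 1) → ℝ) → ℝ), Continuous H → ∀ x' : Fin n → ℝ,
        Continuous fun t : ℝ => H (Fin.cons t x') := fun H hH x' =>
      hH.comp ((pi_continuous_cons n).comp (continuous_id.prodMk continuous_const))
    have key : ∀ (H : (Fin (n + 1) → ℝ) → ℝ), Continuous H → (∀ x, |H x| ≤ B) →
        ∃ h : (Fin n → ℝ) → ℝ, Continuous h ∧ (∀ x', |h x'| ≤ B) ∧
          ∀ x', Phi (h x') = ∫ t, Phi (H (Fin.cons t x')) ∂(gaussianReal 0 1) := by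
      intro H hH hb
      have hex : ∀ x' : Fin n → ℝ, ∃ a, |a| ≤ B ∧
          Phi a = ∫ t, Phi (H (Fin.cons t x')) ∂(gaussianReal 0 1) := by
        intro x'
        have hbd := pi_int_bounds (hcons H hH x') (fun t => hb _)
        exact pi_exists_Phi hB hbd.1 hbd.2
      choose h hh1 hh2 using hex
      refine ⟨h, ?_, hh1, hh2⟩
      apply pi_cont_of
      have : (fun x' => Phi (h x')) =
          fun x' => ∫ t, Phi (H (Fin.cons t x')) ∂(gaussianReal 0 1) := funext hh2
      rw [this]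
      exact pi_cont_int hH
    obtain ⟨h0, hc0, hb0, he0⟩ := key H0 c0 b0
    obtain ⟨h1, hc1, hb1, he1⟩ := key H1 c1 b1
    obtain ⟨hm, hcm, hbm, hem⟩ := key Hm cm bm
    have hfub : ∀ (H : (Fin (n + 1) → ℝ) → ℝ), Continuous H → ∀ h : (Fin n → ℝ) → ℝ,
        (∀ x', Phi (h x') = ∫ t, Phi (H (Fin.cons t x')) ∂(gaussianReal 0 1)) →
        ∫ x, Phi (H x) ∂(Measure.pi fun _ : Fin (n + 1) => gaussianReal 0 1) =
          ∫ x', Phi (h x') ∂(Measure.pi fun _ : Fin n => gaussianReal 0 1) := by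
      intro H hH h he
      have h3 := pi_fubini n (F := fun x => Phi (H x)) (pi_Phi_continuous.comp hH) (fun x => by
        rw [abs_of_nonneg (pi_Phi_nonneg _)]; exact pi_Phi_le_one _)
      rw [h3]
      simp only [he]
    rw [hfub H0 c0 h0 he0] at ha0
    rw [hfub H1 c1 h1 he1] at ha1
    rw [hfub Hm cm hm hem]
    refine ih h0 h1 hm hc0 hc1 hcm hb0 hb1 hbm (fun x' y' => ?_) a0 a1 ha0 ha1
    have h := ehrhard_one B (fun t => H0 (Fin.cons t x')) (fun t => H1 (Fin.cons t y'))
      (fun t => Hm (Fin.cons t ((1 / 2 : ℝ) • (x' + y')))) (hcons H0 c0 x') (hcons H1 c1 y')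
      (hcons Hm cm _) (fun _ => b0 _) (fun _ => b1 _) (fun _ => bm _) (fun s t => by
        refine (hmid _ _).trans (le_of_eq ?_)
        congr 1
        funext i
        refine Fin.cases ?_ (fun j => ?_) i
        · simp; ring
        · simp; ring) (h0 x') (h1 y') (he0 x').symm (he1 y').symm
    rw [← hem] at h
    exact pi_Phi_strictMono.le_iff_le.mp h

end Vale.Agent.P226
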