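import Vale.Agent.P226.Full.Defs

/-! Inverse of the standard normal distribution function. -/

namespace Vale.Agent.P226

open MeasureTheory ProbabilityTheory Real Set Filter Topology

lemma gphi_neg (t : ℝ) : gphi (-t) = gphi t := by
  unfold gphi; simp

lemma hasDerivAt_Phi (t : ℝ) : HasDerivAt Phi (gphi t) t := by
  have h := (hasDerivAt_gQ (-t)).comp t (hasDerivAt_neg t)
  refine (h.congr_deriv ?_)
  rw [gphi_neg]; ring

lemma continuous_Phi : Continuous Phi :=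
  continuous_iff_continuousAt.2 fun t => (hasDerivAt_Phi t).continuousAt

lemma deriv_Phi (t : ℝ) : deriv Phi t = gphi t := (hasDerivAt_Phi t).deriv

lemma strictMono_Phi : StrictMono Phi := by
  apply strictMono_of_deriv_pos
  intro t
  rw [deriv_Phi]
  exact gphi_pos t

lemma gQ_neg (t : ℝ) : gQ (-t) = 1 - gQ t := by
  rw [gQ_eq, gQ_eq t]
  have h : ∫ x in (0:ℝ)..(-t), gphi x = -∫ x in (0:ℝ)..t, gphi x := by
    have h1 := intervalIntegral.integral_comp_neg (a := 0) (b := t) gphi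
    simp only [gphi_neg, neg_zero] at h1
    rw [h1, intervalIntegral.integral_symm]
  rw [h]; ring

lemma Phi_neg (t : ℝ) : Phi (-t) = 1 - Phi t := by
  unfold Phi
  rw [gQ_neg (-t)]

lemma gQ_le_gphi (t : ℝ) (ht : 1 ≤ t) : gQ t ≤ gphi t := by
  rw [← integral_Ioi_mul_gphi t]
  unfold gQ
  apply setIntegral_mono_on integrable_gphi.integrableOn integrable_mul_gphi.integrableOn
    measurableSet_Ioi
  intro x hx
  have hx' : t < x := hx
  nlinarith [gphi_pos x]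

lemma tendsto_gQ_zero_atTop : Tendsto gQ atTop (𝓝 0) := by
  refine tendsto_of_tendsto_of_tendsto_of_le_of_le' tendsto_const_nhds tendsto_gphi_atTop
    (Eventually.of_forall gQ_nonneg) ?_
  filter_upwards [eventually_ge_atTop (1:ℝ)] with t ht using gQ_le_gphi t ht

lemma tendsto_Phi_atBot : Tendsto Phi atBot (𝓝 0) :=
  tendsto_gQ_zero_atTop.comp tendsto_neg_atBot_atTop

lemma tendsto_Phi_atTop : Tendsto Phi atTop (𝓝 1) := by
  have h : Tendsto (fun t : ℝ => 1 - Phi (-t)) atTop (𝓝 (1 - 0)) :=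
    tendsto_const_nhds.sub (tendsto_Phi_atBot.comp tendsto_neg_atTop_atBot)
  rw [sub_zero] at h
  refine h.congr fun t => ?_
  rw [Phi_neg]; ring

lemma Phi_pos (t : ℝ) : 0 < Phi t := by
  have h1 : (0:ℝ) ≤ Phi (t - 1) := gQ_nonneg _
  exact h1.trans_lt (strictMono_Phi (by linarith))

lemma Phi_lt_one (t : ℝ) : Phi t < 1 := by
  have := Phi_pos (-t)
  rw [Phi_neg] at this
  linarith

lemma Phi_mem_Ioo (t : ℝ) : Phi t ∈ Ioo (0:ℝ) 1 := ⟨Phi_pos t, Phi_lt_one t⟩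

lemma exists_Phi_eq (p : ℝ) (hp : p ∈ Ioo (0:ℝ) 1) : ∃ t, Phi t = p := by
  have h := mem_range_of_exists_le_of_exists_ge continuous_Phi (c := p) ?_ ?_
  · exact h
  · obtain ⟨a, ha⟩ := ((tendsto_order.1 tendsto_Phi_atBot).2 p hp.1).exists
    exact ⟨a, ha.le⟩
  · obtain ⟨a, ha⟩ := ((tendsto_order.1 tendsto_Phi_atTop).1 p hp.2).exists
    exact ⟨a, ha.le⟩

/-- The inverse of `Φ` (junk outside `(0,1)`). -/
noncomputable def PhiInv (p : ℝ) : ℝ := Function.invFun Phi p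

lemma Phi_PhiInv (p : ℝ) (hp : p ∈ Ioo (0:ℝ) 1) : Phi (PhiInv p) = p :=
  Function.invFun_eq (exists_Phi_eq p hp)

lemma PhiInv_Phi (t : ℝ) : PhiInv (Phi t) = t :=
  Function.leftInverse_invFun strictMono_Phi.injective t

lemma lt_PhiInv_iff (a p : ℝ) (hp : p ∈ Ioo (0:ℝ) 1) : a < PhiInv p ↔ Phi a < p := by
  rw [← strictMono_Phi.lt_iff_lt, Phi_PhiInv p hp]

lemma PhiInv_lt_iff (a p : ℝ) (hp : p ∈ Ioo (0:ℝ) 1) : PhiInv p < a ↔ p < Phi a := by
  rw [← strictMono_Phi.lt_iff_lt, Phi_PhiInv p hp]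

lemma le_PhiInv_iff (a p : ℝ) (hp : p ∈ Ioo (0:ℝ) 1) : a ≤ PhiInv p ↔ Phi a ≤ p := by
  rw [← strictMono_Phi.le_iff_le, Phi_PhiInv p hp]

lemma PhiInv_le_iff (a p : ℝ) (hp : p ∈ Ioo (0:ℝ) 1) : PhiInv p ≤ a ↔ p ≤ Phi a := by
  rw [← strictMono_Phi.le_iff_le, Phi_PhiInv p hp]

lemma PhiInv_le_PhiInv (p q : ℝ) (hp : p ∈ Ioo (0:ℝ) 1) (hq : q ∈ Ioo (0:ℝ) 1) (h : p ≤ q) :
    PhiInv p ≤ PhiInv q := by
  rw [PhiInv_le_iff _ _ hp, Phi_PhiInv q hq]; exact h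

lemma continuousAt_PhiInv (p : ℝ) (hp : p ∈ Ioo (0:ℝ) 1) : ContinuousAt PhiInv p := by
  have hev : ∀ᶠ q in 𝓝 p, q ∈ Ioo (0:ℝ) 1 := Ioo_mem_nhds hp.1 hp.2
  refine tendsto_order.2 ⟨fun a ha => ?_, fun a ha => ?_⟩
  · rw [lt_PhiInv_iff a p hp] at ha
    filter_upwards [hev, lt_mem_nhds ha] with q hq hq2
    exact (lt_PhiInv_iff a q hq).2 hq2
  · rw [gt_iff_lt, PhiInv_lt_iff a p hp] at ha
    filter_upwards [hev, gt_mem_nhds ha] with q hq hq2
    exact (PhiInv_lt_iff a q hq).2 hq2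

lemma continuousOn_PhiInv : ContinuousOn PhiInv (Ioo 0 1) := fun p hp =>
  (continuousAt_PhiInv p hp).continuousWithinAt

lemma hasDerivAt_PhiInv (p : ℝ) (hp : p ∈ Ioo (0:ℝ) 1) :
    HasDerivAt PhiInv (gphi (PhiInv p))⁻¹ p := by
  refine HasDerivAt.of_local_left_inverse (f := Phi) (continuousAt_PhiInv p hp)
    (hasDerivAt_Phi _) (gphi_pos _).ne' ?_
  filter_upwards [Ioo_mem_nhds hp.1 hp.2] with q hq
  exact Phi_PhiInv q hq

end Vale.Agent.P226
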