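import Vale.Agent.P226.Full.EhrPi
import Vale.Agent.P226.Full.PhiInv

/-! Task P226-E3: Ehrhard's inequality (midpoint form) for closed sets. -/

namespace Vale.Agent.P226

open MeasureTheory ProbabilityTheory Real Set Filter Topology

lemma set_integral_std {d : ℕ} {F : E d → ℝ} (hF : Continuous F) :
    ∫ x, F x ∂(stdGaussian (E d)) =
      ∫ y : Fin d → ℝ, F (WithLp.toLp 2 y) ∂(Measure.pi fun _ => gaussianReal 0 1) := by
  rw [← map_pi_eq_stdGaussian, integral_map]
  · exact (by fun_prop : Measurable (WithLp.toLp 2 : (Fin d → ℝ) → E d)).aemeasurable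
  · exact hF.aestronglyMeasurable

/-- the functional form in Euclidean space -/
lemma set_ehrhard_fun {d : ℕ} (B : ℝ) (H0 H1 Hm : E d → ℝ) (c0 : Continuous H0)
    (c1 : Continuous H1) (cm : Continuous Hm) (b0 : ∀ x, |H0 x| ≤ B) (b1 : ∀ x, |H1 x| ≤ B)
    (bm : ∀ x, |Hm x| ≤ B) (hmid : ∀ x y, (H0 x + H1 y) / 2 ≤ Hm ((1 / 2 : ℝ) • (x + y)))
    (a0 a1 : ℝ) (ha0 : ∫ x, Phi (H0 x) ∂(stdGaussian (E d)) = Phi a0)
    (ha1 : ∫ x, Phi (H1 x) ∂(stdGaussian (E d)) = Phi a1) :
    Phi ((a0 + a1) / 2) ≤ ∫ x, Phi (Hm x) ∂(stdGaussian (E d)) := by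
  have hL : Continuous (WithLp.toLp 2 : (Fin d → ℝ) → E d) := by fun_prop
  rw [set_integral_std (F := fun x => Phi (H0 x)) (pi_Phi_continuous.comp c0)] at ha0
  rw [set_integral_std (F := fun x => Phi (H1 x)) (pi_Phi_continuous.comp c1)] at ha1
  rw [set_integral_std (F := fun x => Phi (Hm x)) (pi_Phi_continuous.comp cm)]
  refine ehrhard_pi d B (fun y => H0 (WithLp.toLp 2 y)) (fun y => H1 (WithLp.toLp 2 y))
    (fun y => Hm (WithLp.toLp 2 y)) (c0.comp hL) (c1.comp hL) (cm.comp hL) (fun _ => b0 _)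
    (fun _ => b1 _) (fun _ => bm _) (fun x y => ?_) a0 a1 ha0 ha1
  exact hmid _ _

lemma set_infDist_mid {d : ℕ} {A0 A1 Am : Set (E d)} (hA0 : IsClosed A0) (hA1 : IsClosed A1)
    (n0 : A0.Nonempty) (n1 : A1.Nonempty)
    (hmid : ∀ x ∈ A0, ∀ y ∈ A1, (1 / 2 : ℝ) • (x + y) ∈ Am) (x y : E d) :
    Metric.infDist ((1 / 2 : ℝ) • (x + y)) Am ≤ (Metric.infDist x A0 + Metric.infDist y A1) / 2 := by
  obtain ⟨a, ha, hxa⟩ := hA0.exists_infDist_eq_dist n0 x
  obtain ⟨b, hb, hyb⟩ := hA1.exists_infDist_eq_dist n1 y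
  refine (Metric.infDist_le_dist_of_mem (hmid a ha b hb)).trans ?_
  rw [hxa, hyb, dist_eq_norm, dist_eq_norm, dist_eq_norm]
  have e : (1 / 2 : ℝ) • (x + y) - (1 / 2 : ℝ) • (a + b) = (1 / 2 : ℝ) • ((x - a) + (y - b)) := by
    module
  rw [e, norm_smul, Real.norm_of_nonneg (by norm_num : (0:ℝ) ≤ 1 / 2)]
  have := norm_add_le (x - a) (y - b)
  linarith

/-- the approximating function -/
noncomputable def apx {d : ℕ} (A : Set (E d)) (R K M : ℝ) (x : E d) : ℝ :=
  max R (K - M * Metric.infDist x A)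

lemma apx_cont {d : ℕ} (A : Set (E d)) (R K M : ℝ) : Continuous (apx A R K M) := by
  unfold apx
  exact continuous_const.max (continuous_const.sub (continuous_const.mul
    (Metric.continuous_infDist_pt A)))

lemma apx_ge {d : ℕ} (A : Set (E d)) (R K M : ℝ) (x : E d) : R ≤ apx A R K M x := le_max_left _ _

lemma apx_le {d : ℕ} (A : Set (E d)) {R K M : ℝ} (hRK : R ≤ K) (hM : 0 ≤ M) (x : E d) :
    apx A R K M x ≤ K := by
  apply max_le hRK
  have := mul_nonneg hM (Metric.infDist_nonneg (x := x) (s := A))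
  linarith

lemma apx_mem {d : ℕ} {A : Set (E d)} {R K M : ℝ} (hRK : R ≤ K) {x : E d} (hx : x ∈ A) :
    apx A R K M x = K := by
  unfold apx
  rw [Metric.infDist_zero_of_mem hx, mul_zero, sub_zero, max_eq_right hRK]

lemma apx_lower {d : ℕ} {A : Set (E d)} (hA : IsClosed A) {R K M : ℝ} (hRK : R ≤ K) (hM : 0 ≤ M) :
    Phi K * (stdGaussian (E d)).real A ≤ ∫ x, Phi (apx A R K M x) ∂(stdGaussian (E d)) := by
  have hint : Integrable (fun x => Phi (apx A R K M x)) (stdGaussian (E d)) :=
    Integrable.of_bound (pi_Phi_continuous.comp (apx_cont A R K M)).aestronglyMeasurable 1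
      (Filter.Eventually.of_forall fun p => by
        rw [Real.norm_of_nonneg (pi_Phi_nonneg _)]; exact pi_Phi_le_one _)
  have h1 : ∫ x in A, Phi (apx A R K M x) ∂(stdGaussian (E d)) =
      Phi K * (stdGaussian (E d)).real A := by
    have he : EqOn (fun x => Phi (apx A R K M x)) (fun _ => Phi K) A := by
      intro x hx
      change Phi (apx A R K M x) = Phi K
      rw [apx_mem hRK hx]
    rw [setIntegral_congr_fun hA.measurableSet he, setIntegral_const, smul_eq_mul, mul_comm]
  rw [← h1]
  exact setIntegral_le_integral hint (Filter.Eventually.of_forall fun x => pi_Phi_nonneg _)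

/-- limit of the approximation for the midpoint set -/
lemma apx_tendsto {d : ℕ} {A : Set (E d)} (hA : IsClosed A) (hne : A.Nonempty) {R K : ℝ}
    (hRK : R ≤ K) :
    Tendsto (fun n : ℕ => ∫ x, Phi (apx A R K n x) ∂(stdGaussian (E d))) atTop
      (𝓝 (∫ x, (A.indicator (fun _ => Phi K) x + Aᶜ.indicator (fun _ => Phi R) x)
        ∂(stdGaussian (E d)))) := by
  refine tendsto_integral_of_dominated_convergence (fun _ => (1:ℝ)) (fun n => ?_)
    (integrable_const _) (fun n => ?_) ?_
  · exact (pi_Phi_continuous.comp (apx_cont A R K n)).aestronglyMeasurable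
  · refine Filter.Eventually.of_forall fun x => ?_
    rw [Real.norm_of_nonneg (pi_Phi_nonneg _)]
    exact pi_Phi_le_one _
  · refine Filter.Eventually.of_forall fun x => ?_
    by_cases hx : x ∈ A
    · have : (fun n : ℕ => Phi (apx A R K n x)) = fun _ => Phi K := by
        funext n; rw [apx_mem hRK hx]
      rw [this, indicator_of_mem hx, indicator_of_notMem (by simpa using hx), add_zero]
      exact tendsto_const_nhds
    · rw [indicator_of_notMem hx, indicator_of_mem (by simpa using hx), zero_add]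
      have hpos : 0 < Metric.infDist x A := (hA.notMem_iff_infDist_pos hne).mp hx
      apply tendsto_const_nhds.congr'
      obtain ⟨N, hN⟩ := exists_nat_ge ((K - R) / Metric.infDist x A)
      filter_upwards [eventually_ge_atTop N] with n hn
      have hn' : (K - R) / Metric.infDist x A ≤ n := hN.trans (by exact_mod_cast hn)
      rw [div_le_iff₀ hpos] at hn'
      unfold apx
      rw [max_eq_left (by linarith)]

lemma apx_limit_le {d : ℕ} {A : Set (E d)} (hA : IsClosed A) (R K : ℝ) :
    ∫ x, (A.indicator (fun _ => Phi K) x + Aᶜ.indicator (fun _ => Phi R) x)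
        ∂(stdGaussian (E d)) ≤ (stdGaussian (E d)).real A + Phi R := by
  rw [integral_add, integral_indicator hA.measurableSet,
    integral_indicator hA.measurableSet.compl, setIntegral_const, setIntegral_const,
    smul_eq_mul, smul_eq_mul]
  · have h1 : (stdGaussian (E d)).real A * Phi K ≤ (stdGaussian (E d)).real A :=
      mul_le_of_le_one_right measureReal_nonneg (pi_Phi_le_one _)
    have h2 : (stdGaussian (E d)).real Aᶜ * Phi R ≤ Phi R :=
      mul_le_of_le_one_left (pi_Phi_nonneg _) measureReal_le_one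
    linarith
  · exact (integrable_const _).indicator hA.measurableSet
  · exact (integrable_const _).indicator hA.measurableSet.compl

theorem ehrhard_set {d : ℕ} (A0 A1 Am : Set (E d)) (hA0 : IsClosed A0) (hA1 : IsClosed A1)
    (hAm : IsClosed Am) (hmid : ∀ x ∈ A0, ∀ y ∈ A1, (1 / 2 : ℝ) • (x + y) ∈ Am) (a0 a1 : ℝ)
    (h0 : (stdGaussian (E d)).real A0 = Phi a0) (h1 : (stdGaussian (E d)).real A1 = Phi a1) :
    Phi ((a0 + a1) / 2) ≤ (stdGaussian (E d)).real Am := by
  have hne : ∀ (A : Set (E d)) (a : ℝ), (stdGaussian (E d)).real A = Phi a → A.Nonempty := by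
    intro A a h
    by_contra hA
    rw [Set.not_nonempty_iff_eq_empty] at hA
    rw [hA] at h
    have := Phi_pos a
    simp at h
    linarith
  have n0 := hne A0 a0 h0
  have n1 := hne A1 a1 h1
  have nm : Am.Nonempty := by
    obtain ⟨x, hx⟩ := n0
    obtain ⟨y, hy⟩ := n1
    exact ⟨_, hmid x hx y hy⟩
  -- the inequality with parameters
  have key : ∀ K R : ℝ, 0 ≤ K → 0 ≤ R →
      Phi ((PhiInv (Phi K * Phi a0) + PhiInv (Phi K * Phi a1)) / 2) ≤
        (stdGaussian (E d)).real Am + Phi ((K - R) / 2) := by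
    intro K R hK hR
    have hmem : ∀ a, Phi K * Phi a ∈ Ioo (0:ℝ) 1 := fun a =>
      ⟨mul_pos (Phi_pos _) (Phi_pos _), by
        have := mul_lt_mul'' (Phi_lt_one K) (Phi_lt_one a) (Phi_pos K).le (Phi_pos a).le
        simpa using this⟩
    have hRK : -R ≤ K := by linarith
    have hRK2 : (K - R) / 2 ≤ K := by linarith
    have hlim := (apx_tendsto hAm nm hRK2).const_mul 1
    simp only [one_mul] at hlim
    refine le_trans ?_ (apx_limit_le hAm ((K - R) / 2) K)
    refine ge_of_tendsto hlim (Filter.Eventually.of_forall fun n => ?_)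
    have hM : (0:ℝ) ≤ n := Nat.cast_nonneg n
    -- levels of the integrals
    have hI : ∀ (A : Set (E d)) (a : ℝ), IsClosed A → (stdGaussian (E d)).real A = Phi a →
        ∃ t, PhiInv (Phi K * Phi a) ≤ t ∧
          ∫ x, Phi (apx A (-R) K n x) ∂(stdGaussian (E d)) = Phi t := by
      intro A a hA h
      have hint : Integrable (fun x => Phi (apx A (-R) K n x)) (stdGaussian (E d)) :=
        Integrable.of_bound (pi_Phi_continuous.comp (apx_cont A (-R) K n)).aestronglyMeasurable 1
          (Filter.Eventually.of_forall fun p => by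
            rw [Real.norm_of_nonneg (pi_Phi_nonneg _)]; exact pi_Phi_le_one _)
      have hup : ∫ x, Phi (apx A (-R) K n x) ∂(stdGaussian (E d)) ≤ Phi K := by
        calc _ ≤ ∫ _, Phi K ∂(stdGaussian (E d)) :=
              integral_mono hint (integrable_const _) fun x =>
                pi_Phi_strictMono.monotone (apx_le A hRK hM x)
          _ = Phi K := by simp
      have hlo : Phi (-R) ≤ ∫ x, Phi (apx A (-R) K n x) ∂(stdGaussian (E d)) := by
        calc Phi (-R) = ∫ _, Phi (-R) ∂(stdGaussian (E d)) := by simp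
          _ ≤ _ := integral_mono (integrable_const _) hint fun x =>
                pi_Phi_strictMono.monotone (apx_ge A (-R) K n x)
      obtain ⟨t, ht⟩ := exists_Phi_eq _
        (show ∫ x, Phi (apx A (-R) K n x) ∂(stdGaussian (E d)) ∈ Ioo (0:ℝ) 1 from
          ⟨(Phi_pos _).trans_le hlo, hup.trans_lt (Phi_lt_one _)⟩)
      refine ⟨t, ?_, ht.symm⟩
      rw [PhiInv_le_iff _ _ (hmem a), ht, ← h]
      exact apx_lower hA hRK hM
    obtain ⟨t0, ht0, e0⟩ := hI A0 a0 hA0 h0
    obtain ⟨t1, ht1, e1⟩ := hI A1 a1 hA1 h1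
    have hB : ∀ (A : Set (E d)) (R' : ℝ), -R ≤ R' → R' ≤ K → ∀ x, |apx A R' K n x| ≤ K + R := by
      intro A R' hR1 hR2 x
      have := apx_ge A R' K n x
      have := apx_le A hR2 hM x
      exact abs_le.mpr ⟨by linarith, by linarith⟩
    have hE := set_ehrhard_fun (K + R) (apx A0 (-R) K n) (apx A1 (-R) K n)
      (apx Am ((K - R) / 2) K n) (apx_cont _ _ _ _) (apx_cont _ _ _ _) (apx_cont _ _ _ _)
      (hB A0 (-R) le_rfl hRK) (hB A1 (-R) le_rfl hRK) (hB Am _ (by linarith) hRK2)
      (fun x y => by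
        have hd := set_infDist_mid hA0 hA1 n0 n1 hmid x y
        have u0 := apx_le A0 hRK hM x
        have u1 := apx_le A1 hRK hM y
        have l1 := apx_ge Am ((K - R) / 2) K n ((1 / 2 : ℝ) • (x + y))
        have l2 : K - n * Metric.infDist ((1 / 2 : ℝ) • (x + y)) Am ≤
          apx Am ((K - R) / 2) K n ((1 / 2 : ℝ) • (x + y)) := le_max_right _ _
        rcases max_choice (-R) (K - n * Metric.infDist x A0) with hc0 | hc0
        · have e : apx A0 (-R) K n x = -R := hc0
          rw [e]; linarith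
        · rcases max_choice (-R) (K - n * Metric.infDist y A1) with hc1 | hc1
          · have e : apx A1 (-R) K n y = -R := hc1
            rw [e]; linarith
          · have e0 : apx A0 (-R) K n x = K - n * Metric.infDist x A0 := hc0
            have e1 : apx A1 (-R) K n y = K - n * Metric.infDist y A1 := hc1
            rw [e0, e1]
            have := mul_le_mul_of_nonneg_left hd hM
            linarith) t0 t1 e0 e1
    exact (pi_Phi_strictMono.monotone (by linarith)).trans hE
  -- `R → ∞`
  have key2 : ∀ K : ℝ, 0 ≤ K →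
      Phi ((PhiInv (Phi K * Phi a0) + PhiInv (Phi K * Phi a1)) / 2) ≤
        (stdGaussian (E d)).real Am := by
    intro K hK
    have ht : Tendsto (fun R : ℝ => (stdGaussian (E d)).real Am + Phi ((K - R) / 2)) atTop
        (𝓝 ((stdGaussian (E d)).real Am + 0)) := by
      refine tendsto_const_nhds.add (tendsto_Phi_atBot.comp ?_)
      refine Tendsto.atBot_div_const two_pos ?_
      exact tendsto_atBot_add_const_left atTop K tendsto_neg_atTop_atBot
    rw [add_zero] at ht
    exact ge_of_tendsto ht ((eventually_ge_atTop 0).mono fun R hR => key K R hK hR)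
  -- `K → ∞`
  have hb : ∀ a, Tendsto (fun K : ℝ => PhiInv (Phi K * Phi a)) atTop (𝓝 a) := by
    intro a
    have h2 : Tendsto (fun K : ℝ => Phi K * Phi a) atTop (𝓝 (1 * Phi a)) :=
      tendsto_Phi_atTop.mul_const _
    rw [one_mul] at h2
    have h3 := (continuousAt_PhiInv (Phi a) (Phi_mem_Ioo a)).tendsto.comp h2
    rw [PhiInv_Phi] at h3
    exact h3
  have hfin : Tendsto (fun K : ℝ => Phi ((PhiInv (Phi K * Phi a0) + PhiInv (Phi K * Phi a1)) / 2))
      atTop (𝓝 (Phi ((a0 + a1) / 2))) :=
    (continuous_Phi.tendsto _).comp (((hb a0).add (hb a1)).div_const 2)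
  exact le_of_tendsto hfin ((eventually_ge_atTop 0).mono fun K hK => key2 K hK)

end Vale.Agent.P226
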