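import Vale.Agent.P226.Full.EhrHeat

/-! Task P226-E1: one-dimensional functional Ehrhard inequality, smooth bounded case. -/

namespace Vale.Agent.P226

open MeasureTheory ProbabilityTheory Real Set Filter Topology

/-- `H` is `C²` with `H, H', H''` bounded by `B`. -/
def C2B (B : ℝ) (H : ℝ → ℝ) : Prop :=
  ContDiff ℝ 2 H ∧ (∀ x, |H x| ≤ B) ∧ (∀ x, |deriv H x| ≤ B) ∧ (∀ x, |deriv (deriv H) x| ≤ B)

/-- The flow started at a bounded `C²` function. -/
theorem exists_flow (B : ℝ) (H : ℝ → ℝ) (hH : C2B B H) :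
    ∃ u1 u2 : ℝ → ℝ → ℝ, Flow B (B / gphi B) (fun s x => PhiInv (heat (fun y => Phi (H y)) s x))
      u1 u2 := by
  obtain ⟨hC, hb0, hb1, hb2⟩ := hH
  have hB : 0 ≤ B := (abs_nonneg _).trans (hb0 0)
  -- derivatives of H
  have hC1 : ContDiff ℝ 1 (deriv H) := by
    have : ContDiff ℝ (1 + 1) H := by norm_num; exact hC
    exact (contDiff_succ_iff_deriv.1 this).2.2
  have hC0 : Continuous (deriv (deriv H)) := hC1.continuous_deriv le_rfl
  have hd0 : ∀ x, HasDerivAt H (deriv H x) x := fun x =>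
    (hC.differentiable (by norm_num) x).hasDerivAt
  have hd1 : ∀ x, HasDerivAt (deriv H) (deriv (deriv H) x) x := fun x =>
    (hC1.differentiable (by norm_num) x).hasDerivAt
  have hcH : Continuous H := hC.continuous
  have hcH1 : Continuous (deriv H) := hC1.continuous
  set F : ℝ → ℝ := fun y => Phi (H y) with hF
  set F1 : ℝ → ℝ := fun y => gphi (H y) * deriv H y with hF1
  set F2 : ℝ → ℝ := fun y => gphi (H y) * (deriv (deriv H) y - H y * (deriv H y) ^ 2) with hF2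
  have dF : ∀ x, HasDerivAt F (F1 x) x := fun x => (hasDerivAt_Phi (H x)).comp x (hd0 x)
  have dF1 : ∀ x, HasDerivAt F1 (F2 x) x := by
    intro x
    have h1 := ((hasDerivAt_gphi (H x)).comp x (hd0 x)).mul (hd1 x)
    refine h1.congr_deriv ?_
    simp only [hF2, Function.comp]
    ring
  have cF : Continuous F := continuous_Phi.comp hcH
  have cF1 : Continuous F1 := (continuous_gphi.comp hcH).mul hcH1
  have cF2 : Continuous F2 :=
    (continuous_gphi.comp hcH).mul (hC0.sub (hcH.mul (hcH1.pow 2)))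
  set K : ℝ := 1 + B + B * B ^ 2 with hK
  have hB3 : 0 ≤ B * B ^ 2 := by positivity
  have bF : ∀ x, |F x| ≤ K := by
    intro x
    rw [abs_of_pos (Phi_pos _)]
    have := Phi_lt_one (H x)
    linarith
  have bF1' : ∀ x, |F1 x| ≤ B := by
    intro x
    simp only [hF1]
    rw [abs_mul, abs_of_pos (gphi_pos _)]
    calc gphi (H x) * |deriv H x| ≤ 1 * B :=
          mul_le_mul (gphi_le_one _) (hb1 x) (abs_nonneg _) (by norm_num)
      _ = B := one_mul B
  have bF1 : ∀ x, |F1 x| ≤ K := fun x => (bF1' x).trans (by linarith)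
  have bF2 : ∀ x, |F2 x| ≤ K := by
    intro x
    simp only [hF2]
    rw [abs_mul, abs_of_pos (gphi_pos _)]
    have h1 : |deriv (deriv H) x - H x * deriv H x ^ 2| ≤ B + B * B ^ 2 := by
      refine (abs_sub _ _).trans (add_le_add (hb2 x) ?_)
      rw [abs_mul, abs_pow]
      exact mul_le_mul (hb0 x) (pow_le_pow_left₀ (abs_nonneg _) (hb1 x) 2) (by positivity) hB
    calc gphi (H x) * |deriv (deriv H) x - H x * deriv H x ^ 2| ≤ 1 * (B + B * B ^ 2) :=
          mul_le_mul (gphi_le_one _) h1 (abs_nonneg _) (by norm_num)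
      _ ≤ K := by linarith
  have hPmem : ∀ s x, Phi (-B) ≤ heat F s x ∧ heat F s x ≤ Phi B := by
    intro s x
    apply heat_mem F _ _ cF
    intro y
    have := abs_le.1 (hb0 y)
    exact ⟨strictMono_Phi.monotone this.1, strictMono_Phi.monotone this.2⟩
  have hP01 : ∀ s x, heat F s x ∈ Ioo (0:ℝ) 1 := fun s x =>
    ⟨(Phi_pos _).trans_le (hPmem s x).1, (hPmem s x).2.trans_lt (Phi_lt_one _)⟩
  set u : ℝ → ℝ → ℝ := fun s x => PhiInv (heat F s x) with hu
  set u1 : ℝ → ℝ → ℝ := fun s x => (gphi (u s x))⁻¹ * heat F1 s x with hu1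
  set u2 : ℝ → ℝ → ℝ := fun s x => (gphi (u s x))⁻¹ * heat F2 s x + u s x * (u1 s x) ^ 2 with hu2
  have ub : ∀ s x, |u s x| ≤ B := by
    intro s x
    rw [abs_le]
    exact ⟨(le_PhiInv_iff _ _ (hP01 s x)).2 (hPmem s x).1,
      (PhiInv_le_iff _ _ (hP01 s x)).2 (hPmem s x).2⟩
  have dux : ∀ s x, HasDerivAt (u s) (u1 s x) x := fun s x =>
    (hasDerivAt_PhiInv _ (hP01 s x)).comp x (heat_dx F F1 K dF bF bF1 cF1 s x)
  refine ⟨u1, u2, ?_, dux, ?_, ?_, ub, ?_⟩
  · rw [continuous_iff_continuousAt]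
    intro p
    exact ContinuousAt.comp (g := PhiInv) (f := fun p : ℝ × ℝ => heat F p.1 p.2)
      (continuousAt_PhiInv _ (hP01 p.1 p.2)) (heat_continuous F K cF bF).continuousAt
  · intro s x
    have h1 := ((hasDerivAt_gphi (u s x)).comp x (dux s x)).inv (gphi_pos _).ne'
    have h2 := h1.mul (heat_dx F1 F2 K dF1 bF1 bF2 cF2 s x)
    refine h2.congr_deriv ?_
    simp only [Function.comp, hu2, hu1, Pi.inv_apply]
    have := (gphi_pos (u s x)).ne'
    field_simp
    ring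
  · intro s x
    have h1 := (hasDerivAt_PhiInv _ (hP01 s x)).comp s
      (heat_ds F F1 F2 K dF dF1 bF bF1 bF2 cF2 s x)
    refine h1.congr_deriv ?_
    simp only [hu2, hu]
    ring
  · intro s x
    simp only [hu1]
    rw [abs_mul, abs_of_pos (inv_pos.2 (gphi_pos _)), div_eq_inv_mul]
    apply mul_le_mul _ (heat_abs_le F1 B bF1' s x) (abs_nonneg _) (inv_pos.2 (gphi_pos _)).le
    exact inv_anti₀ (gphi_pos _) (gphi_le_of_abs_le _ _ (ub s x))

theorem ehrhard_smooth (B : ℝ) (H0 H1 Hm : ℝ → ℝ) (h0 : C2B B H0) (h1 : C2B B H1)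
    (hm : C2B B Hm) (hmid : ∀ x y, (H0 x + H1 y) / 2 ≤ Hm ((x + y) / 2)) (a0 a1 : ℝ)
    (ha0 : ∫ x, Phi (H0 x) ∂(gaussianReal 0 1) = Phi a0)
    (ha1 : ∫ x, Phi (H1 x) ∂(gaussianReal 0 1) = Phi a1) :
    Phi ((a0 + a1) / 2) ≤ ∫ x, Phi (Hm x) ∂(gaussianReal 0 1) := by
  obtain ⟨_, _, f0⟩ := exists_flow B H0 h0
  obtain ⟨_, _, f1⟩ := exists_flow B H1 h1
  obtain ⟨_, _, fm⟩ := exists_flow B Hm hm
  have key := flow_compare B _ _ _ _ _ _ _ _ _ _ f0 f1 fm (by
    intro x y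
    simp only [heat_zero, PhiInv_Phi]
    exact hmid x y) 1 0 0 (by norm_num) le_rfl
  have e : ∀ H : ℝ → ℝ, heat (fun y => Phi (H y)) 1 0 = ∫ x, Phi (H x) ∂(gaussianReal 0 1) := by
    intro H
    simp [heat]
  simp only [add_zero, zero_div, e, ha0, ha1, PhiInv_Phi] at key
  have hmem : (∫ x, Phi (Hm x) ∂(gaussianReal 0 1)) ∈ Ioo (0:ℝ) 1 := by
    rw [← e Hm]
    have h := heat_mem (fun y => Phi (Hm y)) (Phi (-B)) (Phi B)
      (continuous_Phi.comp hm.1.continuous)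
      (fun y => by
        have := abs_le.1 (hm.2.1 y)
        exact ⟨strictMono_Phi.monotone this.1, strictMono_Phi.monotone this.2⟩) 1 0
    exact ⟨(Phi_pos _).trans_le h.1, h.2.trans_lt (Phi_lt_one _)⟩
  exact (le_PhiInv_iff _ _ hmem).1 key

end Vale.Agent.P226
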