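import Vale.Agent.P226.Full.Defs
import Vale.Agent.P226.Uniform

/-! Task P226-S1: basic properties of `emax` and of the argmax cells. -/

namespace Vale.Agent.P226

open MeasureTheory ProbabilityTheory Real Set Filter Topology

variable {ι : Type} {d : ℕ}

lemma iSup_sub_iSup_le_sum [Fintype ι] (a b : ι → ℝ) :
    (⨆ i, a i) - (⨆ i, b i) ≤ ∑ i, |a i - b i| := by
  rcases isEmpty_or_nonempty ι with h | h
  · simp [Real.iSup_of_isEmpty]
  · rw [sub_le_iff_le_add]
    refine ciSup_le fun i => ?_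
    have h1 : b i ≤ ⨆ j, b j := le_ciSup (Finite.bddAbove_range b) i
    have h2 : |a i - b i| ≤ ∑ j, |a j - b j| :=
      Finset.single_le_sum (f := fun j => |a j - b j|) (fun j _ => abs_nonneg _)
        (Finset.mem_univ i)
    have h3 := le_abs_self (a i - b i)
    linarith

lemma abs_iSup_sub_iSup_le_sum [Fintype ι] (a b : ι → ℝ) :
    |(⨆ i, a i) - (⨆ i, b i)| ≤ ∑ i, |a i - b i| := by
  rw [abs_sub_le_iff]
  refine ⟨iSup_sub_iSup_le_sum a b, ?_⟩
  refine (iSup_sub_iSup_le_sum b a).trans (le_of_eq ?_)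
  exact Finset.sum_congr rfl fun i _ => abs_sub_comm _ _

lemma continuous_iSup_inner [Finite ι] (v : ι → E d) :
    Continuous (fun x : E d => ⨆ i, (inner ℝ x (v i) : ℝ)) := by
  cases nonempty_fintype ι
  refine continuous_iff_continuousAt.2 fun x => ?_
  have h1 : Tendsto (fun y : E d => ∑ i, |(inner ℝ y (v i) : ℝ) - inner ℝ x (v i)|) (𝓝 x)
      (𝓝 (∑ i, |(inner ℝ x (v i) : ℝ) - inner ℝ x (v i)|)) := by
    have : Continuous (fun y : E d => ∑ i, |(inner ℝ y (v i) : ℝ) - inner ℝ x (v i)|) := by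
      fun_prop
    exact this.tendsto x
  have h0 : ∑ i : ι, |(inner ℝ x (v i) : ℝ) - inner ℝ x (v i)| = 0 := by simp
  rw [h0] at h1
  rw [ContinuousAt, tendsto_iff_dist_tendsto_zero]
  refine squeeze_zero (fun y => dist_nonneg) (fun y => ?_) h1
  rw [Real.dist_eq]
  exact abs_iSup_sub_iSup_le_sum _ _

lemma integrable_inner_right (w : E d) :
    Integrable (fun x : E d => (inner ℝ x w : ℝ)) (stdGaussian (E d)) := by
  have := integrable_inner_stdGaussian (E := E d) w
  refine this.congr (ae_of_all _ fun x => ?_)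
  exact real_inner_comm _ _

lemma integral_inner_right (w : E d) :
    ∫ x : E d, (inner ℝ x w : ℝ) ∂(stdGaussian (E d)) = 0 := by
  have h1 : ∫ x : E d, (inner ℝ x w : ℝ) ∂(stdGaussian (E d))
      = ∫ x : E d, (inner ℝ w x : ℝ) ∂(stdGaussian (E d)) :=
    integral_congr_ae (ae_of_all _ fun x => real_inner_comm _ _)
  have hi : Integrable (fun x : E d => x) (stdGaussian (E d)) :=
    IsGaussian.integrable_id (μ := stdGaussian (E d))
  have h2 : ∫ x : E d, x ∂(stdGaussian (E d)) = 0 := integral_id_stdGaussian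
  rw [h1, integral_inner hi, h2, inner_zero_right]

lemma le_iSup_inner [Finite ι] (v : ι → E d) (x : E d) (i : ι) :
    (inner ℝ x (v i) : ℝ) ≤ ⨆ j, (inner ℝ x (v j) : ℝ) :=
  le_ciSup (Finite.bddAbove_range (fun j => (inner ℝ x (v j) : ℝ))) i

theorem integrable_iSup_inner [Finite ι] (v : ι → E d) :
    Integrable (fun x : E d => ⨆ i, inner ℝ x (v i)) (stdGaussian (E d)) := by
  cases nonempty_fintype ι
  have h1 : Integrable (fun x : E d => ∑ i, |(inner ℝ x (v i) : ℝ)|) (stdGaussian (E d)) :=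
    integrable_finsetSum _ fun i _ => (integrable_inner_right (v i)).abs
  refine h1.mono' (continuous_iSup_inner v).aestronglyMeasurable (ae_of_all _ fun x => ?_)
  rw [Real.norm_eq_abs]
  have h2 := abs_iSup_sub_iSup_le_sum (fun i => (inner ℝ x (v i) : ℝ)) (fun _ : ι => (0:ℝ))
  have h3 : (⨆ _ : ι, (0:ℝ)) = 0 := by
    rcases isEmpty_or_nonempty ι with h | h
    · exact Real.iSup_of_isEmpty _
    · exact ciSup_const
  rw [h3] at h2
  simpa using h2

theorem emax_nonneg [Finite ι] (v : ι → E d) : 0 ≤ emax v := by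
  unfold emax
  rcases isEmpty_or_nonempty ι with h | h
  · simp [Real.iSup_of_isEmpty]
  · obtain ⟨i⟩ := h
    rw [← integral_inner_right (v i)]
    exact integral_mono (integrable_inner_right (v i)) (integrable_iSup_inner v)
      (fun x => le_iSup_inner v x i)

theorem emax_smul [Finite ι] (c : ℝ) (hc : 0 ≤ c) (v : ι → E d) :
    emax (fun i => c • v i) = c * emax v := by
  unfold emax
  rw [← integral_const_mul]
  refine integral_congr_ae (ae_of_all _ fun x => ?_)
  simp only
  rw [Real.mul_iSup_of_nonneg hc]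
  refine iSup_congr fun i => ?_
  rw [inner_smul_right]

theorem emax_sub_const [Finite ι] [Nonempty ι] (v : ι → E d) (c : E d) :
    emax (fun i => v i - c) = emax v := by
  unfold emax
  have h1 : ∀ x : E d, (⨆ i, (inner ℝ x (v i - c) : ℝ))
      = (⨆ i, (inner ℝ x (v i) : ℝ)) - inner ℝ x c := by
    intro x
    apply le_antisymm
    · refine ciSup_le fun i => ?_
      rw [inner_sub_right]
      exact sub_le_sub_right (le_iSup_inner v x i) _
    · rw [sub_le_iff_le_add]
      refine ciSup_le fun i => ?_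
      have := le_iSup_inner (fun i => v i - c) x i
      simp only [inner_sub_right] at this ⊢
      linarith
  simp_rw [h1]
  rw [integral_sub (integrable_iSup_inner v) (integrable_inner_right c), integral_inner_right,
    sub_zero]

lemma abs_emax_sub_le [Fintype ι] (v w : ι → E d) :
    |emax v - emax w| ≤ (∫ x : E d, ‖x‖ ∂(stdGaussian (E d))) * ∑ i, ‖v i - w i‖ := by
  unfold emax
  rw [← integral_sub (integrable_iSup_inner v) (integrable_iSup_inner w)]
  have hn : Integrable (fun x : E d => ‖x‖) (stdGaussian (E d)) :=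
    (IsGaussian.integrable_id (μ := stdGaussian (E d))).norm
  rw [← integral_mul_const]
  refine (abs_integral_le_integral_abs).trans ?_
  refine integral_mono ((integrable_iSup_inner v).sub (integrable_iSup_inner w)).abs
    (hn.mul_const _) (fun x => ?_)
  simp only
  refine (abs_iSup_sub_iSup_le_sum _ _).trans ?_
  rw [Finset.mul_sum]
  refine Finset.sum_le_sum fun i _ => ?_
  rw [← inner_sub_right]
  exact abs_real_inner_le_norm _ _

theorem continuous_emax [Finite ι] : Continuous (fun v : ι → E d => emax v) := by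
  cases nonempty_fintype ι
  refine continuous_iff_continuousAt.2 fun w => ?_
  have h1 : Tendsto (fun v : ι → E d =>
      (∫ x : E d, ‖x‖ ∂(stdGaussian (E d))) * ∑ i, ‖v i - w i‖) (𝓝 w)
      (𝓝 ((∫ x : E d, ‖x‖ ∂(stdGaussian (E d))) * ∑ i, ‖w i - w i‖)) := by
    have : Continuous (fun v : ι → E d =>
      (∫ x : E d, ‖x‖ ∂(stdGaussian (E d))) * ∑ i, ‖v i - w i‖) := by
      fun_prop
    exact this.tendsto w
  have h0 : (∫ x : E d, ‖x‖ ∂(stdGaussian (E d))) * ∑ i, ‖w i - w i‖ = 0 := by simp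
  rw [h0] at h1
  rw [ContinuousAt, tendsto_iff_dist_tendsto_zero]
  refine squeeze_zero (fun y => dist_nonneg) (fun y => ?_) h1
  rw [Real.dist_eq]
  exact abs_emax_sub_le _ _

theorem emax_comp_equiv {κ : Type} (e : κ ≃ ι) (v : ι → E d) : emax (v ∘ e) = emax v := by
  unfold emax
  refine integral_congr_ae (ae_of_all _ fun x => ?_)
  exact Equiv.iSup_comp (g := fun i => (inner ℝ x (v i) : ℝ)) e

theorem isClosed_cell (v : ι → E d) (i : ι) : IsClosed (cell v i) := by
  have h : cell v i = ⋂ j, {x : E d | (inner ℝ x (v j) : ℝ) ≤ inner ℝ x (v i)} := by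
    ext x; simp [cell]
  rw [h]
  exact isClosed_iInter fun j => isClosed_le (by fun_prop) (by fun_prop)

theorem measurableSet_cell (v : ι → E d) (i : ι) : MeasurableSet (cell v i) :=
  (isClosed_cell v i).measurableSet

theorem iUnion_cell [Finite ι] [Nonempty ι] (v : ι → E d) : ⋃ i, cell v i = univ := by
  refine eq_univ_of_forall fun x => ?_
  obtain ⟨i, hi⟩ := Finite.exists_max (fun j => (inner ℝ x (v j) : ℝ))
  exact mem_iUnion.2 ⟨i, hi⟩

theorem cell_inter_null [Finite ι] (v : ι → E d) (i j : ι) (h : v i ≠ v j) :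
    stdGaussian (E d) (cell v i ∩ cell v j) = 0 := by
  have hw : v i - v j ≠ 0 := sub_ne_zero.2 h
  have h1 : stdGaussian (E d) ((fun x : E d => (inner ℝ (v i - v j) x : ℝ)) ⁻¹' {0}) = 0 := by
    have hm : Measurable (fun x : E d => (inner ℝ (v i - v j) x : ℝ)) := by fun_prop
    rw [← Measure.map_apply hm (measurableSet_singleton 0), map_inner_stdGaussian]
    have hne : ‖v i - v j‖₊ ^ 2 ≠ 0 := by
      have : ‖v i - v j‖₊ ≠ 0 := by simpa using hw
      positivity
    have := nullSingletonClass_gaussianReal (μ := 0) hne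
    exact measure_singleton 0
  refine measure_mono_null (fun x hx => ?_) h1
  have h2 := hx.1 j
  have h3 := hx.2 i
  simp only [mem_preimage, mem_singleton_iff, inner_sub_left]
  rw [real_inner_comm x (v i), real_inner_comm x (v j)]
  linarith

lemma setIntegral_id_inner (B : Set (E d)) (w : E d) :
    (inner ℝ (∫ x in B, x ∂(stdGaussian (E d))) w : ℝ)
      = ∫ x in B, (inner ℝ x w : ℝ) ∂(stdGaussian (E d)) := by
  have hi : Integrable (fun x : E d => x) ((stdGaussian (E d)).restrict B) :=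
    (IsGaussian.integrable_id (μ := stdGaussian (E d))).integrableOn
  have h1 := integral_inner (𝕜 := ℝ) hi w
  rw [real_inner_comm, ← h1]
  exact integral_congr_ae (ae_of_all _ fun x => real_inner_comm _ _)

lemma sum_setIntegral_eq [Fintype ι] (B : ι → Set (E d))
    (hB : ∀ i, MeasurableSet (B i))
    (hd : Pairwise (fun i j => AEDisjoint (stdGaussian (E d)) (B i) (B j)))
    (hc : stdGaussian (E d) (⋃ i, B i)ᶜ = 0) (f : E d → ℝ)
    (hf : Integrable f (stdGaussian (E d))) :
    ∑ i, ∫ x in B i, f x ∂(stdGaussian (E d)) = ∫ x, f x ∂(stdGaussian (E d)) := by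
  have h1 := integral_iUnion_ae (μ := stdGaussian (E d)) (f := f)
    (fun i => (hB i).nullMeasurableSet) hd hf.integrableOn
  rw [tsum_fintype] at h1
  rw [← h1]
  have h2 : (⋃ i, B i) =ᵐ[stdGaussian (E d)] univ := by
    rw [ae_eq_univ]; exact hc
  rw [setIntegral_congr_set h2, setIntegral_univ]

/-- For a measurable partition up to null sets, `∑ ⟨z(B_i), v_i⟩ ≤ emax v`. -/
theorem sum_inner_le_emax [Fintype ι] [Nonempty ι] (B : ι → Set (E d))
    (hB : ∀ i, MeasurableSet (B i))
    (hd : Pairwise (fun i j => AEDisjoint (stdGaussian (E d)) (B i) (B j)))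
    (hc : stdGaussian (E d) (⋃ i, B i)ᶜ = 0) (v : ι → E d) :
    ∑ i, inner ℝ (∫ x in B i, x ∂(stdGaussian (E d))) (v i) ≤ emax v := by
  unfold emax
  rw [← sum_setIntegral_eq B hB hd hc _ (integrable_iSup_inner v)]
  refine Finset.sum_le_sum fun i _ => ?_
  rw [setIntegral_id_inner]
  exact integral_mono (integrable_inner_right (v i)).integrableOn
    (integrable_iSup_inner v).integrableOn (fun x => le_iSup_inner v x i)

/-- If the partition is made of argmax cells, equality. -/
theorem sum_inner_eq_emax [Fintype ι] [Nonempty ι] (B : ι → Set (E d))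
    (hB : ∀ i, MeasurableSet (B i))
    (hd : Pairwise (fun i j => AEDisjoint (stdGaussian (E d)) (B i) (B j)))
    (hc : stdGaussian (E d) (⋃ i, B i)ᶜ = 0) (v : ι → E d) (hBv : ∀ i, B i ⊆ cell v i) :
    ∑ i, inner ℝ (∫ x in B i, x ∂(stdGaussian (E d))) (v i) = emax v := by
  unfold emax
  rw [← sum_setIntegral_eq B hB hd hc _ (integrable_iSup_inner v)]
  refine Finset.sum_congr rfl fun i _ => ?_
  rw [setIntegral_id_inner]
  refine setIntegral_congr_fun (hB i) (fun x hx => ?_)
  exact le_antisymm (le_iSup_inner v x i) (ciSup_le fun j => hBv i hx j)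

theorem sum_real_cell [Fintype ι] [Nonempty ι] (v : ι → E d) (hv : Function.Injective v) :
    ∑ i, (stdGaussian (E d)).real (cell v i) = 1 := by
  have h := sum_setIntegral_eq (cell v) (measurableSet_cell v)
    (fun i j hij => cell_inter_null v i j (fun h => hij (hv h)))
    (by rw [iUnion_cell]; simp) (fun _ => (1:ℝ)) (integrable_const _)
  simpa using h

/-- Centred form of the induction hypothesis. -/
theorem pk_centered {k : ℕ} (hk : PK k) (hk0 : 0 < k) [Fintype ι] (hcard : Fintype.card ι = k)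
    (v : ι → E d) : emax v ^ 2 ≤ M0 * (∑ i, ‖v i‖ ^ 2 - ‖∑ i, v i‖ ^ 2 / k) := by
  have : Nonempty ι := Fintype.card_pos_iff.1 (hcard ▸ hk0)
  have h := hk ι d (fun i => v i - (1 / (k:ℝ)) • ∑ j, v j) hcard
  rw [emax_sub_const] at h
  refine h.trans (le_of_eq ?_)
  congr 1
  have hk' : (k:ℝ) ≠ 0 := by exact_mod_cast hk0.ne'
  have h1 : ∀ i, ‖v i - (1 / (k:ℝ)) • ∑ j, v j‖ ^ 2
      = ‖v i‖ ^ 2 - 2 * (1 / (k:ℝ)) * inner ℝ (v i) (∑ j, v j)
        + (1 / (k:ℝ)) ^ 2 * ‖∑ j, v j‖ ^ 2 := by
    intro i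
    rw [norm_sub_sq_real, inner_smul_right, norm_smul, mul_pow, Real.norm_eq_abs, sq_abs]
    ring
  simp_rw [h1]
  rw [Finset.sum_add_distrib, Finset.sum_sub_distrib, ← Finset.mul_sum, ← sum_inner,
    real_inner_self_eq_norm_sq, Finset.sum_const, Finset.card_univ, hcard, nsmul_eq_mul]
  field_simp
  ring

/-- `F(B) ≤ M₀` for every `k`-cell partition. -/
theorem pk_partition {k : ℕ} (hk : PK k) [Fintype ι] [Nonempty ι] (hcard : Fintype.card ι = k)
    (B : ι → Set (E d)) (hB : ∀ i, MeasurableSet (B i))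
    (hd : Pairwise (fun i j => AEDisjoint (stdGaussian (E d)) (B i) (B j)))
    (hc : stdGaussian (E d) (⋃ i, B i)ᶜ = 0) :
    ∑ i, ‖∫ x in B i, x ∂(stdGaussian (E d))‖ ^ 2 ≤ M0 := by
  set z : ι → E d := fun i => ∫ x in B i, x ∂(stdGaussian (E d)) with hz
  have h1 := sum_inner_le_emax B hB hd hc z
  have h2 : ∑ i, inner ℝ (∫ x in B i, x ∂(stdGaussian (E d))) (z i) = ∑ i, ‖z i‖ ^ 2 :=
    Finset.sum_congr rfl fun i _ => real_inner_self_eq_norm_sq _
  rw [h2] at h1
  have h3 := hk ι d z hcard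
  change ∑ i, ‖z i‖ ^ 2 ≤ M0
  set S := ∑ i, ‖z i‖ ^ 2 with hS
  have hS0 : 0 ≤ S := Finset.sum_nonneg fun i _ => sq_nonneg _
  have hM : 0 ≤ M0 := by unfold M0; positivity
  rcases hS0.eq_or_lt with h | h
  · rw [← h]; exact hM
  · have h4 : S ^ 2 ≤ M0 * S := by
      calc S ^ 2 ≤ emax z ^ 2 := by gcongr
        _ ≤ M0 * S := h3
    nlinarith

end Vale.Agent.P226
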