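import Vale.Agent.P226.Full.Emax

/-! Task P226-S2: existence of a critical configuration. -/

namespace Vale.Agent.P226

open MeasureTheory ProbabilityTheory Real Set Filter Topology

lemma ec_M0_pos : 0 < M0 := by
  unfold M0; positivity

/-- sum of squared norms -/
noncomputable def ecsq {k d : ℕ} (v : Fin k → E d) : ℝ := ∑ i, ‖v i‖ ^ 2

lemma ecsq_nonneg {k d : ℕ} (v : Fin k → E d) : 0 ≤ ecsq v :=
  Finset.sum_nonneg fun i _ => by positivity

lemma ecsq_smul {k d : ℕ} (c : ℝ) (v : Fin k → E d) : ecsq (fun i => c • v i) = c ^ 2 * ecsq v := by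
  unfold ecsq
  rw [Finset.mul_sum]
  refine Finset.sum_congr rfl fun i _ => ?_
  rw [norm_smul, mul_pow, Real.norm_eq_abs, sq_abs]

lemma ec_continuous_sq {k d : ℕ} : Continuous (fun v : Fin k → E d => ecsq v) := by
  unfold ecsq
  fun_prop

lemma ec_emax_zero {k d : ℕ} (v : Fin k → E d) (hv : ecsq v = 0) : emax v = 0 := by
  have h1 : ∀ i, v i = 0 := by
    intro i
    unfold ecsq at hv
    rw [Finset.sum_eq_zero_iff_of_nonneg (fun i _ => by positivity)] at hv
    have := hv i (Finset.mem_univ i)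
    rwa [sq_eq_zero_iff, norm_eq_zero] at this
  have h2 : v = fun i => (0 : ℝ) • v i := by
    funext i; rw [h1 i, smul_zero]
  rw [h2, emax_smul 0 le_rfl, zero_mul]

/-- existence of a maximiser on the sphere -/
lemma ec_exists_max {k d : ℕ} (v0 : Fin k → E d) (h0 : M0 * ecsq v0 < emax v0 ^ 2) :
    ∃ (v : Fin k → E d) (m : ℝ), ecsq v = 1 ∧ emax v = m ∧ 0 < m ∧ M0 < m ^ 2 ∧
      ∀ w : Fin k → E d, emax w ≤ m * √(ecsq w) := by
  have hpos : 0 < ecsq v0 := by
    rcases (ecsq_nonneg v0).lt_or_eq with h | h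
    · exact h
    · rw [← h, ec_emax_zero v0 h.symm] at h0
      norm_num at h0
  have hspos : 0 < √(ecsq v0) := Real.sqrt_pos.mpr hpos
  have hs2 : √(ecsq v0) ^ 2 = ecsq v0 := Real.sq_sqrt hpos.le
  set S : Set (Fin k → E d) := {v | ecsq v = 1} with hS
  have hcomp : IsCompact S := by
    refine Metric.isCompact_of_isClosed_isBounded ?_ ?_
    · exact isClosed_eq ec_continuous_sq continuous_const
    · rw [isBounded_iff_forall_norm_le]
      refine ⟨1, fun v hv => ?_⟩
      rw [pi_norm_le_iff_of_nonneg (by norm_num)]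
      intro i
      have h1 : ‖v i‖ ^ 2 ≤ ecsq v :=
        Finset.single_le_sum (f := fun i => ‖v i‖ ^ 2) (fun i _ => by positivity)
          (Finset.mem_univ i)
      have h2 : ecsq v = 1 := hv
      rw [h2] at h1
      have h3 : 0 ≤ ‖v i‖ := norm_nonneg _
      nlinarith
  have hne : S.Nonempty := by
    refine ⟨fun i => (√(ecsq v0))⁻¹ • v0 i, ?_⟩
    rw [hS, mem_ofPred_eq, ecsq_smul, inv_pow, hs2]
    exact inv_mul_cancel₀ hpos.ne'
  obtain ⟨v, hvS, hvmax⟩ := hcomp.exists_isMaxOn hne continuous_emax.continuousOn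
  have hmax : ∀ w : Fin k → E d, emax w ≤ emax v * √(ecsq w) := by
    intro w
    rcases (ecsq_nonneg w).lt_or_eq with h | h
    · have hwpos : 0 < √(ecsq w) := Real.sqrt_pos.mpr h
      have hw2 : √(ecsq w) ^ 2 = ecsq w := Real.sq_sqrt h.le
      have h1 : (fun i => (√(ecsq w))⁻¹ • w i) ∈ S := by
        rw [hS, mem_ofPred_eq, ecsq_smul, inv_pow, hw2]
        exact inv_mul_cancel₀ h.ne'
      have h2 : emax (fun i => (√(ecsq w))⁻¹ • w i) ≤ emax v := hvmax h1
      rw [emax_smul _ (by positivity)] at h2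
      rw [← div_le_iff₀ hwpos, div_eq_inv_mul]
      exact h2
    · rw [← h, Real.sqrt_zero, mul_zero, ec_emax_zero w h.symm]
  have hvnn : 0 ≤ emax v := emax_nonneg v
  have hbig : M0 < emax v ^ 2 := by
    have h1 := hmax v0
    have h2 : 0 ≤ emax v0 := emax_nonneg v0
    have h3 : emax v0 ^ 2 ≤ emax v ^ 2 * ecsq v0 := by
      calc emax v0 ^ 2 ≤ (emax v * √(ecsq v0)) ^ 2 := by
            exact pow_le_pow_left₀ h2 h1 2
        _ = emax v ^ 2 * ecsq v0 := by rw [mul_pow, hs2]
    by_contra hcon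
    push Not at hcon
    have h4 : emax v ^ 2 * ecsq v0 ≤ M0 * ecsq v0 := mul_le_mul_of_nonneg_right hcon hpos.le
    linarith
  refine ⟨v, emax v, hvS, rfl, ?_, hbig, hmax⟩
  rcases hvnn.lt_or_eq with h | h
  · exact h
  · rw [← h] at hbig
    have := ec_M0_pos
    norm_num at hbig
    linarith

/-- restricting the index set when a vector is repeated -/
lemma ec_emax_restrict {k d : ℕ} (z : Fin k → E d) {i j : Fin k} (hij : i ≠ j)
    (h : z i = z j) : emax (fun l : {l : Fin k // l ≠ j} => z l) = emax z := by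
  unfold emax
  refine integral_congr_ae (ae_of_all _ fun x => ?_)
  simp only
  have : Nonempty (Fin k) := ⟨i⟩
  have : Nonempty {l : Fin k // l ≠ j} := ⟨⟨i, hij⟩⟩
  apply le_antisymm
  · refine ciSup_le fun l => ?_
    exact le_ciSup (f := fun i => inner ℝ x (z i)) (Set.finite_range _).bddAbove l.1
  · refine ciSup_le fun l => ?_
    by_cases hl : l = j
    · rw [hl, ← h]
      exact le_ciSup (f := fun l : {l : Fin k // l ≠ j} => inner ℝ x (z l))
        (Set.finite_range _).bddAbove ⟨i, hij⟩
    · exact le_ciSup (f := fun l : {l : Fin k // l ≠ j} => inner ℝ x (z l))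
        (Set.finite_range _).bddAbove ⟨l, hl⟩

lemma ec_card_ne {k : ℕ} (j : Fin k) : Fintype.card {l : Fin k // l ≠ j} = k - 1 := by
  rw [Fintype.card_subtype_compl]
  simp

lemma ec_sum_ne {k : ℕ} (j : Fin k) (f : Fin k → ℝ) :
    ∑ l : {l : Fin k // l ≠ j}, f l = ∑ l, f l - f j := by
  have h1 : ∑ l : {l : Fin k // l ≠ j}, f l = ∑ l ∈ Finset.univ.erase j, f l := by
    refine (Finset.sum_subtype _ (fun x => ?_) f).symm
    simp
  rw [h1, ← Finset.add_sum_erase Finset.univ f (Finset.mem_univ j)]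
  ring

/-- cells are unchanged under positive scaling -/
lemma ec_cell_smul {k d : ℕ} {m : ℝ} (hm : 0 < m) (v : Fin k → E d) (i : Fin k) :
    cell (fun i => m • v i) i = cell v i := by
  ext x
  unfold cell
  simp only [mem_ofPred_eq, inner_smul_right]
  refine forall_congr' fun j => ?_
  exact mul_le_mul_iff_right₀ hm

theorem exists_crit {k : ℕ} (hk : 4 ≤ k) (h1 : PK (k - 1)) (h2 : ¬ PK k) :
    ∃ (d : ℕ) (z : Fin k → E d), Crit z := by
  unfold PK at h2
  push Not at h2
  obtain ⟨ι, inst, d, v0, hcard, hv0⟩ := h2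
  -- transport to `Fin k`
  have e : Fin k ≃ ι := (Fintype.equivFinOfCardEq hcard).symm
  have hv1 : M0 * ecsq (v0 ∘ e) < emax (v0 ∘ e) ^ 2 := by
    rw [emax_comp_equiv e v0]
    have : ecsq (v0 ∘ e) = ∑ i, ‖v0 i‖ ^ 2 := by
      unfold ecsq
      exact Equiv.sum_comp e (fun i => ‖v0 i‖ ^ 2)
    rw [this]
    exact hv0
  obtain ⟨v, m, hv, hm, hmpos, hm2, hmax⟩ := ec_exists_max _ hv1
  have : Nonempty (Fin k) := ⟨⟨0, by omega⟩⟩
  set z : Fin k → E d := fun i => m • v i with hz
  have hzsq : ∑ i, ‖z i‖ ^ 2 = m ^ 2 := by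
    have := ecsq_smul m v
    rw [hv, mul_one] at this
    exact this
  have hzemax : emax z = m ^ 2 := by
    rw [hz, emax_smul m hmpos.le, hm]; ring
  have hbig : M0 < ∑ i, ‖z i‖ ^ 2 := by rw [hzsq]; exact hm2
  -- injectivity
  have hinj : Function.Injective z := by
    intro i j hij
    by_contra hne
    have h3 := h1 {l : Fin k // l ≠ j} d (fun l => z l) (ec_card_ne j)
    rw [ec_emax_restrict z hne hij, hzemax, ec_sum_ne j (fun l => ‖z l‖ ^ 2), hzsq] at h3
    have h4 : 0 ≤ ‖z j‖ ^ 2 := by positivity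
    have h5 := ec_M0_pos
    have h6 : (m ^ 2) ^ 2 ≤ M0 * m ^ 2 := by nlinarith
    have h7 : 0 < m ^ 2 := by positivity
    nlinarith
  have hvinj : Function.Injective v := by
    intro i j hij
    apply hinj
    simp only [hz, hij]
  -- the partition into cells
  have hdisj : Pairwise (fun i j => AEDisjoint (stdGaussian (E d)) (cell v i) (cell v j)) := by
    intro i j hij
    exact cell_inter_null v i j (fun h => hij (hvinj h))
  have hcov : stdGaussian (E d) (⋃ i, cell v i)ᶜ = 0 := by
    rw [iUnion_cell v, compl_univ, measure_empty]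
  have hmom : ∀ i, ∫ x in cell v i, x ∂(stdGaussian (E d)) = z i := by
    set w : Fin k → E d := fun i => ∫ x in cell v i, x ∂(stdGaussian (E d)) with hw
    have ha := sum_inner_eq_emax (cell v) (measurableSet_cell v) hdisj hcov v
      (fun i => subset_rfl)
    have hb := sum_inner_le_emax (cell v) (measurableSet_cell v) hdisj hcov w
    have hb' : ecsq w ≤ emax w := by
      refine le_trans (le_of_eq ?_) hb
      unfold ecsq
      refine Finset.sum_congr rfl fun i _ => ?_
      exact (real_inner_self_eq_norm_sq _).symm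
    have hc := hmax w
    have hsw : √(ecsq w) ^ 2 = ecsq w := Real.sq_sqrt (ecsq_nonneg w)
    have hsn : 0 ≤ √(ecsq w) := Real.sqrt_nonneg _
    have hle : √(ecsq w) ≤ m := by
      by_contra hcon
      push Not at hcon
      have : √(ecsq w) ^ 2 ≤ m * √(ecsq w) := by rw [hsw]; exact hb'.trans hc
      have h3 : 0 < √(ecsq w) := hmpos.trans hcon
      nlinarith
    have hsq_le : ecsq w ≤ m ^ 2 := by
      rw [← hsw]
      exact pow_le_pow_left₀ hsn hle 2
    have hdist : ∑ i, ‖w i - z i‖ ^ 2 ≤ 0 := by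
      have h3 : ∀ i, ‖w i - z i‖ ^ 2 = ‖w i‖ ^ 2 - 2 * (m * inner ℝ (w i) (v i)) + ‖z i‖ ^ 2 := by
        intro i
        rw [norm_sub_sq_real, hz]
        simp only [inner_smul_right]
      rw [Finset.sum_congr rfl fun i _ => h3 i, Finset.sum_add_distrib, Finset.sum_sub_distrib,
        ← Finset.mul_sum, ← Finset.mul_sum, ha, hzsq, hm]
      unfold ecsq at hsq_le
      linarith
    intro i
    have h4 : ‖w i - z i‖ ^ 2 ≤ 0 :=
      (Finset.single_le_sum (f := fun i => ‖w i - z i‖ ^ 2) (fun i _ => by positivity)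
        (Finset.mem_univ i)).trans hdist
    have h5 : ‖w i - z i‖ = 0 := by
      have : 0 ≤ ‖w i - z i‖ := norm_nonneg _
      nlinarith
    rw [norm_eq_zero, sub_eq_zero] at h5
    exact h5
  refine ⟨d, z, ?_⟩
  constructor
  · simpa using hk
  · simpa using h1
  · exact hbig
  · rw [hzemax, hzsq]
  · intro i
    rw [hz, ec_cell_smul hmpos]
    exact hmom i
  · -- the sum vanishes
    set c : E d := (k : ℝ)⁻¹ • ∑ i, v i with hc
    have hkpos : (0 : ℝ) < k := by
      have : 0 < k := by omega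
      exact_mod_cast this
    have h3 := hmax (fun i => v i - c)
    rw [emax_sub_const v c, hm] at h3
    have h4 : 1 ≤ √(ecsq fun i => v i - c) := by
      by_contra hcon
      push Not at hcon
      nlinarith
    have h5 : 1 ≤ ecsq fun i => v i - c := by
      have h6 : √(ecsq fun i => v i - c) ^ 2 = ecsq fun i => v i - c := Real.sq_sqrt (ecsq_nonneg _)
      rw [← h6]
      nlinarith
    have h7 : (ecsq fun i => v i - c) = 1 - ‖∑ i, v i‖ ^ 2 / k := by
      have h8 : ∀ i, ‖v i - c‖ ^ 2 = ‖v i‖ ^ 2 - 2 * inner ℝ (v i) c + ‖c‖ ^ 2 := fun i =>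
        norm_sub_sq_real _ _
      unfold ecsq at hv ⊢
      rw [Finset.sum_congr rfl fun i _ => h8 i, Finset.sum_add_distrib, Finset.sum_sub_distrib,
        ← Finset.mul_sum, hv, ← sum_inner, hc, inner_smul_right, real_inner_self_eq_norm_sq,
        norm_smul, mul_pow, Finset.sum_const, Finset.card_univ, Fintype.card_fin, nsmul_eq_mul,
        norm_inv, Real.norm_natCast]
      field_simp
      ring
    rw [h7] at h5
    have h9 : ‖∑ i, v i‖ ^ 2 / k ≤ 0 := by linarith
    have h10 : ‖∑ i, v i‖ ^ 2 ≤ 0 := by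
      rw [div_le_iff₀ hkpos] at h9
      linarith
    have h11 : ‖∑ i, v i‖ = 0 := by
      have : 0 ≤ ‖∑ i, v i‖ := norm_nonneg _
      nlinarith
    rw [norm_eq_zero] at h11
    rw [hz, ← Finset.smul_sum, h11, smul_zero]
  · exact hinj
  · -- pairwise negative inner products by merging two cells
    intro i j hij
    set κ := {l : Fin k // l ≠ j} with hκ
    have : Nonempty κ := ⟨⟨i, hij⟩⟩
    set Bs : κ → Set (E d) := fun l => if l.1 = i then cell v i ∪ cell v j else cell v l.1 with hBs
    have hint : Integrable (fun x : E d => x) (stdGaussian (E d)) := IsGaussian.integrable_id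
    have hmeas : ∀ l, MeasurableSet (Bs l) := by
      intro l
      rw [hBs]
      simp only
      split_ifs
      · exact (measurableSet_cell v i).union (measurableSet_cell v j)
      · exact measurableSet_cell v _
    have hd2 : Pairwise (fun a b => AEDisjoint (stdGaussian (E d)) (Bs a) (Bs b)) := by
      intro a b hab
      have hab' : a.1 ≠ b.1 := fun h => hab (Subtype.ext h)
      rw [hBs]
      simp only
      split_ifs with ha hb hb
      · exact absurd (ha.trans hb.symm) hab'
      · refine AEDisjoint.union_left ?_ ?_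
        · exact hdisj (fun h => hb h.symm)
        · exact hdisj (fun h => b.2 h.symm)
      · refine AEDisjoint.union_right ?_ ?_
        · exact hdisj ha
        · exact hdisj a.2
      · exact hdisj hab'
    have hc2 : stdGaussian (E d) (⋃ l, Bs l)ᶜ = 0 := by
      have : ⋃ l, Bs l = univ := by
        rw [eq_univ_iff_forall]
        intro x
        have hx : x ∈ ⋃ l, cell v l := by rw [iUnion_cell v]; trivial
        rw [mem_iUnion] at hx ⊢
        obtain ⟨l, hl⟩ := hx
        by_cases hlj : l = j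
        · refine ⟨⟨i, hij⟩, ?_⟩
          rw [hBs]
          simp only [if_true]
          right
          rw [← hlj]; exact hl
        · refine ⟨⟨l, hlj⟩, ?_⟩
          rw [hBs]
          simp only
          split_ifs with hli
          · left; rw [← hli]; exact hl
          · exact hl
      rw [this, compl_univ, measure_empty]
    have h3 := pk_partition h1 (ec_card_ne j) Bs hmeas hd2 hc2
    have hmomB : ∀ l : κ, ‖∫ x in Bs l, x ∂(stdGaussian (E d))‖ ^ 2 =
        if l.1 = i then ‖z i + z j‖ ^ 2 else ‖z l.1‖ ^ 2 := by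
      intro l
      rw [hBs]
      simp only
      split_ifs with hl
      · rw [setIntegral_union₀ (hdisj hij) (measurableSet_cell v j).nullMeasurableSet
          hint.integrableOn hint.integrableOn, hmom i, hmom j]
      · rw [hmom]
    rw [Finset.sum_congr rfl fun l _ => hmomB l] at h3
    rw [ec_sum_ne j (fun l => if l = i then ‖z i + z j‖ ^ 2 else ‖z l‖ ^ 2)] at h3
    rw [if_neg (Ne.symm hij)] at h3
    have h4 : ∑ l, (if l = i then ‖z i + z j‖ ^ 2 else ‖z l‖ ^ 2) =
        ∑ l, ‖z l‖ ^ 2 + (‖z i + z j‖ ^ 2 - ‖z i‖ ^ 2) := by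
      have h5 : ∀ l, (if l = i then ‖z i + z j‖ ^ 2 else ‖z l‖ ^ 2) =
          ‖z l‖ ^ 2 + (if l = i then (‖z i + z j‖ ^ 2 - ‖z i‖ ^ 2) else 0) := by
        intro l
        split_ifs with hl
        · rw [hl]; ring
        · ring
      rw [Finset.sum_congr rfl fun l _ => h5 l, Finset.sum_add_distrib]
      simp
    rw [h4, norm_add_sq_real] at h3
    linarith

end Vale.Agent.P226
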