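import Vale.Agent.P226.Full.RedDefs

/-! Task P226-NC: common combinatorial / elementary lemmas for the numerical part. -/

namespace Vale.Agent.P226

open Real

theorem arcsin_sqrt_add_le (u v : ℝ) (hu : 0 ≤ u) (hv : 0 ≤ v) :
    arcsin (√(u + v)) ≤ arcsin (√u) + arcsin (√v) := by
  set α := arcsin (√u) with hα
  set β := arcsin (√v) with hβ
  have hα0 : 0 ≤ α := arcsin_nonneg.2 (Real.sqrt_nonneg _)
  have hβ0 : 0 ≤ β := arcsin_nonneg.2 (Real.sqrt_nonneg _)
  rcases le_or_gt (π / 2) (α + β) with h | h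
  · exact (arcsin_le_pi_div_two _).trans h
  · have hα1 : α < π / 2 := by linarith
    have hβ1 : β < π / 2 := by linarith
    have hu1 : √u < 1 := by
      by_contra hc
      push_neg at hc
      have : α = π / 2 := by rw [hα]; exact arcsin_of_one_le hc
      linarith
    have hv1 : √v < 1 := by
      by_contra hc
      push_neg at hc
      have : β = π / 2 := by rw [hβ]; exact arcsin_of_one_le hc
      linarith
    have hsα : sin α = √u := sin_arcsin (by have := Real.sqrt_nonneg u; linarith) hu1.le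
    have hsβ : sin β = √v := sin_arcsin (by have := Real.sqrt_nonneg v; linarith) hv1.le
    rw [arcsin_le_iff_le_sin' ⟨by linarith, by linarith⟩]
    apply Real.sqrt_le_iff.2
    refine ⟨sin_nonneg_of_nonneg_of_le_pi (by linarith) (by linarith [pi_pos]), ?_⟩
    have h1 : u = sin α ^ 2 := by rw [hsα, Real.sq_sqrt hu]
    have h2 : v = sin β ^ 2 := by rw [hsβ, Real.sq_sqrt hv]
    have hc : 0 ≤ cos (α + β) := cos_nonneg_of_mem_Icc ⟨by linarith, by linarith⟩
    have hsα0 : 0 ≤ sin α := by rw [hsα]; exact Real.sqrt_nonneg _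
    have hsβ0 : 0 ≤ sin β := by rw [hsβ]; exact Real.sqrt_nonneg _
    rw [h1, h2, sin_add]
    rw [cos_add] at hc
    have hcα := cos_sq' α
    have hcβ := cos_sq' β
    have h3 : (sin α * cos β + cos α * sin β) ^ 2 =
        sin α ^ 2 * cos β ^ 2 + cos α ^ 2 * sin β ^ 2 + 2 * (sin α * sin β) * (cos α * cos β) := by
      ring
    rw [h3, hcα, hcβ]
    have h4 := mul_nonneg (mul_nonneg hsα0 hsβ0) hc
    nlinarith [h4]

theorem arcsin_sqrt_sum_le {α : Type} (s : Finset α) (f : α → ℝ) (hf : ∀ i ∈ s, 0 ≤ f i) :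
    arcsin (√(∑ i ∈ s, f i)) ≤ ∑ i ∈ s, arcsin (√(f i)) := by
  classical
  induction s using Finset.induction_on with
  | empty => simp
  | insert a s ha ih =>
    rw [Finset.sum_insert ha, Finset.sum_insert ha]
    have h1 := arcsin_sqrt_add_le (f a) (∑ i ∈ s, f i) (hf a (Finset.mem_insert_self _ _))
      (Finset.sum_nonneg fun i hi => hf i (Finset.mem_insert_of_mem hi))
    have h2 := ih fun i hi => hf i (Finset.mem_insert_of_mem hi)
    linarith

/-- one cell contribution to the facet inequality. -/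
noncomputable def hW (C x Z : ℝ) : ℝ := arctan (√(C * x / Z)) + arcsin (√(C * x / (9 * Z)))

theorem hW_anti (C x : ℝ) (hC : 0 ≤ C) (hx : 0 ≤ x) {Z Z' : ℝ} (hZ : 0 < Z) (h : Z ≤ Z') :
    hW C x Z' ≤ hW C x Z := by
  unfold hW
  have hZ' : 0 < Z' := lt_of_lt_of_le hZ h
  have hCx : 0 ≤ C * x := mul_nonneg hC hx
  refine add_le_add (arctan_strictMono.monotone (Real.sqrt_le_sqrt ?_))
    (arcsin_le_arcsin (Real.sqrt_le_sqrt ?_))
  · exact div_le_div_of_nonneg_left hCx hZ h
  · exact div_le_div_of_nonneg_left hCx (by positivity) (by linarith)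

theorem lhsW_le {k : ℕ} (C : ℝ) (hC : 0 ≤ C) (x : Fin k → ℝ) (hx : ∀ i, 0 ≤ x i) (a b t : Fin k)
    (Z : ℝ) (hZ : 0 < Z) :
    lhsW C x a b t Z ≤ ∑ m ∈ ((Finset.univ.erase a).erase b).erase t, hW C (x m) Z := by
  unfold lhsW hW
  rw [Finset.sum_add_distrib]
  refine add_le_add le_rfl ?_
  have h1 : C * rest x a b t / (9 * Z)
      = ∑ m ∈ ((Finset.univ.erase a).erase b).erase t, C * x m / (9 * Z) := by
    unfold rest
    rw [Finset.mul_sum, Finset.sum_div]
  rw [h1]
  refine arcsin_sqrt_sum_le _ _ fun i _ => ?_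
  have := hx i
  positivity

theorem sum_split {k : ℕ} (f : Fin k → ℝ) (a b t : Fin k) (hab : a ≠ b) (hat : a ≠ t)
    (hbt : b ≠ t) :
    ∑ i, f i = f a + f b + f t + ∑ m ∈ ((Finset.univ.erase a).erase b).erase t, f m := by
  have h1 : a ∈ (Finset.univ : Finset (Fin k)) := Finset.mem_univ _
  have h2 : b ∈ (Finset.univ : Finset (Fin k)).erase a :=
    Finset.mem_erase.2 ⟨hab.symm, Finset.mem_univ _⟩
  have h3 : t ∈ ((Finset.univ : Finset (Fin k)).erase a).erase b :=
    Finset.mem_erase.2 ⟨hbt.symm, Finset.mem_erase.2 ⟨hat.symm, Finset.mem_univ _⟩⟩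
  rw [← Finset.add_sum_erase _ f h1, ← Finset.add_sum_erase _ f h2, ← Finset.add_sum_erase _ f h3]
  ring

theorem rest_eq {k : ℕ} (x : Fin k → ℝ) (a b t : Fin k) (hab : a ≠ b) (hat : a ≠ t)
    (hbt : b ≠ t) : rest x a b t = ∑ i, x i - x a - x b - x t := by
  have := sum_split x a b t hab hat hbt
  unfold rest
  linarith

/-- The three largest. -/
theorem exists_top3 {k : ℕ} (hk : 3 ≤ k) (x : Fin k → ℝ) :
    ∃ a b t : Fin k, a ≠ b ∧ a ≠ t ∧ b ≠ t ∧ x b ≤ x a ∧ x t ≤ x b ∧
      ∀ m, m ≠ a → m ≠ b → m ≠ t → x m ≤ x t := by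
  have hc : (Finset.univ : Finset (Fin k)).card = k := by simp
  obtain ⟨a, ha, hamax⟩ := Finset.exists_max_image (Finset.univ : Finset (Fin k)) x
    (Finset.card_pos.1 (by omega))
  have hc1 : ((Finset.univ : Finset (Fin k)).erase a).card = k - 1 := by
    rw [Finset.card_erase_of_mem ha, hc]
  obtain ⟨b, hb, hbmax⟩ := Finset.exists_max_image ((Finset.univ : Finset (Fin k)).erase a) x
    (Finset.card_pos.1 (by omega))
  have hc2 : (((Finset.univ : Finset (Fin k)).erase a).erase b).card = k - 2 := by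
    rw [Finset.card_erase_of_mem hb, hc1]; omega
  obtain ⟨t, ht, htmax⟩ := Finset.exists_max_image
    (((Finset.univ : Finset (Fin k)).erase a).erase b) x (Finset.card_pos.1 (by omega))
  have hab : b ≠ a := (Finset.mem_erase.1 hb).1
  have hbt : t ≠ b := (Finset.mem_erase.1 ht).1
  have hat : t ≠ a := (Finset.mem_erase.1 (Finset.mem_erase.1 ht).2).1
  refine ⟨a, b, t, hab.symm, hat.symm, hbt.symm, hamax b (Finset.mem_univ _),
    hbmax t (Finset.mem_erase.1 ht).2, fun m hma hmb _ => ?_⟩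
  exact htmax m (Finset.mem_erase.2 ⟨hmb, Finset.mem_erase.2 ⟨hma, Finset.mem_univ _⟩⟩)

/-- `√Z ≤ (1+Z)/2`. -/
theorem sqrt_le_half (Z : ℝ) (hZ : 0 ≤ Z) : √Z ≤ (1 + Z) / 2 := by
  have h1 := Real.sq_sqrt hZ
  nlinarith [sq_nonneg (√Z - 1)]

end Vale.Agent.P226
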