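import Vale.Agent.P226.Full.NumTools

/-!
# P226: certified evaluation of `gphi`, `gQ`, `ell`, `XE` at rational points

`QL n y ≤ gQ y ≤ QH n y`, `PL n y ≤ gphi y ≤ PH n y`, `LL n y ≤ ell y ≤ LH n y`,
`XL n q y ≤ XE q y ≤ XH n q y` where the bounds are computable rational functions
(`n = 10`, i.e. 20 resp. 21 Taylor terms, is enough for `y ≤ 2.2` and `1e-10`; `n = 7` for `y ≤ 1.3`).
Usage: `have h := gEval 10 (116/100) 0.1230 0.1231 0.2035 0.2036 (by decide +kernel)` and then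
`norm_num at h`.
-/

namespace Vale.Agent.P226

open Real Set Filter Topology

theorem c_bounds_fine : 0.3989422804014326 < (√(2 * π))⁻¹ ∧ (√(2 * π))⁻¹ < 0.3989422804014327 := by
  have h1 := Real.pi_gt_d20
  have h2 := Real.pi_lt_d20
  have hs : 0 < √(2 * π) := by positivity
  constructor
  · rw [lt_inv_comm₀ (by norm_num) hs]
    rw [Real.sqrt_lt' (by norm_num)]
    norm_num at *
    linarith
  · rw [inv_lt_comm₀ hs (by norm_num)]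
    apply Real.lt_sqrt_of_sq_lt
    norm_num at *
    linarith

/-- lower / upper rational bounds for `1/√(2π)` -/
def cLo : ℚ := 3989422804014326 / 10000000000000000
def cHi : ℚ := 3989422804014327 / 10000000000000000

theorem cLo_lt : (cLo : ℝ) < (√(2 * π))⁻¹ := by
  have h := c_bounds_fine.1
  unfold cLo
  push_cast
  norm_num at *
  linarith

theorem lt_cHi : (√(2 * π))⁻¹ < (cHi : ℝ) := by
  have h := c_bounds_fine.2
  unfold cHi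
  push_cast
  norm_num at *
  linarith

/-- `∑_{i<n} (-1)^i u^i / i!` over `ℚ` -/
def gexpR (n : ℕ) (u : ℚ) : ℚ := ∑ i ∈ Finset.range n, (-1) ^ i * u ^ i / (Nat.factorial i)

/-- `gser` over `ℚ` -/
def gserR (n : ℕ) (y : ℚ) : ℚ :=
  ∑ i ∈ Finset.range n, (-1) ^ i * y ^ (2 * i + 1) / (2 ^ i * (Nat.factorial i) * (2 * i + 1))

theorem cast_gserR (n : ℕ) (y : ℚ) : ((gserR n y : ℚ) : ℝ) = gser n y := by
  unfold gserR gser
  push_cast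
  rfl

theorem cast_gexpR (n : ℕ) (u : ℚ) :
    ((gexpR n u : ℚ) : ℝ) = ∑ i ∈ Finset.range n, (-1) ^ i * (u : ℝ) ^ i / (Nat.factorial i) := by
  unfold gexpR
  push_cast
  rfl

/-- lower bound for `gQ y` (`y ≥ 0`) -/
def QL (n : ℕ) (y : ℚ) : ℚ := 1 / 2 - cHi * gserR (2 * n + 1) y
/-- upper bound for `gQ y` (`y ≥ 0`) -/
def QH (n : ℕ) (y : ℚ) : ℚ := 1 / 2 - cLo * gserR (2 * n) y
/-- lower bound for `gphi y` -/
def PL (n : ℕ) (y : ℚ) : ℚ := max 0 (cLo * gexpR (2 * n) (y ^ 2 / 2))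
/-- upper bound for `gphi y` -/
def PH (n : ℕ) (y : ℚ) : ℚ := cHi * gexpR (2 * n + 1) (y ^ 2 / 2)
/-- lower bound for `ell y` (`y ≥ 0`) -/
def LL (n : ℕ) (y : ℚ) : ℚ := PL n y * max 0 (PL n y - y * QH n y)
/-- upper bound for `ell y` (`y ≥ 0`) -/
def LH (n : ℕ) (y : ℚ) : ℚ := PH n y * (PH n y - y * QL n y)
/-- lower bound for `ell y / M0` -/
def UL (n : ℕ) (y : ℚ) : ℚ := LL n y / (9 / 4 * cHi ^ 2)
/-- upper bound for `ell y / M0` -/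
def UH (n : ℕ) (y : ℚ) : ℚ := LH n y / (9 / 4 * cLo ^ 2)
/-- lower bound for `XE q y` (`y ≥ 0`, `q ≥ 0`) -/
def XL (n : ℕ) (q y : ℚ) : ℚ := 2 * UL n y - q * UH n y ^ 2
/-- upper bound for `XE q y` (`y ≥ 0`, `q ≥ 0`) -/
def XH (n : ℕ) (q y : ℚ) : ℚ := 2 * UH n y - q * UL n y ^ 2

theorem QL_le (n : ℕ) {y : ℚ} (hy : 0 ≤ y) : ((QL n y : ℚ) : ℝ) ≤ gQ y := by
  have hy' : (0:ℝ) ≤ y := by exact_mod_cast hy
  have h1 := gQ_ge_series n (y : ℝ) hy'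
  have h2 : gQ (y : ℝ) ≤ 1 / 2 := by
    rw [← gQ_zero]; exact gQ_antitone hy'
  have hc : 0 < (√(2 * π))⁻¹ := by positivity
  have h3 : 0 ≤ gser (2 * n + 1) (y : ℝ) := by
    have : 0 ≤ (√(2 * π))⁻¹ * gser (2 * n + 1) (y : ℝ) := by linarith
    exact (mul_nonneg_iff_of_pos_left hc).1 this
  have h4 := mul_le_mul_of_nonneg_right lt_cHi.le h3
  unfold QL
  push_cast
  rw [cast_gserR]
  linarith

theorem le_QH (n : ℕ) {y : ℚ} (hy : 0 ≤ y) : gQ y ≤ ((QH n y : ℚ) : ℝ) := by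
  have hy' : (0:ℝ) ≤ y := by exact_mod_cast hy
  have h1 := gQ_le_series n (y : ℝ) hy'
  have h2 : gQ (y : ℝ) ≤ 1 / 2 := by
    rw [← gQ_zero]; exact gQ_antitone hy'
  unfold QH
  push_cast
  rw [cast_gserR]
  rcases le_total 0 (gser (2 * n) (y : ℝ)) with h3 | h3
  · have h4 := mul_le_mul_of_nonneg_right cLo_lt.le h3
    linarith
  · have hc : (0:ℝ) ≤ cLo := by unfold cLo; push_cast; norm_num
    have := mul_nonpos_of_nonneg_of_nonpos hc h3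
    linarith

theorem PL_nonneg (n : ℕ) (y : ℚ) : 0 ≤ PL n y := le_max_left _ _

theorem PL_le (n : ℕ) (y : ℚ) : ((PL n y : ℚ) : ℝ) ≤ gphi y := by
  have h1 := gphi_ge_series n (y : ℝ)
  unfold PL
  push_cast
  rw [cast_gexpR]
  push_cast
  apply max_le (gphi_pos _).le
  rcases le_total 0 (∑ i ∈ Finset.range (2 * n), (-1) ^ i * ((y : ℝ) ^ 2 / 2) ^ i /
    (Nat.factorial i)) with h3 | h3
  · have h4 := mul_le_mul_of_nonneg_right cLo_lt.le h3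
    linarith
  · have hc : (0:ℝ) ≤ cLo := by unfold cLo; push_cast; norm_num
    have := mul_nonpos_of_nonneg_of_nonpos hc h3
    linarith [gphi_pos (y : ℝ)]

theorem le_PH (n : ℕ) (y : ℚ) : gphi y ≤ ((PH n y : ℚ) : ℝ) := by
  have h1 := gphi_le_series n (y : ℝ)
  unfold PH
  push_cast
  rw [cast_gexpR]
  push_cast
  have hc : 0 < (√(2 * π))⁻¹ := by positivity
  have h3 : 0 ≤ ∑ i ∈ Finset.range (2 * n + 1), (-1) ^ i * ((y : ℝ) ^ 2 / 2) ^ i /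
      (Nat.factorial i) := by
    have := (gphi_pos (y : ℝ)).le.trans h1
    exact (mul_nonneg_iff_of_pos_left hc).1 this
  have h4 := mul_le_mul_of_nonneg_right lt_cHi.le h3
  linarith

theorem LL_nonneg (n : ℕ) (y : ℚ) : 0 ≤ LL n y := mul_nonneg (PL_nonneg n y) (le_max_left _ _)

theorem LL_le (n : ℕ) {y : ℚ} (hy : 0 ≤ y) : ((LL n y : ℚ) : ℝ) ≤ ell y := by
  have hy' : (0:ℝ) ≤ y := by exact_mod_cast hy
  have h1 := PL_le n y
  have h2 := le_QH n hy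
  have h3 : (0:ℝ) ≤ (PL n y : ℝ) := by exact_mod_cast PL_nonneg n y
  unfold LL ell
  push_cast
  apply mul_le_mul h1 _ (le_max_left _ _) (gphi_pos _).le
  apply max_le (gphi_sub_pos _).le
  have := mul_le_mul_of_nonneg_left h2 hy'
  linarith

theorem le_LH (n : ℕ) {y : ℚ} (hy : 0 ≤ y) : ell y ≤ ((LH n y : ℚ) : ℝ) := by
  have hy' : (0:ℝ) ≤ y := by exact_mod_cast hy
  have h1 := le_PH n y
  have h2 := QL_le n hy
  unfold LH ell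
  push_cast
  apply mul_le_mul h1 _ (gphi_sub_pos _).le ((gphi_pos _).le.trans h1)
  have := mul_le_mul_of_nonneg_left h2 hy'
  linarith

theorem M0_eq : M0 = 9 / 4 * (√(2 * π))⁻¹ ^ 2 := by
  rw [inv_sqrt_sq]; ring

theorem M0_le_hi : M0 ≤ 9 / 4 * (cHi : ℝ) ^ 2 := by
  rw [M0_eq]
  have hc : 0 < (√(2 * π))⁻¹ := by positivity
  have := pow_le_pow_left₀ hc.le lt_cHi.le 2
  linarith

theorem lo_le_M0 : 9 / 4 * (cLo : ℝ) ^ 2 ≤ M0 := by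
  rw [M0_eq]
  have hc : (0:ℝ) ≤ cLo := by unfold cLo; push_cast; norm_num
  have := pow_le_pow_left₀ hc cLo_lt.le 2
  linarith

theorem UL_nonneg (n : ℕ) (y : ℚ) : 0 ≤ UL n y :=
  div_nonneg (LL_nonneg n y) (by unfold cHi; norm_num)

theorem UL_le (n : ℕ) {y : ℚ} (hy : 0 ≤ y) : ((UL n y : ℚ) : ℝ) ≤ ell y / M0 := by
  unfold UL
  push_cast
  exact div_le_div₀ (ell_pos _).le (LL_le n hy) M0_pos M0_le_hi

theorem le_UH (n : ℕ) {y : ℚ} (hy : 0 ≤ y) : ell y / M0 ≤ ((UH n y : ℚ) : ℝ) := by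
  unfold UH
  push_cast
  have hc : (0:ℝ) < cLo := by unfold cLo; push_cast; norm_num
  have h := le_LH n hy
  exact div_le_div₀ ((ell_pos _).le.trans h) h (by positivity) lo_le_M0

theorem XL_le (n : ℕ) {q y : ℚ} (hq : 0 ≤ q) (hy : 0 ≤ y) : ((XL n q y : ℚ) : ℝ) ≤ XE q y := by
  have hq' : (0:ℝ) ≤ q := by exact_mod_cast hq
  have h1 := UL_le n hy
  have h2 := le_UH n hy
  have h3 := mul_le_mul_of_nonneg_left (pow_le_pow_left₀ (ell_div_pos (y:ℝ)).le h2 2) hq'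
  unfold XL XE
  push_cast
  linarith

theorem le_XH (n : ℕ) {q y : ℚ} (hq : 0 ≤ q) (hy : 0 ≤ y) : XE q y ≤ ((XH n q y : ℚ) : ℝ) := by
  have hq' : (0:ℝ) ≤ q := by exact_mod_cast hq
  have h0 : (0:ℝ) ≤ (UL n y : ℝ) := by exact_mod_cast UL_nonneg n y
  have h1 := UL_le n hy
  have h2 := le_UH n hy
  have h3 := mul_le_mul_of_nonneg_left (pow_le_pow_left₀ h0 h1 2) hq'
  unfold XH XE
  push_cast
  linarith

/-- `gEval n y ql qh pl ph (by decide +kernel)` : `ql ≤ gQ y ≤ qh` and `pl ≤ gphi y ≤ ph`. -/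
theorem gEval (n : ℕ) (y ql qh pl ph : ℚ)
    (h : 0 ≤ y ∧ ql ≤ QL n y ∧ QH n y ≤ qh ∧ pl ≤ PL n y ∧ PH n y ≤ ph) :
    (ql : ℝ) ≤ gQ (y : ℝ) ∧ gQ (y : ℝ) ≤ (qh : ℝ) ∧ (pl : ℝ) ≤ gphi (y : ℝ) ∧
      gphi (y : ℝ) ≤ (ph : ℝ) := by
  obtain ⟨h0, h1, h2, h3, h4⟩ := h
  exact ⟨le_trans (by exact_mod_cast h1) (QL_le n h0), (le_QH n h0).trans (by exact_mod_cast h2),
    le_trans (by exact_mod_cast h3) (PL_le n y), (le_PH n y).trans (by exact_mod_cast h4)⟩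

theorem gQ_eval (n : ℕ) (y ql qh : ℚ) (h : 0 ≤ y ∧ ql ≤ QL n y ∧ QH n y ≤ qh) :
    (ql : ℝ) ≤ gQ (y : ℝ) ∧ gQ (y : ℝ) ≤ (qh : ℝ) := by
  obtain ⟨h0, h1, h2⟩ := h
  exact ⟨le_trans (by exact_mod_cast h1) (QL_le n h0), (le_QH n h0).trans (by exact_mod_cast h2)⟩

theorem gphi_eval (n : ℕ) (y pl ph : ℚ) (h : pl ≤ PL n y ∧ PH n y ≤ ph) :
    (pl : ℝ) ≤ gphi (y : ℝ) ∧ gphi (y : ℝ) ≤ (ph : ℝ) := by
  obtain ⟨h1, h2⟩ := h
  exact ⟨le_trans (by exact_mod_cast h1) (PL_le n y), (le_PH n y).trans (by exact_mod_cast h2)⟩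

theorem ell_eval (n : ℕ) (y ll lh : ℚ) (h : 0 ≤ y ∧ ll ≤ LL n y ∧ LH n y ≤ lh) :
    (ll : ℝ) ≤ ell (y : ℝ) ∧ ell (y : ℝ) ≤ (lh : ℝ) := by
  obtain ⟨h0, h1, h2⟩ := h
  exact ⟨le_trans (by exact_mod_cast h1) (LL_le n h0), (le_LH n h0).trans (by exact_mod_cast h2)⟩

/-- bounds for `ell y / M0`. -/
theorem U_eval (n : ℕ) (y ul uh : ℚ) (h : 0 ≤ y ∧ ul ≤ UL n y ∧ UH n y ≤ uh) :
    (ul : ℝ) ≤ ell (y : ℝ) / M0 ∧ ell (y : ℝ) / M0 ≤ (uh : ℝ) := by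
  obtain ⟨h0, h1, h2⟩ := h
  exact ⟨le_trans (by exact_mod_cast h1) (UL_le n h0), (le_UH n h0).trans (by exact_mod_cast h2)⟩

theorem XE_eval (n : ℕ) (q y xl xh : ℚ) (h : 0 ≤ q ∧ 0 ≤ y ∧ xl ≤ XL n q y ∧ XH n q y ≤ xh) :
    (xl : ℝ) ≤ XE (q : ℝ) (y : ℝ) ∧ XE (q : ℝ) (y : ℝ) ≤ (xh : ℝ) := by
  obtain ⟨hq, h0, h1, h2⟩ := h
  exact ⟨le_trans (by exact_mod_cast h1) (XL_le n hq h0),
    (le_XH n hq h0).trans (by exact_mod_cast h2)⟩

end Vale.Agent.P226
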