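import Vale.Agent.P226.Full.NumTools
import Vale.Agent.P226.Full.NumEval
import Vale.Agent.P226.Full.NumCommon

/-! Task P226-N4: no reduced configuration for `k = 4` (with the cap inequality in `ℝ³`). -/

namespace Vale.Agent.P226

open Real

theorem n4_gQ_half {y : ℝ} (hy : 0 ≤ y) : gQ y ≤ 1 / 2 := by
  rw [← gQ_zero]; exact gQ_antitone hy

/-- `(P1)` -/
theorem n4_P1 {x y : ℝ} (hc : CellOK (4 / 3) x y)
    (hcap : x ≤ 64 / 9 * (gQ y * (1 - gQ y)) ^ 2) (hx : 0.045 ≤ x) :
    0.0625 + 0.75 * x ≤ gQ y := by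
  have e1 := gQ_eval 10 (109 / 100) (1378 / 10000) (1379 / 10000) (by decide +kernel)
  have e2 := gQ_eval 10 (1287 / 1000) (990 / 10000) (991 / 10000) (by decide +kernel)
  have e3 := XE_eval 10 (5 / 4) (109 / 100) (837 / 10000) (838 / 10000) (by decide +kernel)
  have e4 := XE_eval 10 (5 / 4) (1287 / 1000) (4490 / 100000) (4491 / 100000) (by decide +kernel)
  push_cast at e1 e2 e3 e4
  rcases le_total y (109 / 100) with h | h
  · have h1 : gQ (109 / 100) ≤ gQ y := gQ_antitone h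
    have h2 := n4_gQ_half hc.y_nonneg
    set a := gQ y
    have h3 : 0 ≤ (a - 0.1378) * (0.5 - a) :=
      mul_nonneg (by norm_num at *; linarith) (by norm_num at *; linarith)
    have h4 : a ^ 2 - 1.5 * a + 0.1875 ≤ 0 := by norm_num at *; nlinarith
    have h5 : 0 ≤ (a - 1 / 4) ^ 2 * (-(a ^ 2 - 1.5 * a + 0.1875)) :=
      mul_nonneg (sq_nonneg _) (by linarith)
    have h6 : 4 / 3 * (a - 1 / 16) - 64 / 9 * (a * (1 - a)) ^ 2 =
        64 / 9 * ((a - 1 / 4) ^ 2 * (-(a ^ 2 - 1.5 * a + 0.1875))) := by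
      ring
    norm_num at *
    linarith
  · have h0 := (hc.mono_q (show (5 / 4 : ℝ) ≤ 4 / 3 by norm_num)).del
    have hy : y ≤ 1287 / 1000 := by
      by_contra hcon
      have h1 : XE (5 / 4) y ≤ XE (5 / 4) (1287 / 1000) :=
        XE_antitoneOn (5 / 4) (by norm_num) (by norm_num) (Set.mem_Ici.2 (by norm_num))
          (Set.mem_Ici.2 hc.y_nonneg) (not_le.1 hcon).le
      norm_num at *
      linarith
    have h1 := quasi_E (5 / 4) 0.75 (109 / 100) (1287 / 1000) y (by norm_num) (by norm_num)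
      (by norm_num) (by norm_num) h hy
    have h2 : 0.0625 ≤ min (gQ (109 / 100) - 0.75 * XE (5 / 4) (109 / 100))
        (gQ (1287 / 1000) - 0.75 * XE (5 / 4) (1287 / 1000)) := by
      apply le_min
      · norm_num at *; linarith
      · norm_num at *; linarith
    have h3 := h2.trans h1
    norm_num at *
    linarith

/-- `(P2)` for the cap part -/
theorem n4_P2 {a x : ℝ} (h1 : 0.06 ≤ a) (h2 : a ≤ 1 / 2)
    (hcap : x ≤ 64 / 9 * (a * (1 - a)) ^ 2) : 0.028 + 0.866 * x ≤ a := by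
  have h3 : 0 ≤ (a - 0.06) * (0.5 - a) :=
    mul_nonneg (by linarith) (by norm_num at *; linarith)
  have h4 : 0 ≤ -(a ^ 2) + 2 * 0.6897 * a - 0.6897 * 0.0691 := by norm_num at *; nlinarith
  have h5 : 0 ≤ (a - 0.3103) ^ 2 * (-(a ^ 2) + 2 * 0.6897 * a - 0.6897 * 0.0691) :=
    mul_nonneg (sq_nonneg _) h4
  norm_num at *
  nlinarith

/-- `(P2)` for the smallest cell -/
theorem n4_P2b {x y : ℝ} (hc : CellOK (4 / 3) x y) (hx : 0.024 ≤ x) (hx2 : x ≤ 0.045) :
    0.05 + 0.866 * x < gQ y := by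
  have e2 := gQ_eval 10 (1287 / 1000) (990 / 10000) (991 / 10000) (by decide +kernel)
  have e3 := gQ_eval 10 (1465 / 1000) (714 / 10000) (715 / 10000) (by decide +kernel)
  have e4 := XE_eval 10 (5 / 4) (1287 / 1000) (4490 / 100000) (4491 / 100000) (by decide +kernel)
  have e5 := XE_eval 10 (5 / 4) (1465 / 1000) (2398 / 100000) (23995 / 1000000) (by decide +kernel)
  push_cast at e2 e3 e4 e5
  rcases le_total y (1287 / 1000) with h | h
  · have h1 : gQ (1287 / 1000) ≤ gQ y := gQ_antitone h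
    norm_num at *
    linarith
  · have h0 := (hc.mono_q (show (5 / 4 : ℝ) ≤ 4 / 3 by norm_num)).del
    have hy : y ≤ 1465 / 1000 := by
      by_contra hcon
      have h1 : XE (5 / 4) y ≤ XE (5 / 4) (1465 / 1000) :=
        XE_antitoneOn (5 / 4) (by norm_num) (by norm_num) (Set.mem_Ici.2 (by norm_num))
          (Set.mem_Ici.2 hc.y_nonneg) (not_le.1 hcon).le
      norm_num at *
      linarith
    have h1 := quasi_E (5 / 4) 0.866 (1287 / 1000) (1465 / 1000) y (by norm_num) (by norm_num)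
      (by norm_num) (by norm_num) h hy
    have h2 : 0.0502 ≤ min (gQ (1287 / 1000) - 0.866 * XE (5 / 4) (1287 / 1000))
        (gQ (1465 / 1000) - 0.866 * XE (5 / 4) (1465 / 1000)) := by
      apply le_min
      · norm_num at *; linarith
      · norm_num at *; linarith
    have h3 := h2.trans h1
    norm_num at *
    linarith

/-- `(P3)` cells 1, 2 -/
theorem n4_P3a {a x : ℝ} (h1 : 0 ≤ a) (h2 : a ≤ 1 / 2)
    (hcap : x ≤ 64 / 9 * (a * (1 - a)) ^ 2) : 1.2 * x - 0.0938 ≤ a := by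
  have h4 : 0 ≤ -(a ^ 2) + 1.25 * a + 0.078125 := by norm_num at *; nlinarith
  have h5 : 0 ≤ (a - 3 / 8) ^ 2 * (-(a ^ 2) + 1.25 * a + 0.078125) :=
    mul_nonneg (sq_nonneg _) h4
  norm_num at *
  nlinarith

/-- `(P3)` cell 3 -/
theorem n4_P3b {a x : ℝ} (h1 : 0 ≤ a) (h2 : a ≤ 1 / 2) (hx : x ≤ 4 / 27)
    (hcap : x ≤ 64 / 9 * (a * (1 - a)) ^ 2) : 1.2 * x - 0.003 ≤ a := by
  rcases le_total 0.174778 a with h | h
  · norm_num at *
    linarith
  · -- `a (1-a)^2 ≤ b (1-b)^2`
    have h3 : a * (1 - a) ^ 2 ≤ 0.119023 := by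
      have : 0 ≤ (0.174778 - a) * (1 - 2 * (a + 0.174778) + (a ^ 2 + 0.174778 * a + 0.174778 ^ 2)) :=
        mul_nonneg (by linarith) (by norm_num at *; nlinarith)
      norm_num at *
      nlinarith
    have h4 : a * (a * (1 - a) ^ 2) ≤ a * 0.119023 := mul_le_mul_of_nonneg_left h3 h1
    have h5 : (a * (1 - a)) ^ 2 = a * (a * (1 - a) ^ 2) := by ring
    rw [h5] at hcap
    norm_num at *
    linarith

/-- `(P3)` cell 4 -/
theorem n4_P3c {a x : ℝ} (h1 : 0 ≤ a) (h2 : a ≤ 1 / 2) (hx0 : 0 ≤ x) (hx : x ≤ 0.024)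
    (hcap : x ≤ 64 / 9 * (a * (1 - a)) ^ 2) : 1.2 * x ≤ a := by
  by_contra hcon
  rw [not_le] at hcon
  have h3 : (a * (1 - a)) ^ 2 ≤ a ^ 2 :=
    pow_le_pow_left₀ (mul_nonneg h1 (by linarith)) (by nlinarith) 2
  have h4 : a * a ≤ a * 0.0288 := mul_le_mul_of_nonneg_left (by norm_num at *; linarith) h1
  norm_num at *
  nlinarith

/-- third order Taylor bound -/
theorem n4_arctan_le {s : ℝ} (hs : 0 ≤ s) : arctan s ≤ s - s ^ 3 / 3 + s ^ 5 / 5 := by
  have hder : ∀ s : ℝ, HasDerivAt (fun s => s - s ^ 3 / 3 + s ^ 5 / 5 - arctan s)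
      (s ^ 6 / (1 + s ^ 2)) s := by
    intro s
    have h1 := (((hasDerivAt_id s).sub ((hasDerivAt_pow 3 s).div_const 3)).add
      ((hasDerivAt_pow 5 s).div_const 5)).sub (hasDerivAt_arctan s)
    refine h1.congr_deriv ?_
    have : (1 + s ^ 2) ≠ 0 := by positivity
    field_simp
    norm_num
    ring
  have hmono : Monotone (fun s : ℝ => s - s ^ 3 / 3 + s ^ 5 / 5 - arctan s) := by
    apply monotone_of_deriv_nonneg (fun s => (hder s).differentiableAt)
    intro s
    rw [(hder s).deriv]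
    have : 0 ≤ s ^ 6 := by positivity
    positivity
  have h := hmono hs
  simp only [arctan_zero] at h
  norm_num at h
  linarith

theorem n4_final {ξ Z : ℝ} (h0 : 0 ≤ ξ) (hξ : ξ ≤ 0.024) (hZ : 0.952 ≤ Z) (hZ2 : Z ≤ 1.05774) :
    arctan (√(13 * ξ / Z)) + arcsin (√(13 * ξ / (9 * Z))) < π * (1 - 3 / (4 : ℝ) * √Z) := by
  have hZ0 : 0 < Z := lt_of_lt_of_le (by norm_num) hZ
  have h1 : √(13 * ξ / Z) ≤ 0.57249 := by
    rw [Real.sqrt_le_left (by norm_num)]
    rw [div_le_iff₀ hZ0]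
    norm_num at *
    linarith
  have h2 : √(13 * ξ / (9 * Z)) ≤ 0.19084 := by
    rw [Real.sqrt_le_left (by norm_num)]
    rw [div_le_iff₀ (by positivity)]
    norm_num at *
    linarith
  have h3 : arctan (√(13 * ξ / Z)) ≤ 0.5223 := by
    have h4 : arctan (√(13 * ξ / Z)) ≤ arctan 0.57249 := arctan_mono h1
    have h5 := n4_arctan_le (show (0:ℝ) ≤ 0.57249 by norm_num)
    refine h4.trans (h5.trans ?_)
    norm_num
  have h4 : arcsin (√(13 * ξ / (9 * Z))) ≤ 0.1927 := by
    have h5 := Real.sin_gt_sub_cube (x := 0.1927) (by norm_num)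
    have h6 : √(13 * ξ / (9 * Z)) ≤ sin 0.1927 := by
      refine h2.trans (le_trans ?_ h5.le)
      norm_num
    have h7 := Real.arcsin_le_arcsin h6
    rw [Real.arcsin_sin (by have := Real.pi_gt_three; norm_num at *; linarith)
      (by have := Real.pi_gt_three; norm_num at *; linarith)] at h7
    exact h7
  have h5 : √Z ≤ 1.02847 := by
    rw [Real.sqrt_le_left (by norm_num)]
    norm_num at *
    linarith
  have h6 : 3.1415 * (1 - 3 / 4 * 1.02847) ≤ π * (1 - 3 / (4 : ℝ) * √Z) := by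
    apply mul_le_mul Real.pi_gt_d4.le _ (by norm_num) Real.pi_pos.le
    norm_num at *
    linarith
  norm_num at *
  linarith

theorem no_red4 {x y : Fin 4 → ℝ} (h : Red 4 (4 / 3) x y)
    (hcap : ∀ i, x i ≤ 64 / 9 * (gQ (y i) * (1 - gQ (y i))) ^ 2) : False := by
  obtain ⟨a, b, t, hab, hat, hbt, hxab, hxbt, hx4⟩ := exists_top3 (by norm_num) x
  -- the fourth cell
  obtain ⟨d, hd⟩ : ∃ d, ((Finset.univ.erase a).erase b).erase t = {d} := by
    rw [← Finset.card_eq_one]
    rw [Finset.card_erase_of_mem, Finset.card_erase_of_mem, Finset.card_erase_of_mem]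
    · simp
    · simp
    · simp [hab.symm]
    · simp [hat.symm, hbt.symm]
  have hdmem : d ∈ ((Finset.univ.erase a).erase b).erase t := by rw [hd]; simp
  simp only [Finset.mem_erase, Finset.mem_univ, and_true] at hdmem
  have hd4 := hx4 d hdmem.2.2 hdmem.2.1 hdmem.1
  have hsx := sum_split x a b t hab hat hbt
  have hsa := sum_split (fun i => gQ (y i)) a b t hab hat hbt
  rw [hd, Finset.sum_singleton] at hsx hsa
  have hsum := h.sum
  rw [h.area] at hsa
  have hcell := h.cell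
  have hpos : ∀ i, 0 < x i := fun i => (hcell i).x_pos
  have hhalf : ∀ i, gQ (y i) ≤ 1 / 2 := fun i => n4_gQ_half (hcell i).y_nonneg
  have hQpos : ∀ i, 0 < gQ (y i) := fun i => gQ_pos' _
  have hle : ∀ i, x i ≤ 4 / 9 := fun i => (hcell i).x_le
  have ha9 := hle a
  have hb9 := hle b
  have hd0 := hpos d
  -- Step A
  have hA : x d < 0.045 := by
    by_contra hcon
    rw [not_lt] at hcon
    have p1 := n4_P1 (hcell d) (hcap d) hcon
    have p2 := n4_P1 (hcell t) (hcap t) (hcon.trans hd4)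
    have p3 := n4_P1 (hcell b) (hcap b) ((hcon.trans hd4).trans hxbt)
    have p4 := n4_P1 (hcell a) (hcap a) (((hcon.trans hd4).trans hxbt).trans hxab)
    norm_num at *
    linarith
  have hx3 : 0.066 ≤ x t := by norm_num at *; linarith
  have hbig : ∀ i, 0.066 ≤ x i → 0.06 ≤ gQ (y i) := by
    intro i hi
    by_contra hcon
    rw [not_le] at hcon
    have h1 := hcap i
    have h2 := hQpos i
    have h3 : (gQ (y i) * (1 - gQ (y i))) ^ 2 ≤ 0.06 ^ 2 := by
      apply pow_le_pow_left₀ (mul_nonneg h2.le (by linarith [hhalf i]))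
      have := mul_pos h2 h2
      nlinarith
    norm_num at *
    linarith
  have q3 := n4_P2 (hbig t hx3) (hhalf t) (hcap t)
  have q2 := n4_P2 (hbig b (hx3.trans hxbt)) (hhalf b) (hcap b)
  have q1 := n4_P2 (hbig a ((hx3.trans hxbt).trans hxab)) (hhalf a) (hcap a)
  -- Step B
  have hB : x d < 0.024 := by
    by_contra hcon
    rw [not_lt] at hcon
    have p1 := n4_P2b (hcell d) hcon hA.le
    norm_num at *
    linarith
  -- Step C
  have hC : x a ≤ 3 * x t := by
    by_contra hcon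
    rw [not_le] at hcon
    have ht : x t ≤ 4 / 27 := by linarith
    have p1 := n4_P3a (hQpos a).le (hhalf a) (hcap a)
    have p2 := n4_P3a (hQpos b).le (hhalf b) (hcap b)
    have p3 := n4_P3b (hQpos t).le (hhalf t) ht (hcap t)
    have p4 := n4_P3c (hQpos d).le (hhalf d) hd0.le hB.le (hcap d)
    norm_num at *
    linarith
  -- Step D
  obtain ⟨Z, hZ0, hZ1, hZ2, hZ3⟩ := h.w13 a b t hab hat hbt (by
    intro i hi j hj
    have h1 : x i ≤ x a := by
      rcases hi with rfl | rfl | rfl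
      · exact le_rfl
      · exact hxab
      · exact hxbt.trans hxab
    have h2 : x t ≤ x j := by
      rcases hj with rfl | rfl | rfl
      · exact hxbt.trans hxab
      · exact hxbt
      · exact le_rfl
    linarith)
  have hrest : rest x a b t = x d := by
    unfold rest
    rw [hd, Finset.sum_singleton]
  rw [hrest] at hZ1 hZ2
  unfold lhsW at hZ3
  rw [hrest, hd, Finset.sum_singleton] at hZ3
  have hfin := n4_final (ξ := x d) (Z := Z) hd0.le hB.le (by norm_num at *; linarith)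
    (by have := hQpos d; norm_num at *; linarith)
  push_cast at hZ3
  linarith

end Vale.Agent.P226
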