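import Vale.Agent.P226.Full.NumTools
import Vale.Agent.P226.Full.NumEval
import Vale.Agent.P226.Full.NumCommon

/-!
# P226: tools for the pointwise bounds of `hW`
-/

namespace Vale.Agent.P226

open Real Set

/-- The tangent line of `arctan` at `s1 ≥ 0` lies above it on `[0, ∞)`. -/
theorem arctan_le_tangentH (s1 s : ℝ) (h1 : 0 ≤ s1) (hs : 0 ≤ s) :
    arctan s ≤ arctan s1 + (s - s1) / (1 + s1 ^ 2) := by
  set g : ℝ → ℝ := fun s => arctan s1 + (s - s1) / (1 + s1 ^ 2) - arctan s with hg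
  have hder : ∀ s, HasDerivAt g (1 / (1 + s1 ^ 2) - 1 / (1 + s ^ 2)) s := by
    intro s
    have h := ((((hasDerivAt_id s).sub_const s1).div_const (1 + s1 ^ 2)).const_add
      (arctan s1)).sub (hasDerivAt_arctan s)
    exact h
  have h0 : g s1 = 0 := by simp [hg]
  have key : 0 ≤ g s := by
    rcases le_total s s1 with h | h
    · have hanti : AntitoneOn g (Icc 0 s1) := by
        apply antitoneOn_of_deriv_nonpos (convex_Icc 0 s1)
        · exact fun x _ => (hder x).continuousAt.continuousWithinAt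
        · exact fun x _ => (hder x).differentiableAt.differentiableWithinAt
        · intro x hx
          rw [interior_Icc] at hx
          rw [(hder x).deriv, sub_nonpos]
          have hxx : x ^ 2 ≤ s1 ^ 2 := pow_le_pow_left₀ hx.1.le hx.2.le 2
          exact one_div_le_one_div_of_le (by positivity) (by linarith)
      have := hanti ⟨hs, h⟩ ⟨h1, le_rfl⟩ h
      rw [h0] at this
      exact this
    · have hmono : MonotoneOn g (Ici s1) := by
        apply monotoneOn_of_deriv_nonneg (convex_Ici s1)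
        · exact fun x _ => (hder x).continuousAt.continuousWithinAt
        · exact fun x _ => (hder x).differentiableAt.differentiableWithinAt
        · intro x hx
          rw [interior_Ici] at hx
          rw [(hder x).deriv, sub_nonneg]
          have hxx : s1 ^ 2 ≤ x ^ 2 := pow_le_pow_left₀ h1 (le_of_lt hx) 2
          exact one_div_le_one_div_of_le (by positivity) (by linarith)
      have := hmono (mem_Ici.2 le_rfl) (mem_Ici.2 h) h
      rw [h0] at this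
      exact this
  simp only [hg] at key
  linarith

theorem arctan_le_self' {s : ℝ} (hs : 0 ≤ s) : arctan s ≤ s := by
  have := arctan_le_tangentH 0 s le_rfl hs
  simpa using this

theorem geom_alt (n : ℕ) (s : ℝ) :
    (1 + s ^ 2) * ∑ i ∈ Finset.range n, (-1) ^ i * s ^ (2 * i) = 1 - (-1) ^ n * s ^ (2 * n) := by
  induction n with
  | zero => simp
  | succ n ih =>
    rw [Finset.sum_range_succ, mul_add, ih]
    ring

/-- Partial sums of the `arctan` series. -/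
noncomputable def atser (n : ℕ) (s : ℝ) : ℝ :=
  ∑ i ∈ Finset.range n, (-1) ^ i * s ^ (2 * i + 1) / (2 * i + 1)

theorem hasDerivAt_atser (n : ℕ) (s : ℝ) :
    HasDerivAt (atser n) (∑ i ∈ Finset.range n, (-1) ^ i * s ^ (2 * i)) s := by
  unfold atser
  apply HasDerivAt.fun_sum
  intro i _
  have h := (((hasDerivAt_pow (2 * i + 1) s).const_mul ((-1 : ℝ) ^ i))).div_const (2 * (i : ℝ) + 1)
  refine h.congr_deriv ?_
  have : (2 * (i : ℝ) + 1) ≠ 0 := by positivity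
  simp only [Nat.add_sub_cancel]
  push_cast
  field_simp

theorem hasDerivAt_atser_sub (n : ℕ) (s : ℝ) :
    HasDerivAt (fun s => atser n s - arctan s) (-((-1) ^ n * s ^ (2 * n)) / (1 + s ^ 2)) s := by
  refine ((hasDerivAt_atser n s).sub (hasDerivAt_arctan s)).congr_deriv ?_
  have h := geom_alt n s
  have h1 : (1 + s ^ 2) ≠ 0 := by positivity
  field_simp
  linarith

theorem atser_zero (n : ℕ) : atser n 0 = 0 := by
  unfold atser
  apply Finset.sum_eq_zero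
  intro i _
  simp

theorem arctan_le_atser (n : ℕ) {s : ℝ} (hs : 0 ≤ s) : arctan s ≤ atser (2 * n + 1) s := by
  have hmono : MonotoneOn (fun s => atser (2 * n + 1) s - arctan s) (Ici 0) := by
    apply monotoneOn_of_deriv_nonneg (convex_Ici 0)
    · exact fun x _ => (hasDerivAt_atser_sub _ x).continuousAt.continuousWithinAt
    · exact fun x _ => (hasDerivAt_atser_sub _ x).differentiableAt.differentiableWithinAt
    · intro x hx
      rw [interior_Ici] at hx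
      rw [(hasDerivAt_atser_sub _ x).deriv]
      have hx0 : (0 : ℝ) ≤ x := le_of_lt hx
      have : (-1 : ℝ) ^ (2 * n + 1) = -1 := by
        rw [pow_succ, pow_mul]; simp
      rw [this]
      apply div_nonneg _ (by positivity)
      have := pow_nonneg hx0 (2 * (2 * n + 1))
      linarith
  have := hmono (mem_Ici.2 le_rfl) (mem_Ici.2 hs) hs
  simp only [atser_zero, arctan_zero] at this
  linarith

theorem atser_le_arctan (n : ℕ) {s : ℝ} (hs : 0 ≤ s) : atser (2 * n) s ≤ arctan s := by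
  have hanti : AntitoneOn (fun s => atser (2 * n) s - arctan s) (Ici 0) := by
    apply antitoneOn_of_deriv_nonpos (convex_Ici 0)
    · exact fun x _ => (hasDerivAt_atser_sub _ x).continuousAt.continuousWithinAt
    · exact fun x _ => (hasDerivAt_atser_sub _ x).differentiableAt.differentiableWithinAt
    · intro x hx
      rw [interior_Ici] at hx
      rw [(hasDerivAt_atser_sub _ x).deriv]
      have hx0 : (0 : ℝ) ≤ x := le_of_lt hx
      have : (-1 : ℝ) ^ (2 * n) = 1 := by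
        rw [pow_mul]; simp
      rw [this]
      apply div_nonpos_of_nonpos_of_nonneg _ (by positivity)
      have := pow_nonneg hx0 (2 * (2 * n))
      linarith
  have := hanti (mem_Ici.2 le_rfl) (mem_Ici.2 hs) hs
  simp only [atser_zero, arctan_zero] at this
  linarith

/-- `arctan s = π/4 + arctan ((s-1)/(s+1))` for `s > 0`. -/
theorem arctan_eq_quarter {s : ℝ} (hs : 0 < s) : arctan s = π / 4 + arctan ((s - 1) / (s + 1)) := by
  have h1 : (1 : ℝ) * ((s - 1) / (s + 1)) < 1 := by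
    rw [one_mul, div_lt_one (by linarith)]
    linarith
  rw [← arctan_one, arctan_add h1]
  congr 1
  have : s + 1 ≠ 0 := by positivity
  field_simp
  ring

/-- Polynomial upper bound for `arcsin` on `[0, v0]`. -/
theorem arcsin_le_poly (c v0 v : ℝ) (hc : 0 ≤ c) (hc1 : c ≤ 1) (h0 : 0 ≤ v) (h1 : v ≤ v0)
    (hv0 : v0 < 1)
    (hw : 0 ≤ (2 * c - 3 / 4) - (1 / 4 + c) * v0 ^ 2 - (c - c ^ 2) * v0 ^ 4 - c ^ 2 * v0 ^ 6) :
    arcsin v ≤ v + v ^ 3 / 6 + c / 5 * v ^ 5 := by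
  set g : ℝ → ℝ := fun v => v + v ^ 3 / 6 + c / 5 * v ^ 5 - arcsin v with hg
  have hder : ∀ s, 0 ≤ s → s < 1 → HasDerivAt g (1 + s ^ 2 / 2 + c * s ^ 4 - 1 / √(1 - s ^ 2)) s := by
    intro s h0 h1
    have h := (((hasDerivAt_id s).add ((hasDerivAt_pow 3 s).div_const 6)).add
      ((hasDerivAt_pow 5 s).const_mul (c / 5))).sub
      (hasDerivAt_arcsin (x := s) (by linarith) (by linarith))
    refine h.congr_deriv ?_
    norm_num
    ring
  have hmono : MonotoneOn g (Icc 0 v0) := by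
    apply monotoneOn_of_deriv_nonneg (convex_Icc 0 v0)
    · exact fun x hx => (hder x hx.1 (lt_of_le_of_lt hx.2 hv0)).continuousAt.continuousWithinAt
    · intro x hx
      rw [interior_Icc] at hx
      exact (hder x hx.1.le (hx.2.trans hv0)).differentiableAt.differentiableWithinAt
    · intro x hx
      rw [interior_Icc] at hx
      rw [(hder x hx.1.le (hx.2.trans hv0)).deriv, sub_nonneg]
      have hx0 := hx.1.le
      have hxx : x ^ 2 ≤ v0 ^ 2 := pow_le_pow_left₀ hx0 hx.2.le 2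
      have hx4 : x ^ 4 ≤ v0 ^ 4 := pow_le_pow_left₀ hx0 hx.2.le 4
      have hx6 : x ^ 6 ≤ v0 ^ 6 := pow_le_pow_left₀ hx0 hx.2.le 6
      have hx1 : x ^ 2 < 1 := by nlinarith [hx.1, hx.2]
      have hP : 0 < 1 + x ^ 2 / 2 + c * x ^ 4 := by positivity
      rw [div_le_iff₀ (by apply sqrt_pos.2; linarith)]
      have hsq : 1 ≤ (1 + x ^ 2 / 2 + c * x ^ 4) ^ 2 * (1 - x ^ 2) := by
        have e : (1 + x ^ 2 / 2 + c * x ^ 4) ^ 2 * (1 - x ^ 2) = 1 + x ^ 4 *
            ((2 * c - 3 / 4) - (1 / 4 + c) * x ^ 2 - (c - c ^ 2) * x ^ 4 - c ^ 2 * x ^ 6) := by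
          ring
        rw [e]
        have i1 := mul_le_mul_of_nonneg_left hxx (show 0 ≤ 1 / 4 + c by linarith)
        have i2 := mul_le_mul_of_nonneg_left hx4 (show 0 ≤ c - c ^ 2 by nlinarith)
        have i3 := mul_le_mul_of_nonneg_left hx6 (show 0 ≤ c ^ 2 by positivity)
        have i4 : 0 ≤ x ^ 4 := by positivity
        have := mul_nonneg i4 (show 0 ≤ (2 * c - 3 / 4) - (1 / 4 + c) * x ^ 2
          - (c - c ^ 2) * x ^ 4 - c ^ 2 * x ^ 6 by linarith)
        linarith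
      have e2 : (1 + x ^ 2 / 2 + c * x ^ 4) * √(1 - x ^ 2)
          = √((1 + x ^ 2 / 2 + c * x ^ 4) ^ 2 * (1 - x ^ 2)) := by
        rw [sqrt_mul (by positivity), sqrt_sq hP.le]
      rw [e2]
      exact one_le_sqrt.2 hsq
  have := hmono (a := 0) (b := v) ⟨le_rfl, h0.trans h1⟩ ⟨h0, h1⟩ h0
  simp only [hg, arcsin_zero] at this
  norm_num at this
  linarith

theorem hW_eq {x Z : ℝ} : hW 13 x Z = arctan (√(13 * x / Z)) + arcsin (√(13 * x / Z) / 3) := by
  unfold hW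
  congr 2
  have : 13 * x / (9 * Z) = 13 * x / Z / 3 ^ 2 := by ring
  rw [this, sqrt_div' _ (by norm_num), sqrt_sq (by norm_num)]

/-- Tangent line bound `hW 13 x Z ≤ A + B x` on `13 x / Z ≤ s0²`; `C = B Z / 13`,
`κ = c / 1215`. -/
theorem hW_tangent (Z B c s0 s1 α A x C κ : ℝ) (hZ : 0 < Z) (hC : C = B * Z / 13)
    (hκ : κ = c / 1215)
    (hc : 0 ≤ c) (hc1 : c ≤ 1) (hs1 : 0 ≤ s1) (hs0 : 0 ≤ s0) (hs03 : s0 < 3)
    (hw : 0 ≤ (2 * c - 3 / 4) - (1 / 4 + c) * (s0 / 3) ^ 2 - (c - c ^ 2) * (s0 / 3) ^ 4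
      - c ^ 2 * (s0 / 3) ^ 6)
    (hα : arctan s1 ≤ α) (hx : 0 ≤ x) (hx1 : 13 * x / Z ≤ s0 ^ 2)
    (hD : 0 ≤ C - (s0 + 2 * s1) / 162
      - κ * (s0 ^ 3 + 2 * s0 ^ 2 * s1 + 3 * s0 * s1 ^ 2 + 4 * s1 ^ 3))
    (hE : 0 ≤ A + C * s1 ^ 2 - α - (s1 / 3 + s1 ^ 3 / 162 + κ * s1 ^ 5)
      - (2 * C * s1 - 1 / (1 + s1 ^ 2) - (1 / 3 + s1 ^ 2 / 54 + 5 * κ * s1 ^ 4)) * s1)
    (hF : 0 ≤ A + C * s1 ^ 2 - α - (s1 / 3 + s1 ^ 3 / 162 + κ * s1 ^ 5)
      + (2 * C * s1 - 1 / (1 + s1 ^ 2) - (1 / 3 + s1 ^ 2 / 54 + 5 * κ * s1 ^ 4)) * (s0 - s1)) :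
    hW 13 x Z ≤ A + B * x := by
  rw [hW_eq]
  set s := √(13 * x / Z) with hs
  have hsnn : 0 ≤ s := sqrt_nonneg _
  have hs2 : s ^ 2 = 13 * x / Z := sq_sqrt (by positivity)
  have hss0 : s ≤ s0 := by
    rw [hs]
    exact (sqrt_le_left hs0).2 hx1
  have hBx : B * x = C * s ^ 2 := by
    rw [hs2, hC]
    field_simp
  have h1 := arctan_le_tangentH s1 s hs1 hsnn
  have h2 := arcsin_le_poly c (s0 / 3) (s / 3) hc hc1 (by positivity) (by linarith) (by linarith) hw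
  have hk0 : 0 ≤ κ := by rw [hκ]; positivity
  have e : A + C * s ^ 2 - (α + (s - s1) / (1 + s1 ^ 2)) - (s / 3 + s ^ 3 / 162 + κ * s ^ 5)
      = (A + C * s1 ^ 2 - α - (s1 / 3 + s1 ^ 3 / 162 + κ * s1 ^ 5))
        + (2 * C * s1 - 1 / (1 + s1 ^ 2) - (1 / 3 + s1 ^ 2 / 54 + 5 * κ * s1 ^ 4)) * (s - s1)
        + (s - s1) ^ 2 * (C - (s + 2 * s1) / 162
          - κ * (s ^ 3 + 2 * s ^ 2 * s1 + 3 * s * s1 ^ 2 + 4 * s1 ^ 3)) := by
    ring
  have e3 : s / 3 + (s / 3) ^ 3 / 6 + c / 5 * (s / 3) ^ 5 = s / 3 + s ^ 3 / 162 + κ * s ^ 5 := by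
    rw [hκ]; ring
  rw [e3] at h2
  have i1 : 0 ≤ C - (s + 2 * s1) / 162
      - κ * (s ^ 3 + 2 * s ^ 2 * s1 + 3 * s * s1 ^ 2 + 4 * s1 ^ 3) := by
    have j3 : s ^ 3 ≤ s0 ^ 3 := pow_le_pow_left₀ hsnn hss0 3
    have j2 : s ^ 2 * s1 ≤ s0 ^ 2 * s1 :=
      mul_le_mul_of_nonneg_right (pow_le_pow_left₀ hsnn hss0 2) hs1
    have j1 : s * s1 ^ 2 ≤ s0 * s1 ^ 2 := mul_le_mul_of_nonneg_right hss0 (by positivity)
    have := mul_le_mul_of_nonneg_left (show s ^ 3 + 2 * s ^ 2 * s1 + 3 * s * s1 ^ 2 + 4 * s1 ^ 3 ≤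
      s0 ^ 3 + 2 * s0 ^ 2 * s1 + 3 * s0 * s1 ^ 2 + 4 * s1 ^ 3 by linarith) hk0
    linarith
  have i2 : 0 ≤ (s - s1) ^ 2 * (C - (s + 2 * s1) / 162
      - κ * (s ^ 3 + 2 * s ^ 2 * s1 + 3 * s * s1 ^ 2 + 4 * s1 ^ 3)) := mul_nonneg (sq_nonneg _) i1
  have i3 : 0 ≤ (A + C * s1 ^ 2 - α - (s1 / 3 + s1 ^ 3 / 162 + κ * s1 ^ 5))
        + (2 * C * s1 - 1 / (1 + s1 ^ 2) - (1 / 3 + s1 ^ 2 / 54 + 5 * κ * s1 ^ 4)) * (s - s1) := by
    have aux : ∀ E F : ℝ, 0 ≤ E - F * s1 → 0 ≤ E + F * (s0 - s1) → 0 ≤ E + F * (s - s1) := by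
      intro E F a1 a2
      rcases le_total 0 F with hF0 | hF0
      · have := mul_nonneg hF0 hsnn
        linarith
      · have := mul_nonneg (neg_nonneg.2 hF0) (sub_nonneg.2 hss0)
        linarith
    exact aux _ _ hE hF
  rw [hBx]
  linarith

/-- On a segment of `y`'s. -/
theorem seg_bound {q x y : ℝ} (h : CellOK q x y) (hq0 : 0 ≤ q) (hq : q ≤ 5 / 4)
    (K m β A B y1 y2 : ℝ) (hK : 0 < K) (hm : 0 ≤ K * m - β + B) (h1 : 0.48 ≤ y1)
    (hy1 : y1 ≤ y) (hy2 : y ≤ y2)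
    (e1 : A ≤ K * gQ y1 - (K * m - β + B) * XE q y1)
    (e2 : A ≤ K * gQ y2 - (K * m - β + B) * XE q y2) :
    A + B * x ≤ K * (gQ y - m * x) + β * x := by
  have h3 := quasi_E q ((K * m - β + B) / K) y1 y2 y hq0 hq (by positivity) h1 hy1 hy2
  have h4 : A / K ≤ gQ y - (K * m - β + B) / K * XE q y := by
    refine le_trans (le_min ?_ ?_) h3
    · rw [div_le_iff₀ hK]
      have : (gQ y1 - (K * m - β + B) / K * XE q y1) * K
        = K * gQ y1 - (K * m - β + B) * XE q y1 := by field_simp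
      rw [this]; exact e1
    · rw [div_le_iff₀ hK]
      have : (gQ y2 - (K * m - β + B) / K * XE q y2) * K
        = K * gQ y2 - (K * m - β + B) * XE q y2 := by field_simp
      rw [this]; exact e2
  rw [div_le_iff₀ hK] at h4
  have h5 : (gQ y - (K * m - β + B) / K * XE q y) * K
        = K * gQ y - (K * m - β + B) * XE q y := by field_simp
  rw [h5] at h4
  have h6 := mul_le_mul_of_nonneg_left h.del hm
  linarith

/-- For `y ≤ y0` use only `x ≤ x0`. -/
theorem head_bound {x y : ℝ} (K m β A B x0 y0 : ℝ) (hK : 0 < K) (hm : 0 ≤ K * m - β + B)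
    (hy : y ≤ y0) (hx : x ≤ x0) (e : A + (K * m - β + B) * x0 ≤ K * gQ y0) :
    A + B * x ≤ K * (gQ y - m * x) + β * x := by
  have h1 := mul_le_mul_of_nonneg_left (gQ_antitone hy) hK.le
  have h2 := mul_le_mul_of_nonneg_left hx hm
  linarith

/-- Tail bound: `y ≥ Y`, `gQ Y ≤ u`, `ρ² ≥ 26 / (0.3580986 Z)`. -/
theorem tail_bound {q x y : ℝ} (h : CellOK q x y) (hq0 : 0 ≤ q)
    (Z K m β Y u ρ δ : ℝ) (hZ : 0 < Z) (hm : 0 ≤ K * m - β) (hρ0 : 0 ≤ ρ)
    (hY : 0 ≤ Y) (hy : Y ≤ y) (hu : gQ Y ≤ u) (hρ : 26 / (0.3580986 * Z) ≤ ρ ^ 2)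
    (hδ0 : 0 ≤ δ) (hu3 : ρ * u / 3 ≤ 0.4)
    (hδ : (ρ * u / 3) ^ 2 / 6 + 0.44 / 5 * (ρ * u / 3) ^ 4 ≤ δ)
    (e : ρ * (1 + (1 + δ) / 3) ≤ K - (K * m - β) * (2 * u / 0.3580986)) :
    hW 13 x Z ≤ K * (gQ y - m * x) + β * x := by
  have hM := M0_bounds.1
  have hy0 : 0 ≤ y := hY.trans hy
  have hQ0 := gQ_pos' y
  have hQu : gQ y ≤ u := (gQ_antitone hy).trans hu
  have hu0 : 0 < u := hQ0.trans_le hQu
  have hell := ell_le_sq y hy0
  have hxE : x ≤ 2 * (ell y / M0) := by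
    have h1 := h.del
    unfold XE at h1
    have : 0 ≤ q * (ell y / M0) ^ 2 := by positivity
    linarith
  have hx2 : x ≤ 2 * gQ y ^ 2 / 0.3580986 := by
    refine hxE.trans ?_
    have h1 : ell y / M0 ≤ gQ y ^ 2 / 0.3580986 :=
      div_le_div₀ (by positivity) hell (by norm_num) hM.le
    calc 2 * (ell y / M0) ≤ 2 * (gQ y ^ 2 / 0.3580986) := by linarith
      _ = _ := by ring
  rw [hW_eq]
  set s := √(13 * x / Z) with hs
  have hsnn : 0 ≤ s := sqrt_nonneg _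
  have hsr : s ≤ ρ * gQ y := by
    rw [hs]
    apply (sqrt_le_left (by positivity)).2
    rw [mul_pow]
    calc 13 * x / Z ≤ 13 * (2 * gQ y ^ 2 / 0.3580986) / Z := by gcongr
      _ = 26 / (0.3580986 * Z) * gQ y ^ 2 := by
        field_simp
        norm_num
      _ ≤ ρ ^ 2 * gQ y ^ 2 := mul_le_mul_of_nonneg_right hρ (by positivity)
  have hsu : s ≤ ρ * u := hsr.trans (mul_le_mul_of_nonneg_left hQu hρ0)
  have h1 := arctan_le_self' hsnn
  have h2 := arcsin_le_poly 0.44 0.4 (s / 3) (by norm_num) (by norm_num) (by positivity)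
    (by linarith) (by norm_num) (by norm_num)
  have h3 : s / 3 + (s / 3) ^ 3 / 6 + 0.44 / 5 * (s / 3) ^ 5 ≤ (1 + δ) * (s / 3) := by
    have hv : s / 3 ≤ ρ * u / 3 := by linarith
    have hv2 : (s / 3) ^ 2 ≤ (ρ * u / 3) ^ 2 := pow_le_pow_left₀ (by positivity) hv 2
    have hv4 : (s / 3) ^ 4 ≤ (ρ * u / 3) ^ 4 := pow_le_pow_left₀ (by positivity) hv 4
    have : (s / 3) * ((s / 3) ^ 2 / 6 + 0.44 / 5 * (s / 3) ^ 4) ≤ (s / 3) * δ := by
      apply mul_le_mul_of_nonneg_left _ (by positivity)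
      linarith
    linarith [this]
  have h4 : arctan s + arcsin (s / 3) ≤ (1 + (1 + δ) / 3) * s := by linarith
  have h5 : (1 + (1 + δ) / 3) * s ≤ (1 + (1 + δ) / 3) * (ρ * gQ y) :=
    mul_le_mul_of_nonneg_left hsr (by positivity)
  have h6 : (K * m - β) * x ≤ (K * m - β) * (2 * u / 0.3580986) * gQ y := by
    have : x ≤ 2 * u / 0.3580986 * gQ y := by
      refine hx2.trans ?_
      have : gQ y ^ 2 ≤ u * gQ y := by nlinarith
      calc 2 * gQ y ^ 2 / 0.3580986 ≤ 2 * (u * gQ y) / 0.3580986 := by gcongr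
        _ = _ := by ring
    have := mul_le_mul_of_nonneg_left this hm
    linarith
  have h7 := mul_le_mul_of_nonneg_right e hQ0.le
  linarith

end Vale.Agent.P226
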