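import Vale.Agent.P226.Full.NumTools
import Vale.Agent.P226.Full.NumCommon
import Vale.Agent.P226.Full.PtwTools

/-! Task P226-N5P: pointwise bound for small cells, `q = 5/4`. -/

namespace Vale.Agent.P226

variable {x y : ℝ}

open Real

theorem arctan_a1 : arctan 1.2465 ≤ 0.89469 := by
  rw [arctan_eq_quarter (by norm_num)]
  have h := arctan_le_atser 1 (s := (1.2465 - 1) / (1.2465 + 1)) (by norm_num)
  have hpi := pi_lt_d6
  have e : atser (2 * 1 + 1) ((1.2465 - 1) / (1.2465 + 1)) ≤ 0.109291 := by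
    norm_num [atser, Finset.sum_range_succ]
  linarith

theorem arctan_a2 : arctan 0.674 ≤ 0.593065 := by
  rw [arctan_eq_quarter (by norm_num)]
  have h := atser_le_arctan 2 (s := (1 - 0.674) / (0.674 + 1)) (by norm_num)
  have hpi := pi_lt_d6
  have e : 0.192335 ≤ atser (2 * 2) ((1 - 0.674) / (0.674 + 1)) := by
    norm_num [atser, Finset.sum_range_succ]
  have e2 : ((0.674 : ℝ) - 1) / (0.674 + 1) = -((1 - 0.674) / (0.674 + 1)) := by norm_num
  rw [e2, arctan_neg]
  linarith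

theorem arctan_a3 : arctan 0.2995 ≤ 0.291 := by
  have h := arctan_le_atser 2 (s := 0.2995) (by norm_num)
  have e : atser (2 * 2 + 1) 0.2995 ≤ 0.291 := by
    norm_num [atser, Finset.sum_range_succ]
  linarith

theorem n5_tan1 (hx : 0 ≤ x) (hx1 : x ≤ 0.126) : hW 13 x 0.875 ≤ 0.8510 + 4.519 * x := by
  refine hW_tangent 0.875 4.519 0.46 1.3683 1.2465 0.89469 0.8510 x (4.519 * 0.875 / 13)
    (0.46 / 1215) (by norm_num) rfl rfl (by norm_num) (by norm_num) (by norm_num) (by norm_num)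
    (by norm_num) (by norm_num) arctan_a1 hx ?_ (by norm_num) (by norm_num) (by norm_num)
  rw [div_le_iff₀ (by norm_num)]
  linarith

theorem n5_tan2 (hx : 0 ≤ x) (hx1 : x ≤ 0.126) : hW 13 x 0.875 ≤ 0.4730 + 11.35 * x := by
  refine hW_tangent 0.875 11.35 0.46 1.3683 0.674 0.593065 0.4730 x (11.35 * 0.875 / 13)
    (0.46 / 1215) (by norm_num) rfl rfl (by norm_num) (by norm_num) (by norm_num) (by norm_num)
    (by norm_num) (by norm_num) arctan_a2 hx ?_ (by norm_num) (by norm_num) (by norm_num)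
  rw [div_le_iff₀ (by norm_num)]
  linarith

theorem n5_tan3 (hx : 0 ≤ x) (hx1 : x ≤ 0.126) : hW 13 x 0.875 ≤ 0.2040 + 31.07 * x := by
  refine hW_tangent 0.875 31.07 0.46 1.3683 0.2995 0.291 0.2040 x (31.07 * 0.875 / 13)
    (0.46 / 1215) (by norm_num) rfl rfl (by norm_num) (by norm_num) (by norm_num) (by norm_num)
    (by norm_num) (by norm_num) arctan_a3 hx ?_ (by norm_num) (by norm_num) (by norm_num)
  rw [div_le_iff₀ (by norm_num)]
  linarith

theorem n5_e1 : 0.17207 ≤ gQ 0.946 ∧ XE (5 / 4) 0.946 ≤ 0.12599 := by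
  have h := gQ_eval 10 (946 / 1000) (17207 / 100000) (17208 / 100000) (by decide +kernel)
  have h2 := XE_eval 10 (5 / 4) (946 / 1000) (12598 / 100000) (12599 / 100000) (by decide +kernel)
  have e : (((946 / 1000 : ℚ)) : ℝ) = 0.946 := by norm_num
  have e2 : (((5 / 4 : ℚ)) : ℝ) = 5 / 4 := by norm_num
  rw [e] at h h2
  rw [e2] at h2
  norm_num at h h2 ⊢
  exact ⟨h.1, h2.2⟩

theorem n5_e2 : 0.11047 ≤ gQ 1.224 ∧ XE (5 / 4) 1.224 ≤ 0.05527 := by
  have h := gQ_eval 10 (1224 / 1000) (11047 / 100000) (11048 / 100000) (by decide +kernel)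
  have h2 := XE_eval 10 (5 / 4) (1224 / 1000) (5526 / 100000) (5527 / 100000) (by decide +kernel)
  have e : (((1224 / 1000 : ℚ)) : ℝ) = 1.224 := by norm_num
  have e2 : (((5 / 4 : ℚ)) : ℝ) = 5 / 4 := by norm_num
  rw [e] at h h2
  rw [e2] at h2
  norm_num at h h2 ⊢
  exact ⟨h.1, h2.2⟩

theorem n5_e3 : 0.05337 ≤ gQ 1.613 ∧ XE (5 / 4) 1.613 ≤ 0.01362 := by
  have h := gQ_eval 12 (1613 / 1000) (5337 / 100000) (5338 / 100000) (by decide +kernel)
  have h2 := XE_eval 12 (5 / 4) (1613 / 1000) (1361 / 100000) (1362 / 100000) (by decide +kernel)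
  have e : (((1613 / 1000 : ℚ)) : ℝ) = 1.613 := by norm_num
  have e2 : (((5 / 4 : ℚ)) : ℝ) = 5 / 4 := by norm_num
  rw [e] at h h2
  rw [e2] at h2
  norm_num at h h2 ⊢
  exact ⟨h.1, h2.2⟩

theorem n5_e4 : 0.02558 ≤ gQ 1.95 ∧ XE (5 / 4) 1.95 ≤ 0.00323 ∧ gQ 1.95 ≤ 0.0256 := by
  have h := gQ_eval 14 (195 / 100) (2558 / 100000) (256 / 10000) (by decide +kernel)
  have h2 := XE_eval 14 (5 / 4) (195 / 100) (322 / 100000) (323 / 100000) (by decide +kernel)
  have e : (((195 / 100 : ℚ)) : ℝ) = 1.95 := by norm_num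
  have e2 : (((5 / 4 : ℚ)) : ℝ) = 5 / 4 := by norm_num
  rw [e] at h h2
  rw [e2] at h2
  norm_num at h h2 ⊢
  exact ⟨h.1, h2.2, h.2⟩

-- (hW - 0.9424 x)/(a - 0.61 x) has maximum 13.594 (at x = 0.126)
theorem n5_ptw (h : CellOK (5 / 4) x y) (hx : x ≤ 0.126) :
    hW 13 x 0.875 ≤ 13.7 * (gQ y - 0.61 * x) + 0.9424 * x := by
  obtain ⟨a1, b1⟩ := n5_e1
  obtain ⟨a2, b2⟩ := n5_e2
  obtain ⟨a3, b3⟩ := n5_e3
  obtain ⟨a4, b4, c4⟩ := n5_e4
  rcases le_total y 0.946 with hy | hy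
  · exact (n5_tan1 h.x_pos.le hx).trans (head_bound 13.7 0.61 0.9424 0.8510 4.519 0.126 0.946
      (by norm_num) (by norm_num) hy hx (by norm_num; linarith))
  rcases le_total y 1.224 with hy2 | hy2
  · exact (n5_tan1 h.x_pos.le hx).trans (seg_bound h (by norm_num) (by norm_num)
      13.7 0.61 0.9424 0.8510 4.519 0.946 1.224
      (by norm_num) (by norm_num) (by norm_num) hy hy2 (by norm_num at *; linarith)
      (by norm_num at *; linarith))
  rcases le_total y 1.613 with hy3 | hy3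
  · exact (n5_tan2 h.x_pos.le hx).trans (seg_bound h (by norm_num) (by norm_num)
      13.7 0.61 0.9424 0.4730 11.35 1.224 1.613
      (by norm_num) (by norm_num) (by norm_num) hy2 hy3 (by norm_num at *; linarith)
      (by norm_num at *; linarith))
  rcases le_total y 1.95 with hy4 | hy4
  · exact (n5_tan3 h.x_pos.le hx).trans (seg_bound h (by norm_num) (by norm_num)
      13.7 0.61 0.9424 0.2040 31.07 1.613 1.95
      (by norm_num) (by norm_num) (by norm_num) hy3 hy4 (by norm_num at *; linarith)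
      (by norm_num at *; linarith))
  · exact tail_bound h (by norm_num) 0.875 13.7 0.61 0.9424 1.95 0.0256 9.1093 0.002
      (by norm_num) (by norm_num) (by norm_num) (by norm_num) hy4 c4 (by norm_num) (by norm_num)
      (by norm_num) (by norm_num) (by norm_num)

end Vale.Agent.P226
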