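import Vale.Agent.P226.Full.Num5Lines
import Vale.Agent.P226.Full.Num5Ptw

/-! Task P226-N5F: no reduced configuration for `k = 5`. -/

namespace Vale.Agent.P226

open Real

/-- the function of `r = √Z`. -/
lemma n5_mono_aux (a b c r1 r2 : ℝ) (ha : 0 ≤ a) (hb : 0 ≤ b) (hc : 0 ≤ c)
    (hc2 : c ^ 2 ≤ 0.17507) (h1 : 0.87 ≤ r1) (h1' : 0.7575 ≤ r1 ^ 2) (h12 : r1 ≤ r2) :
    arctan (a / r1) + arctan (b / r1) + arcsin (c / r1) + 0.6 * π * r1 ≤
    arctan (a / r2) + arctan (b / r2) + arcsin (c / r2) + 0.6 * π * r2 := by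
  have hr1 : 0 < r1 := by linarith
  have hs : ∀ r, r1 ≤ r → (c / r) ^ 2 ≤ 0.2312 := by
    intro r hr
    have hr0 : 0 < r := by linarith
    rw [div_pow, div_le_iff₀ (by positivity)]
    have : r1 ^ 2 ≤ r ^ 2 := pow_le_pow_left₀ hr1.le hr 2
    nlinarith
  have hs1 : ∀ r, r1 ≤ r → c / r < 1 ∧ 0 ≤ c / r := by
    intro r hr
    have hr0 : 0 < r := by linarith
    have h := hs r hr
    have h0 : 0 ≤ c / r := by positivity
    constructor
    · nlinarith
    · exact h0
  have hder : ∀ r, r1 ≤ r → HasDerivAt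
      (fun r => arctan (a / r) + arctan (b / r) + arcsin (c / r) + 0.6 * π * r)
      (1 / (1 + (a / r) ^ 2) * (-a / r ^ 2) + 1 / (1 + (b / r) ^ 2) * (-b / r ^ 2)
        + 1 / √(1 - (c / r) ^ 2) * (-c / r ^ 2) + 0.6 * π) r := by
    intro r hr
    have hr0 : r ≠ 0 := by linarith
    have hdiv : ∀ k : ℝ, HasDerivAt (fun r => k / r) (-k / r ^ 2) r := by
      intro k
      have := (hasDerivAt_inv hr0).const_mul k
      refine (this.congr_deriv (by field_simp)).congr_of_eventuallyEq
        (Filter.Eventually.of_forall fun s => ?_)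
      simp [div_eq_mul_inv]
    have e1 := (Real.hasDerivAt_arctan (a / r)).comp r (hdiv a)
    have e2 := (Real.hasDerivAt_arctan (b / r)).comp r (hdiv b)
    have e3 := (Real.hasDerivAt_arcsin (x := c / r) (by linarith [(hs1 r hr).2])
      (by linarith [(hs1 r hr).1])).comp r (hdiv c)
    have e4 : HasDerivAt (fun r : ℝ => 0.6 * π * r) (0.6 * π) r := by
      simpa using (hasDerivAt_id r).const_mul (0.6 * π)
    exact ((e1.fun_add e2).fun_add e3).fun_add e4
  have hmono : MonotoneOn
      (fun r => arctan (a / r) + arctan (b / r) + arcsin (c / r) + 0.6 * π * r)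
      (Set.Icc r1 r2) := by
    apply monotoneOn_of_deriv_nonneg (convex_Icc _ _)
    · intro r hr
      exact (hder r hr.1).continuousAt.continuousWithinAt
    · intro r hr
      rw [interior_Icc] at hr
      exact (hder r hr.1.le).differentiableAt.differentiableWithinAt
    · intro r hr
      rw [interior_Icc] at hr
      rw [(hder r hr.1.le).deriv]
      have hrr : r1 ≤ r := hr.1.le
      have hr0 : 0 < r := by linarith
      have hat : ∀ k : ℝ, 0 ≤ k → -(1 / (2 * r)) ≤ 1 / (1 + (k / r) ^ 2) * (-k / r ^ 2) := by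
        intro k hk
        have : 1 / (1 + (k / r) ^ 2) * (-k / r ^ 2) = -(k / (r ^ 2 + k ^ 2)) := by
          field_simp
        rw [this, neg_le_neg_iff, div_le_div_iff₀ (by positivity) (by positivity)]
        nlinarith [sq_nonneg (r - k)]
      have h3 : -(0.5485 / r) ≤ 1 / √(1 - (c / r) ^ 2) * (-c / r ^ 2) := by
        have hsq := hs r hrr
        have hpos : 0 < 1 - (c / r) ^ 2 := by linarith
        have hsp : 0 < √(1 - (c / r) ^ 2) := Real.sqrt_pos.2 hpos
        have e : 1 / √(1 - (c / r) ^ 2) * (-c / r ^ 2) = -((c / r) / √(1 - (c / r) ^ 2) / r) := by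
          field_simp
        rw [e, neg_le_neg_iff]
        apply div_le_div_of_nonneg_right _ hr0.le
        rw [div_le_iff₀ hsp]
        have h5 : c / r ≤ √(0.2312) := Real.le_sqrt_of_sq_le hsq
        have h6 : √(0.2312:ℝ) ≤ 0.4809 := by
          rw [Real.sqrt_le_left (by norm_num)]; norm_num
        have h7 : (0.8768:ℝ) ≤ √(1 - (c / r) ^ 2) := by
          apply Real.le_sqrt_of_sq_le
          norm_num at hsq ⊢
          linarith
        norm_num at h5 h6 h7 ⊢
        linarith
      have hpi := Real.pi_gt_d2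
      have h4 := hat a ha
      have h5 := hat b hb
      have h6 : 1 / (2 * r) + 1 / (2 * r) + 0.5485 / r ≤ 0.6 * π := by
        have e : 1 / (2 * r) + 1 / (2 * r) + 0.5485 / r = 1.5485 / r := by
          field_simp; norm_num
        rw [e, div_le_iff₀ hr0]
        have : (0.87034:ℝ) ≤ r := by
          have h8 : r1 ^ 2 ≤ r ^ 2 := pow_le_pow_left₀ hr1.le hrr 2
          by_contra hcon
          push Not at hcon
          have : r ^ 2 < 0.87034 ^ 2 := pow_lt_pow_left₀ hcon hr0.le (by norm_num)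
          norm_num at this h1' 
          linarith
        have h9 : 3.14 * 0.87034 ≤ π * r := mul_le_mul hpi.le this (by norm_num) Real.pi_pos.le
        linarith
      linarith
  exact hmono ⟨le_rfl, h12⟩ ⟨h12, le_rfl⟩ h12

/-- monotonicity in `Z` -/
theorem n5_mono (x4 x5 Z : ℝ) (h4 : 0 ≤ x4) (h5 : 0 ≤ x5) (hs : x4 + x5 ≤ 0.1212)
    (hZ : 0.7575 ≤ Z) (hZ' : Z ≤ 0.875) :
    arctan (√(13 * x4 / Z)) + arctan (√(13 * x5 / Z)) + arcsin (√(13 * (x4 + x5) / (9 * Z)))
      + 0.6 * π * √Z ≤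
    arctan (√(13 * x4 / 0.875)) + arctan (√(13 * x5 / 0.875))
      + arcsin (√(13 * (x4 + x5) / (9 * 0.875))) + 0.6 * π * √0.875 := by
  have hZ0 : 0 ≤ Z := by linarith
  have key := n5_mono_aux (√(13 * x4)) (√(13 * x5)) (√(13 * (x4 + x5) / 9)) (√Z) (√0.875)
    (Real.sqrt_nonneg _) (Real.sqrt_nonneg _) (Real.sqrt_nonneg _)
    (by rw [Real.sq_sqrt (by positivity)]; norm_num at hs ⊢; linarith)
    (by apply Real.le_sqrt_of_sq_le; norm_num at hZ ⊢; linarith)
    (by rw [Real.sq_sqrt hZ0]; exact hZ)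
    (Real.sqrt_le_sqrt hZ')
  have e1 : ∀ u v : ℝ, 0 ≤ u → √(u / v) = √u / √v := fun u v hu => Real.sqrt_div hu v
  have e2 : ∀ v : ℝ, √(13 * (x4 + x5) / (9 * v)) = √(13 * (x4 + x5) / 9) / √v := by
    intro v
    rw [← e1 _ _ (by positivity), div_div]
  rw [e1 _ _ (by positivity), e1 _ _ (by positivity), e2, e1 (13 * x4) 0.875 (by positivity),
    e1 (13 * x5) 0.875 (by positivity), e2]
  exact key

theorem no_red5 {x y : Fin 5 → ℝ} (h : Red 5 (5 / 4) x y) : False := by
  obtain ⟨a, b, t, hab, hat, hbt, hba, htb, hoth⟩ := exists_top3 (by norm_num) x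
  set F : Finset (Fin 5) := ((Finset.univ.erase a).erase b).erase t with hF
  have hcard : F.card = 2 := by
    rw [hF, Finset.card_erase_of_mem, Finset.card_erase_of_mem, Finset.card_erase_of_mem]
    · simp
    · simp
    · simp [hab.symm]
    · simp [hat.symm, hbt.symm]
  obtain ⟨c, d, hcd, hFcd⟩ := Finset.card_eq_two.1 hcard
  have hc : c ∈ F := by rw [hFcd]; simp
  have hd : d ∈ F := by rw [hFcd]; simp
  have hcne : c ≠ t ∧ c ≠ b ∧ c ≠ a := by
    rw [hF] at hc; simpa using hc
  have hdne : d ≠ t ∧ d ≠ b ∧ d ≠ a := by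
    rw [hF] at hd; simpa using hd
  have hct := hoth c hcne.2.2 hcne.2.1 hcne.1
  have hdt := hoth d hdne.2.2 hdne.2.1 hdne.1
  have hsumx := sum_split x a b t hab hat hbt
  have hsuma := sum_split (fun i => gQ (y i)) a b t hab hat hbt
  rw [← hF, hFcd, Finset.sum_pair hcd] at hsumx hsuma
  have hrest : rest x a b t = x c + x d := by
    unfold rest
    rw [← hF, hFcd, Finset.sum_pair hcd]
  have hT := h.sum
  have hA := h.area
  rw [hsumx] at hT
  rw [hsuma] at hA
  have Ca := h.cell a
  have Cb := h.cell b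
  have Ct := h.cell t
  have Cc := h.cell c
  have Cd := h.cell d
  have pa := Ca.x_pos
  have pb := Cb.x_pos
  have pt := Ct.x_pos
  have pc := Cc.x_pos
  have pd := Cd.x_pos
  have hw := h.w13 a b t hab hat hbt
  have hsumx' := hsumx
  rw [hsumx', hrest] at hw
  have hxnn : ∀ i, 0 ≤ x i := fun i => (h.cell i).x_pos.le
  have hlW := fun Z hZ => lhsW_le 13 (by norm_num) x hxnn a b t Z hZ
  have hlWdef : ∀ Z, lhsW 13 x a b t Z = arctan (√(13 * x c / Z)) + arctan (√(13 * x d / Z))
      + arcsin (√(13 * (x c + x d) / (9 * Z))) := by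
    intro Z
    unfold lhsW
    rw [← hF, hFcd, Finset.sum_pair hcd, hrest]
  rw [← hF, hFcd] at hlW
  simp only [Finset.sum_pair hcd] at hlW
  -- names
  set X1 := x a
  set X2 := x b
  set X3 := x t
  set X4 := x c
  set X5 := x d
  have hcell : ∀ i, 0.6308 * x i ≤ gQ (y i) := by
    intro i
    have hi := h.cell i
    rcases le_total (x i) 0.126 with h1 | h1
    · have := n5_rho hi h1
      have := hi.x_pos
      linarith
    · have := n5_line1 hi h1
      linarith
  have kc := hcell c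
  have kd := hcell d
  -- (1)
  have s4 : x c < 0.126 := by
    by_contra hcon
    push Not at hcon
    have l1 := n5_line1 Cc hcon
    have l2 := n5_line1 Ct (hcon.trans hct)
    have l3 := n5_line1 Cb ((hcon.trans hct).trans htb)
    have l4 := n5_line1 Ca (((hcon.trans hct).trans htb).trans hba)
    linarith
  have s5 : x d < 0.126 := by
    by_contra hcon
    push Not at hcon
    have l1 := n5_line1 Cd hcon
    have l2 := n5_line1 Ct (hcon.trans hdt)
    have l3 := n5_line1 Cb ((hcon.trans hdt).trans htb)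
    have l4 := n5_line1 Ca (((hcon.trans hdt).trans htb).trans hba)
    linarith
  have r4 := n5_rho Cc s4.le
  have r5 := n5_rho Cd s5.le
  have Da := n5_D Ca
  have Db := n5_D Cb
  -- (2)
  have s3 : 0.126 ≤ x t := by
    by_contra hcon
    push Not at hcon
    have r3 := n5_rho Ct hcon.le
    linarith
  have s2 : 0.126 ≤ x b := s3.trans htb
  have s1 : 0.126 ≤ x a := s2.trans hba
  -- (3)
  have h31 : x a ≤ 3 * x t := by
    by_contra hcon
    push Not at hcon
    have h49 := Ca.x_le
    have := n5_mid Ct (by linarith)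
    linarith
  -- (4)
  have l1 := n5_line1 Ca s1
  have l2 := n5_line1 Cb s2
  have l3 := n5_line1 Ct s3
  have hxi : x c + x d ≤ 0.12548 := by
    linarith
  have hS : 0.87452 ≤ x a + x b + x t := by
    linarith
  -- (5)
  have hA3 : 0.61 * (x a + x b + x t) + 0.2985 ≤ gQ (y a) + gQ (y b) + gQ (y t) := by
    rcases le_total 0.17 (x t) with h1 | h1
    · have m1 := n5_line2 Ct h1
      have m2 := n5_line2 Cb (h1.trans htb)
      have m3 := n5_line2 Ca ((h1.trans htb).trans hba)
      linarith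
    · have m1 := n5_line3 Ct s3 h1
      have m2 := n5_line4 Cb
      have m3 := n5_line4 Ca
      linarith
  -- (6)
  have h6 : (gQ (y c) - 0.61 * x c) + (gQ (y d) - 0.61 * x d) ≤
      0.0915 - 0.61 * (x a + x b + x t + (x c + x d) - 1) := by
        linarith
  have hxi2 : x c + x d ≤ 0.1212 := by
    linarith
  -- (7)
  obtain ⟨Z, hZ0, hZ1, hZ2, hZ3⟩ := hw (by
    have q1 : x a ≤ 3 * x a := by linarith
    have q2 : x a ≤ 3 * x b := by linarith
    have q3 : x b ≤ 3 * x a := by linarith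
    have q4 : x b ≤ 3 * x b := by linarith
    have q5 : x b ≤ 3 * x t := by linarith
    have q6 : x t ≤ 3 * x a := by linarith
    have q7 : x t ≤ 3 * x b := by linarith
    have q8 : x t ≤ 3 * x t := by linarith
    intro i hi j hj
    simp only [Set.mem_insert_iff, Set.mem_singleton_iff] at hi hj
    rcases hi with rfl | rfl | rfl <;> rcases hj with rfl | rfl | rfl <;> assumption)
  have p4 := n5_ptw Cc s4.le
  have p5 := n5_ptw Cd s5.le
  have hW875 := hlW 0.875 (by norm_num)
  have hpi1 := Real.pi_gt_d4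
  have hpi2 := Real.pi_lt_d4
  have hτ : 0 < x a + x b + x t + (x c + x d) - 1 := by linarith
  have hξ : 0 < x c + x d := by linarith
  have hcast : (3 : ℝ) / ((5 : ℕ) : ℝ) = 0.6 := by norm_num
  rw [hcast] at hZ3
  have hsum : hW 13 (x c) 0.875 + hW 13 (x d) 0.875 ≤
      13.7 * (0.0915 - 0.61 * (x a + x b + x t + (x c + x d) - 1)) + 0.9424 * (x c + x d) := by
        linarith
  rcases le_total 0.875 Z with hZ | hZ
  · have g1 := hlW Z hZ0
    have g2 := hW_anti 13 (x c) (by norm_num) pc.le (by norm_num : (0:ℝ) < 0.875) hZ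
    have g3 := hW_anti 13 (x d) (by norm_num) pd.le (by norm_num : (0:ℝ) < 0.875) hZ
    have g4 := sqrt_le_half Z hZ0.le
    have g5 : π * (1 - 0.6 * ((1 + Z) / 2)) ≤ π * (1 - 0.6 * √Z) := by
      apply mul_le_mul_of_nonneg_left _ Real.pi_pos.le
      linarith
    have g6 : π * (0.4 - 0.3 * (x a + x b + x t + (x c + x d) - 1) + 0.3 * (x c + x d))
        ≤ π * (1 - 0.6 * ((1 + Z) / 2)) := by
      apply mul_le_mul_of_nonneg_left _ Real.pi_pos.le
      linarith
    set τ := x a + x b + x t + (x c + x d) - 1 with hτd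
    set ξ := x c + x d with hξd
    have g7 : π * (0.4 - 0.3 * τ + 0.3 * ξ) ≤ 13.7 * (0.0915 - 0.61 * τ) + 0.9424 * ξ := by
      linarith
    have g8 : 3.1415 * ξ ≤ π * ξ := mul_le_mul_of_nonneg_right hpi1.le hξ.le
    have g9 : π * τ ≤ 3.1416 * τ := mul_le_mul_of_nonneg_right hpi2.le hτ.le
    have g10 : π * (0.4 - 0.3 * τ + 0.3 * ξ) = 0.4 * π - 0.3 * (π * τ) + 0.3 * (π * ξ) := by ring
    rw [g10] at g7
    linarith
  · have hZ7 : 0.7575 ≤ Z := by
      linarith
    have m := n5_mono (x c) (x d) Z pc.le pd.le hxi2 hZ7 hZ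
    rw [hlWdef] at hZ3 hW875
    have g4 := sqrt_le_half 0.875 (by norm_num)
    have g5 : 0.6 * π * √0.875 ≤ 0.6 * π * ((1 + 0.875) / 2) :=
      mul_le_mul_of_nonneg_left g4 (by positivity)
    have g6 : π * (1 - 0.6 * √Z) = π - 0.6 * π * √Z := by ring
    rw [g6] at hZ3
    have g7 : π ≤ 13.7 * (0.0915 - 0.61 * (x a + x b + x t + (x c + x d) - 1))
        + 0.9424 * (x c + x d) + 0.6 * π * ((1 + 0.875) / 2) := by
      linarith
    linarith

end Vale.Agent.P226
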