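import Vale.Agent.P226.Full.NumTools
import Vale.Agent.P226.Full.NumCommon
import Vale.Agent.P226.Full.NumEval

/-! Tools for the pointwise bounds (tasks P226-N5P, N6P, N8P): tangent lines for `hW`. -/

namespace Vale.Agent.P226.Ln

open Vale.Agent.P226

open Real Set

/-- Tangent line of `arctan` (concave on `[0,∞)`). -/
theorem arctan_le_tangent {s0 s : ℝ} (h0 : 0 ≤ s0) (hs : 0 ≤ s) :
    arctan s ≤ arctan s0 + (s - s0) / (1 + s0 ^ 2) := by
  rcases lt_trichotomy s s0 with h | h | h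
  · obtain ⟨c, hc, hc'⟩ := exists_hasDerivAt_eq_slope arctan (fun x => 1 / (1 + x ^ 2)) h
      continuous_arctan.continuousOn (fun x _ => hasDerivAt_arctan x)
    have h1 : 0 < s0 - s := sub_pos.2 h
    have h2 : 1 / (1 + s0 ^ 2) ≤ 1 / (1 + c ^ 2) := by
      apply one_div_le_one_div_of_le (by positivity)
      have := hc.1; have := hc.2
      nlinarith
    rw [hc', div_le_div_iff₀ (by positivity) h1, one_mul] at h2
    have h3 : s0 - s ≤ (arctan s0 - arctan s) * (1 + s0 ^ 2) := h2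
    have h4 : (s0 - s) / (1 + s0 ^ 2) ≤ arctan s0 - arctan s := by
      rw [div_le_iff₀ (by positivity)]; exact h3
    have h5 : (s - s0) / (1 + s0 ^ 2) = -((s0 - s) / (1 + s0 ^ 2)) := by ring
    linarith
  · subst h; simp
  · obtain ⟨c, hc, hc'⟩ := exists_hasDerivAt_eq_slope arctan (fun x => 1 / (1 + x ^ 2)) h
      continuous_arctan.continuousOn (fun x _ => hasDerivAt_arctan x)
    have h1 : 0 < s - s0 := sub_pos.2 h
    have h2 : 1 / (1 + c ^ 2) ≤ 1 / (1 + s0 ^ 2) := by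
      apply one_div_le_one_div_of_le (by positivity)
      have := hc.1; have := hc.2
      nlinarith
    rw [hc', div_le_div_iff₀ h1 (by positivity), one_mul] at h2
    have h4 : arctan s - arctan s0 ≤ (s - s0) / (1 + s0 ^ 2) := by
      rw [le_div_iff₀ (by positivity)]; exact h2
    linarith

theorem arctan_sqrt_le {s0 u : ℝ} (h0 : 0 < s0) (hu : 0 ≤ u) :
    arctan (√u) ≤ arctan s0 + (u - s0 ^ 2) / (2 * s0 * (1 + s0 ^ 2)) := by
  have h1 := arctan_le_tangent h0.le (sqrt_nonneg u)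
  have h2 : (√u - s0) / (1 + s0 ^ 2) ≤ (u - s0 ^ 2) / (2 * s0 * (1 + s0 ^ 2)) := by
    rw [div_le_div_iff₀ (by positivity) (by positivity)]
    have h3 : (√u) ^ 2 = u := sq_sqrt hu
    have h4 : (√u - s0) * (2 * s0) ≤ u - s0 ^ 2 := by nlinarith [sq_nonneg (√u - s0)]
    have h5 : (0 : ℝ) ≤ 1 + s0 ^ 2 := by positivity
    calc (√u - s0) * (2 * s0 * (1 + s0 ^ 2)) = (√u - s0) * (2 * s0) * (1 + s0 ^ 2) := by ring
      _ ≤ (u - s0 ^ 2) * (1 + s0 ^ 2) := mul_le_mul_of_nonneg_right h4 h5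
  linarith

/-- Tangent line of `v ↦ arcsin √v` (concave on `[0, 1/2]`). -/
theorem arcsin_sqrt_le {w0 r0 v : ℝ} (hw : 0 < w0) (hr : 0 < r0) (hwr : w0 ^ 2 + r0 ^ 2 = 1)
    (hw2 : w0 ^ 2 ≤ 1 / 2) (hv : 0 ≤ v) (hv2 : v ≤ 1 / 2) :
    arcsin (√v) ≤ arcsin w0 + (v - w0 ^ 2) / (2 * w0 * r0) := by
  have hw1 : w0 < 1 := by nlinarith
  have hq : arcsin (√(1 / 2)) = π / 4 := by
    rw [← arcsin_sin (x := π / 4) (by linarith [pi_pos]) (by linarith [pi_pos]), sin_pi_div_four]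
    congr 1
    rw [sqrt_div (by norm_num), sqrt_one, div_eq_div_iff (by positivity) (by norm_num)]
    rw [one_mul, mul_self_sqrt (by norm_num)]
  set φ := arcsin (√v) with hφ
  set φ0 := arcsin w0 with hφ0
  have hφn : 0 ≤ φ := arcsin_nonneg.2 (sqrt_nonneg v)
  have hφ4 : φ ≤ π / 4 := by
    rw [← hq]; exact monotone_arcsin (sqrt_le_sqrt hv2)
  have hφ0n : 0 < φ0 := arcsin_pos.2 hw
  have hφ04 : φ0 ≤ π / 4 := by
    rw [← hq]; apply monotone_arcsin
    rw [← sqrt_sq hw.le]; exact sqrt_le_sqrt hw2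
  have hs : sin φ = √v := sin_arcsin (by linarith [sqrt_nonneg v])
    (by rw [← sqrt_one]; exact sqrt_le_sqrt (by linarith))
  have hs0 : sin φ0 = w0 := sin_arcsin (by linarith) hw1.le
  have hc0 : cos φ0 = r0 := by
    rw [hφ0, cos_arcsin]
    rw [show 1 - w0 ^ 2 = r0 ^ 2 by linarith, sqrt_sq hr.le]
  have hsv : sin φ ^ 2 = v := by rw [hs, sq_sqrt hv]
  have hder : ∀ x : ℝ, HasDerivAt (fun x => sin x ^ 2) (sin (2 * x)) x := by
    intro x
    refine ((hasDerivAt_sin x).pow 2).congr_deriv ?_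
    rw [sin_two_mul]; norm_num
  have hcont : Continuous (fun x : ℝ => sin x ^ 2) := by fun_prop
  have h2 : sin (2 * φ0) = 2 * w0 * r0 := by rw [sin_two_mul, hs0, hc0]
  have hpos : 0 < 2 * w0 * r0 := by positivity
  have hmono : ∀ a b : ℝ, 0 ≤ a → a ≤ b → b ≤ π / 4 → sin (2 * a) ≤ sin (2 * b) := by
    intro a b ha hab hb
    exact sin_le_sin_of_le_of_le_pi_div_two (by linarith [pi_pos]) (by linarith) (by linarith)
  rcases lt_trichotomy φ φ0 with h | h | h
  · obtain ⟨c, hc, hc'⟩ := exists_hasDerivAt_eq_slope (fun x => sin x ^ 2)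
      (fun x => sin (2 * x)) h hcont.continuousOn (fun x _ => hder x)
    have h3 := hmono c φ0 (hφn.trans hc.1.le) hc.2.le hφ04
    rw [hc', h2, div_le_iff₀ (sub_pos.2 h)] at h3
    simp only [hs0, hsv] at h3
    have h4 : φ - φ0 ≤ (v - w0 ^ 2) / (2 * w0 * r0) := by
      rw [le_div_iff₀ hpos]; linarith
    linarith
  · rw [h] at hsv
    rw [hs0] at hsv
    rw [h, ← hsv]; simp
  · obtain ⟨c, hc, hc'⟩ := exists_hasDerivAt_eq_slope (fun x => sin x ^ 2)
      (fun x => sin (2 * x)) h hcont.continuousOn (fun x _ => hder x)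
    have h3 := hmono φ0 c hφ0n.le hc.1.le (hc.2.le.trans hφ4)
    rw [hc', h2, le_div_iff₀ (sub_pos.2 h)] at h3
    simp only [hs0, hsv] at h3
    have h4 : φ - φ0 ≤ (v - w0 ^ 2) / (2 * w0 * r0) := by
      rw [le_div_iff₀ hpos]; linarith
    linarith

theorem arctan_le_poly5 {r : ℝ} (hr : 0 ≤ r) : arctan r ≤ r - r ^ 3 / 3 + r ^ 5 / 5 := by
  have hder : ∀ x : ℝ, HasDerivAt (fun x => x - x ^ 3 / 3 + x ^ 5 / 5 - arctan x)
      (x ^ 6 / (1 + x ^ 2)) x := by
    intro x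
    have h1 := (((hasDerivAt_id x).sub (((hasDerivAt_id x).pow 3).div_const 3)).add
      (((hasDerivAt_id x).pow 5).div_const 5)).sub (hasDerivAt_arctan x)
    refine (h1.congr_deriv ?_).congr_of_eventuallyEq (Filter.Eventually.of_forall fun y => ?_)
    · have : (1 + x ^ 2) ≠ 0 := by positivity
      simp only [id]
      field_simp
      norm_num
      ring
    · simp
  have hmono : MonotoneOn (fun x => x - x ^ 3 / 3 + x ^ 5 / 5 - arctan x) (Ici 0) := by
    apply monotoneOn_of_deriv_nonneg (convex_Ici 0)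
    · exact fun x _ => (hder x).continuousAt.continuousWithinAt
    · exact fun x _ => (hder x).differentiableAt.differentiableWithinAt
    · intro x _
      rw [(hder x).deriv]; positivity
  have := hmono (a := 0) (b := r) (mem_Ici.2 le_rfl) hr hr
  simp at this
  linarith

theorem arctan_ge_poly7 {r : ℝ} (hr : 0 ≤ r) :
    r - r ^ 3 / 3 + r ^ 5 / 5 - r ^ 7 / 7 ≤ arctan r := by
  have hder : ∀ x : ℝ, HasDerivAt (fun x => arctan x - (x - x ^ 3 / 3 + x ^ 5 / 5 - x ^ 7 / 7))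
      (x ^ 8 / (1 + x ^ 2)) x := by
    intro x
    have h1 := (hasDerivAt_arctan x).sub ((((hasDerivAt_id x).sub
      (((hasDerivAt_id x).pow 3).div_const 3)).add
      (((hasDerivAt_id x).pow 5).div_const 5)).sub (((hasDerivAt_id x).pow 7).div_const 7))
    refine (h1.congr_deriv ?_).congr_of_eventuallyEq (Filter.Eventually.of_forall fun y => ?_)
    · have : (1 + x ^ 2) ≠ 0 := by positivity
      simp only [id]
      field_simp
      norm_num
      ring
    · simp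
  have hmono : MonotoneOn (fun x => arctan x - (x - x ^ 3 / 3 + x ^ 5 / 5 - x ^ 7 / 7)) (Ici 0) := by
    apply monotoneOn_of_deriv_nonneg (convex_Ici 0)
    · exact fun x _ => (hder x).continuousAt.continuousWithinAt
    · exact fun x _ => (hder x).differentiableAt.differentiableWithinAt
    · intro x _
      rw [(hder x).deriv]; positivity
  have := hmono (a := 0) (b := r) (mem_Ici.2 le_rfl) hr hr
  simp at this
  linarith

theorem arctan_split {s : ℝ} (hs : 0 ≤ s) : arctan s = π / 4 + arctan ((s - 1) / (s + 1)) := by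
  rw [← arctan_one, arctan_add]
  · congr 1
    have : s + 1 ≠ 0 := by positivity
    field_simp
    ring
  · rw [one_mul, div_lt_one (by positivity)]; linarith

/-- numerical upper bound for `arctan s`, `s ≥ 1`: `r = (s-1)/(s+1)`. -/
theorem arctan_le_num1 {s r a : ℝ} (hs : 1 ≤ s) (hr : r * (s + 1) = s - 1)
    (ha : 0.785398164 + (r - r ^ 3 / 3 + r ^ 5 / 5) ≤ a) : arctan s ≤ a := by
  have h1 : (s - 1) / (s + 1) = r := by
    rw [div_eq_iff (by linarith)]; linarith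
  have hr0 : 0 ≤ r := by rw [← h1]; exact div_nonneg (by linarith) (by linarith)
  have h2 := arctan_le_poly5 hr0
  rw [arctan_split (by linarith), h1]
  have := pi_lt_d6
  have h3 : π < 3.14159265359 := by
    have := pi_lt_d20
    linarith
  linarith

/-- numerical upper bound for `arctan s`, `0 ≤ s ≤ 1`: `r = (1-s)/(1+s)`. -/
theorem arctan_le_num2 {s r a : ℝ} (hs0 : 0 ≤ s) (hs : s ≤ 1) (hr : r * (1 + s) = 1 - s)
    (ha : 0.785398164 - (r - r ^ 3 / 3 + r ^ 5 / 5 - r ^ 7 / 7) ≤ a) : arctan s ≤ a := by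
  have h1 : (s - 1) / (s + 1) = -r := by
    rw [div_eq_iff (by linarith)]; linarith
  have hr0 : 0 ≤ r := by
    by_contra hcon
    nlinarith
  have h2 := arctan_ge_poly7 hr0
  rw [arctan_split hs0, h1, arctan_neg]
  have h3 : π < 3.14159265359 := by
    have := pi_lt_d20
    linarith
  linarith

/-- `arcsin` through `arctan`. -/
theorem arcsin_eq_arctan' {w r : ℝ} (hw : 0 < w) (hr : 0 < r) (hwr : w ^ 2 + r ^ 2 = 1) :
    arcsin w = arctan (w / r) := by
  have hw1 : w < 1 := by nlinarith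
  rw [arcsin_eq_arctan ⟨by linarith, hw1⟩]
  rw [show 1 - w ^ 2 = r ^ 2 by linarith, sqrt_sq hr.le]

/-- tangent-line bound for one cell contribution. -/
theorem hW_le_line {C Z x s0 w0 r0 a1 a2 A B : ℝ} (hC : 0 ≤ C) (hZ : 0 < Z) (hx : 0 ≤ x)
    (h0 : 0 < s0) (hw : 0 < w0) (hr : 0 < r0) (hwr : w0 ^ 2 + r0 ^ 2 = 1)
    (hw2 : w0 ^ 2 ≤ 1 / 2) (hx2 : C * x ≤ 4.5 * Z) (ha1 : arctan s0 ≤ a1) (ha2 : arcsin w0 ≤ a2)
    (hA : a1 - s0 / (2 * (1 + s0 ^ 2)) + a2 - w0 / (2 * r0) ≤ A)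
    (hB : C / Z / (2 * s0 * (1 + s0 ^ 2)) + C / (9 * Z) / (2 * w0 * r0) ≤ B) :
    hW C x Z ≤ A + B * x := by
  unfold hW
  have h1 := arctan_sqrt_le (s0 := s0) (u := C * x / Z) h0 (by positivity)
  have h2 := arcsin_sqrt_le (v := C * x / (9 * Z)) hw hr hwr hw2 (by positivity)
    (by rw [div_le_iff₀ (by positivity)]; linarith)
  have h3 := mul_le_mul_of_nonneg_right hB hx
  have e1 : (C * x / Z - s0 ^ 2) / (2 * s0 * (1 + s0 ^ 2)) =
      C / Z / (2 * s0 * (1 + s0 ^ 2)) * x - s0 / (2 * (1 + s0 ^ 2)) := by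
    field_simp
  have e2 : (C * x / (9 * Z) - w0 ^ 2) / (2 * w0 * r0) =
      C / (9 * Z) / (2 * w0 * r0) * x - w0 / (2 * r0) := by
    field_simp
  rw [e1] at h1
  rw [e2] at h2
  have e3 : (C / Z / (2 * s0 * (1 + s0 ^ 2)) + C / (9 * Z) / (2 * w0 * r0)) * x =
    C / Z / (2 * s0 * (1 + s0 ^ 2)) * x + C / (9 * Z) / (2 * w0 * r0) * x := by ring
  rw [e3] at h3
  linarith

/-- the segment `[y1, y2]`. -/
theorem ptw_seg {q K m beta A B x y : ℝ} (y1 y2 : ℝ) (hq0 : 0 ≤ q) (hq : q ≤ 5 / 4) (hK : 0 < K)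
    (hm : 0 ≤ K * m - beta + B) (h1 : 0.48 ≤ y1) (hy1 : y1 ≤ y) (hy2 : y ≤ y2) (hx : x ≤ XE q y)
    (e1 : A ≤ K * gQ y1 - (K * m - beta + B) * XE q y1)
    (e2 : A ≤ K * gQ y2 - (K * m - beta + B) * XE q y2) :
    A + B * x ≤ K * (gQ y - m * x) + beta * x := by
  have h := quasi_E q ((K * m - beta + B) / K) y1 y2 y hq0 hq (by positivity) h1 hy1 hy2
  have e1' : A / K ≤ gQ y1 - (K * m - beta + B) / K * XE q y1 := by
    rw [div_le_iff₀ hK]
    have : (gQ y1 - (K * m - beta + B) / K * XE q y1) * K =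
      K * gQ y1 - (K * m - beta + B) * XE q y1 := by field_simp
    linarith
  have e2' : A / K ≤ gQ y2 - (K * m - beta + B) / K * XE q y2 := by
    rw [div_le_iff₀ hK]
    have : (gQ y2 - (K * m - beta + B) / K * XE q y2) * K =
      K * gQ y2 - (K * m - beta + B) * XE q y2 := by field_simp
    linarith
  have h3 : A / K ≤ gQ y - (K * m - beta + B) / K * XE q y := (le_min e1' e2').trans h
  rw [div_le_iff₀ hK] at h3
  have h4 : (gQ y - (K * m - beta + B) / K * XE q y) * K =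
      K * gQ y - (K * m - beta + B) * XE q y := by field_simp
  have h5 := mul_le_mul_of_nonneg_left hx hm
  rw [h4] at h3
  linarith

/-- the head `y ≤ y0`, where only `x ≤ x0` is used. -/
theorem ptw_head {K m beta A B x x0 y : ℝ} (y0 : ℝ) (hK : 0 ≤ K)
    (hm : 0 ≤ K * m - beta + B) (hy : y ≤ y0) (hx : x ≤ x0)
    (e1 : A ≤ K * gQ y0 - (K * m - beta + B) * x0) :
    A + B * x ≤ K * (gQ y - m * x) + beta * x := by
  have h1 := mul_le_mul_of_nonneg_left (gQ_antitone hy) hK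
  have h5 := mul_le_mul_of_nonneg_left hx hm
  linarith

/-- `arctan s + arcsin (s/3) ≤ (1 + 1.01/3) s` for small `s`. -/
theorem hW_le_sqrt {C Z x : ℝ} (hZ : 0 < Z) (hx2 : C * x ≤ 0.36 * Z) :
    hW C x Z ≤ (1 + 1.01 / 3) * √(C * x / Z) := by
  unfold hW
  have hs : 0 ≤ √(C * x / Z) := sqrt_nonneg _
  have h1 : arctan (√(C * x / Z)) ≤ √(C * x / Z) := by
    have := arctan_le_tangent (s0 := 0) (s := √(C * x / Z)) le_rfl hs
    simpa using this
  have h2 : √(C * x / (9 * Z)) = √(C * x / Z) / 3 := by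
    rw [show C * x / (9 * Z) = (C * x / Z) / 3 ^ 2 by ring, sqrt_div' _ (by positivity),
      sqrt_sq (by norm_num)]
  have h3 : √(C * x / Z) ≤ 0.6 := by
    rw [show (0.6 : ℝ) = √(0.6 ^ 2) by rw [sqrt_sq (by norm_num)]]
    apply sqrt_le_sqrt
    rw [div_le_iff₀ hZ]
    linarith
  rw [h2]
  set w := √(C * x / Z) / 3 with hw
  have hw0 : 0 ≤ w := by positivity
  have hw2 : w ≤ 0.2 := by rw [hw]; linarith
  have h4 : arcsin w ≤ 1.01 * w := by
    rcases hw0.eq_or_lt with h | h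
    · rw [← h]; simp
    · rw [arcsin_le_iff_le_sin ⟨by linarith, by linarith⟩
        ⟨by linarith [pi_pos], by linarith [pi_gt_three]⟩]
      have h7 := sin_ge_sub_cube (x := 1.01 * w) (by positivity)
      have h8 : w ^ 2 ≤ 0.04 := by nlinarith
      have h9 : w ^ 3 ≤ 0.04 * w := by
        have := mul_le_mul_of_nonneg_right h8 hw0
        nlinarith
      nlinarith
  have : (1 + 1.01 / 3) * √(C * x / Z) = √(C * x / Z) + 1.01 * w := by rw [hw]; ring
  linarith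

/-- the tail `y ≥ y2`. -/
theorem ptw_tail {q K m beta x y C Z Qh c0 : ℝ} (y2 : ℝ) (hq0 : 0 ≤ q) (hC : 0 ≤ C) (hZ : 0 < Z)
    (hm : 0 ≤ K * m - beta) (h2 : 0 ≤ y2) (hy : y2 ≤ y) (hx : x ≤ XE q y) (hx0 : 0 ≤ x)
    (hQ : gQ y2 ≤ Qh) (hc0 : 0 ≤ c0) (e1 : (1 + 1.01 / 3) ^ 2 * (C * 5.58506) ≤ c0 ^ 2 * Z)
    (e2 : c0 ≤ K - (K * m - beta) * (5.58506 * Qh)) (e3 : C * (5.58506 * Qh ^ 2) ≤ 0.36 * Z) :
    hW C x Z ≤ K * (gQ y - m * x) + beta * x := by
  have hy0 : 0 ≤ y := h2.trans hy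
  have hQ0 := gQ_pos' y
  have hQy : gQ y ≤ Qh := (gQ_antitone hy).trans hQ
  have hM := M0_bounds.1
  have hx1 : x ≤ 5.58506 * gQ y ^ 2 := by
    have h5 : ell y / M0 ≤ 2.79253 * gQ y ^ 2 := by
      rw [div_le_iff₀ M0_pos]
      have := ell_le_sq y hy0
      nlinarith [sq_nonneg (gQ y)]
    have h6 : 0 ≤ q * (ell y / M0) ^ 2 := by positivity
    unfold XE at hx
    linarith
  have hx2 : x ≤ 5.58506 * Qh * gQ y := by nlinarith
  have hx3 : x ≤ 5.58506 * Qh ^ 2 := by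
    have : Qh * gQ y ≤ Qh * Qh := mul_le_mul_of_nonneg_left hQy (hQ0.le.trans hQy)
    nlinarith
  have h7 : hW C x Z ≤ (1 + 1.01 / 3) * √(C * x / Z) :=
    hW_le_sqrt hZ ((mul_le_mul_of_nonneg_left hx3 hC).trans e3)
  have h8 : (1 + 1.01 / 3) * √(C * x / Z) ≤ c0 * gQ y := by
    apply le_of_sq_le_sq _ (by positivity)
    rw [mul_pow, mul_pow, sq_sqrt (by positivity), ← mul_div_assoc, div_le_iff₀ hZ]
    have h9 := mul_le_mul_of_nonneg_left hx1 hC
    have h10 := mul_le_mul_of_nonneg_right e1 (sq_nonneg (gQ y))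
    nlinarith
  have h11 := mul_le_mul_of_nonneg_left hx2 hm
  have h12 := mul_le_mul_of_nonneg_right e2 hQ0.le
  nlinarith

end Vale.Agent.P226.Ln
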