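import Vale.Agent.P226.Full.NumTools
import Vale.Agent.P226.Full.NumCommon
import Vale.Agent.P226.Full.PtwLine

/-! Task P226-N6P: pointwise bound for small cells, `q = 7/6`. -/

namespace Vale.Agent.P226

open Vale.Agent.P226.Ln

variable {x y : ℝ}

theorem n6_tan1 (hx0 : 0 ≤ x) (hx : x ≤ 0.146) : hW 13 x 0.7 ≤ 0.9985 + 4.2043 * x := by
  have ha1 : Real.arctan 1.52 ≤ 0.989 :=
    arctan_le_num1 (r := 13 / 63) (by norm_num) (by norm_num) (by norm_num)
  have ha2 : Real.arcsin (33 / 65) ≤ 0.5326 := by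
    rw [arcsin_eq_arctan' (r := 56 / 65) (by norm_num) (by norm_num) (by norm_num)]
    exact arctan_le_num2 (r := 23 / 89) (by norm_num) (by norm_num) (by norm_num) (by norm_num)
  exact hW_le_line (s0 := 1.52) (w0 := 33 / 65) (r0 := 56 / 65) (by norm_num) (by norm_num) hx0
    (by norm_num) (by norm_num) (by norm_num) (by norm_num) (by norm_num) (by linarith) ha1 ha2
    (by norm_num) (by norm_num)

theorem n6_tan2 (hx0 : 0 ≤ x) (hx : x ≤ 0.146) : hW 13 x 0.7 ≤ 0.52 + 12.4328 * x := by
  have ha1 : Real.arctan 0.74 ≤ 0.63715 :=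
    arctan_le_num2 (r := 13 / 87) (by norm_num) (by norm_num) (by norm_num) (by norm_num)
  have ha2 : Real.arcsin (16 / 65) ≤ 0.24875 := by
    rw [arcsin_eq_arctan' (r := 63 / 65) (by norm_num) (by norm_num) (by norm_num)]
    have := arctan_le_poly5 (r := 16 / 65 / (63 / 65)) (by norm_num)
    norm_num at this ⊢
    linarith
  exact hW_le_line (s0 := 0.74) (w0 := 16 / 65) (r0 := 63 / 65) (by norm_num) (by norm_num) hx0
    (by norm_num) (by norm_num) (by norm_num) (by norm_num) (by norm_num) (by linarith) ha1 ha2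
    (by norm_num) (by norm_num)

-- (hW - 0.7853 x)/(a - 0.6138 x) has maximum 15.414 (at x = 0.146)
theorem n6_ptw (h : CellOK (7 / 6) x y) (hx : x ≤ 0.146) :
    hW 13 x 0.7 ≤ 16.2 * (gQ y - 0.6138 * x) + 0.7853 * x := by
  have hx0 := h.x_pos.le
  have l1 := n6_tan1 hx0 hx
  have l2 := n6_tan2 hx0 hx
  have q1 := (gQ_eval 8 (891 / 1000) 0.1864 0.1865 (by decide +kernel)).1
  have q2 := (gQ_eval 8 (127 / 100) 0.102 0.1021 (by decide +kernel)).1
  have q3 := gQ_eval 10 (1685 / 1000) 0.04599 0.046 (by decide +kernel)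
  have x1 := (XE_eval 8 (7 / 6) (891 / 1000) 0.1461 0.1462 (by decide +kernel)).2
  have x2 := (XE_eval 8 (7 / 6) (127 / 100) 0.0475 0.0476 (by decide +kernel)).2
  have x3 := (XE_eval 12 (7 / 6) (1685 / 1000) 0.01018 0.01019 (by decide +kernel)).2
  norm_num at q1 q2 q3 x1 x2 x3
  obtain ⟨q3, q3'⟩ := q3
  rcases le_total y 0.891 with hy1 | hy1
  · refine l1.trans (ptw_head 0.891 (by norm_num) (by norm_num) hy1 hx ?_)
    norm_num
    linarith
  rcases le_total y 1.27 with hy2 | hy2
  · refine l1.trans (ptw_seg 0.891 1.27 (by norm_num) (by norm_num) (by norm_num) (by norm_num)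
      (by norm_num) hy1 hy2 h.del ?_ ?_)
    · norm_num
      linarith
    · norm_num
      linarith
  rcases le_total y 1.685 with hy3 | hy3
  · refine l2.trans (ptw_seg 1.27 1.685 (by norm_num) (by norm_num) (by norm_num) (by norm_num)
      (by norm_num) hy2 hy3 h.del ?_ ?_)
    · norm_num
      linarith
    · norm_num
      linarith
  · exact ptw_tail (q := 7 / 6) (Qh := 0.046) (c0 := 13.62) 1.685 (by norm_num) (by norm_num)
      (by norm_num) (by norm_num) (by norm_num) hy3 h.del hx0 (by norm_num; linarith)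
      (by norm_num) (by norm_num) (by norm_num) (by norm_num)

end Vale.Agent.P226
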