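import Vale.Agent.P226.Full.Num67Lines
import Vale.Agent.P226.Full.Num67Ptw

/-! Task P226-N6F: no reduced configuration for `k = 6, 7`. -/

namespace Vale.Agent.P226

open Real

theorem no_red67 {k : ℕ} (hk : 6 ≤ k) (hk' : k ≤ 7) {x y : Fin k → ℝ}
    (h : Red k ((k : ℝ) / ((k : ℝ) - 1)) x y) : False := by
  have hk6 : (6:ℝ) ≤ k := by exact_mod_cast hk
  have hk7 : (k:ℝ) ≤ 7 := by exact_mod_cast hk'
  have hc : ∀ i, CellOK (7 / 6) (x i) (y i) := fun i => by
    refine (h.cell i).mono_q ?_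
    rw [div_le_div_iff₀ (by norm_num) (by linarith)]
    linarith
  have hx0 : ∀ i, 0 ≤ x i := fun i => (hc i).x_pos.le
  have ha0 : ∀ i, 0 ≤ gQ (y i) := fun i => gQ_nonneg _
  have hlow : ∀ i, 0.6138 * x i ≤ gQ (y i) := fun i => by
    rcases le_total (x i) 0.146 with h1 | h1
    · have := n6_rho (hc i) h1
      have := ha0 i
      have := hx0 i
      linarith
    · have := n6_line1 (hc i) h1
      linarith
  obtain ⟨a, b, t, hab, hat, hbt, hxba, hxtb, hrest⟩ := exists_top3 (by omega : 3 ≤ k) x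
  have hT := h.sum
  have hA := h.area
  have hTs := sum_split x a b t hab hat hbt
  have hAs := sum_split (fun i => gQ (y i)) a b t hab hat hbt
  rw [hA] at hAs
  have hre : rest x a b t = ∑ m ∈ ((Finset.univ.erase a).erase b).erase t, x m := rfl
  set L : Finset (Fin k) := ((Finset.univ.erase a).erase b).erase t with hL
  have hLx : ∀ m ∈ L, x m ≤ x t := fun m hm => by
    have hm' : m ≠ t ∧ m ≠ b ∧ m ≠ a := by simpa [hL] using hm
    exact hrest m hm'.2.2 hm'.2.1 hm'.1
  set T := ∑ i, x i with hTdef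
  -- ratio sums over `L`
  have hsumL : ∀ ρ : ℝ, (∀ m ∈ L, x m ≤ ρ * gQ (y m)) →
      ∑ m ∈ L, x m ≤ ρ * ∑ m ∈ L, gQ (y m) := fun ρ hρ => by
    rw [Finset.mul_sum]; exact Finset.sum_le_sum hρ
  -- (1)
  have h1 : ∀ m ∈ L, x m < 0.146 := by
    intro m hm
    by_contra hcon
    push Not at hcon
    have hmt := hLx m hm
    have e1 := n6_line1 (hc a) (by linarith)
    have e2 := n6_line1 (hc b) (by linarith)
    have e3 := n6_line1 (hc t) (by linarith)
    have e4 := n6_line1 (hc m) hcon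
    have e5 : ∑ i ∈ L.erase m, 0.6138 * x i ≤ ∑ i ∈ L.erase m, gQ (y i) :=
      Finset.sum_le_sum fun i _ => hlow i
    rw [← Finset.mul_sum] at e5
    have e6 := Finset.add_sum_erase L x hm
    have e7 := Finset.add_sum_erase L (fun i => gQ (y i)) hm
    linarith
  have hρL : ∑ m ∈ L, x m ≤ 0.784 * ∑ m ∈ L, gQ (y m) :=
    hsumL 0.784 fun m hm => n6_rho (hc m) (h1 m hm).le
  -- (2)
  have h2 : 0.146 ≤ x b := by
    by_contra hcon
    push Not at hcon
    have e1 := n6_D2 (hc a)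
    have e2 := n6_rho (hc b) hcon.le
    have e3 := n6_rho (hc t) (by linarith)
    have := ha0 a
    linarith
  -- (3)
  have h3 : 0.14 ≤ x t := by
    by_contra hcon
    push Not at hcon
    have e1 := n6_D2 (hc a)
    have e2 := n6_D2 (hc b)
    have e3 := n6_rho2 (hc t) hcon.le
    have e4 := hsumL 0.769 fun m hm => n6_rho2 (hc m) ((hLx m hm).trans hcon.le)
    linarith
  -- (4)
  have h4 : x a ≤ 3 * x t := by
    by_contra hcon
    push Not at hcon
    have hxa := (hc a).x_le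
    have e1 := n6_D3' (hc a) (by linarith)
    have e2 := n6_D3 (hc b)
    have e3 := n6_rho3 (hc t) (by linarith)
    have e4 := hsumL 0.789 fun m hm => n6_rho3 (hc m) ((hLx m hm).trans (by linarith))
    linarith
  have hxa : ∀ i ∈ ({a, b, t} : Set (Fin k)), x i ≤ x a := by
    intro i hi
    rcases hi with rfl | rfl | rfl
    · exact le_rfl
    · exact hxba
    · exact hxtb.trans hxba
  have hxt : ∀ i ∈ ({a, b, t} : Set (Fin k)), x t ≤ x i := by
    intro i hi
    rcases hi with rfl | rfl | rfl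
    · exact hxtb.trans hxba
    · exact hxtb
    · exact le_rfl
  obtain ⟨Z, hZ0, hZ1, hZ2, hZ⟩ := h.w13 a b t hab hat hbt (fun i hi j hj => by
    have := hxa i hi
    have := hxt j hj
    linarith)
  rw [← hTdef] at hZ1 hZ2
  set ξ := rest x a b t with hξ
  have hξ0 : 0 ≤ ξ := by rw [hre]; exact Finset.sum_nonneg fun m _ => hx0 m
  rw [← hre] at hTs hρL
  -- (5)
  have e1 := n6_line1 (hc a) (by linarith)
  have e2 := n6_line1 (hc b) h2
  have e3 := n6_line2 (hc t) h3
  have hξ1 : ξ ≤ 0.1465 := by linarith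
  have hZge : 0.7 ≤ Z := by linarith
  -- (6)
  have hle : lhsW 13 x a b t Z ≤ ∑ m ∈ L, (16.2 * (gQ (y m) - 0.6138 * x m) + 0.7853 * x m) := by
    refine (lhsW_le 13 (by norm_num) x hx0 a b t Z hZ0).trans ?_
    refine Finset.sum_le_sum fun m hm => ?_
    exact (hW_anti 13 (x m) (by norm_num) (hx0 m) (by norm_num) hZge).trans
      (n6_ptw (hc m) (h1 m hm).le)
  have hsum2 : ∑ m ∈ L, (16.2 * (gQ (y m) - 0.6138 * x m) + 0.7853 * x m) =
      16.2 * ∑ m ∈ L, gQ (y m) - (16.2 * 0.6138 - 0.7853) * ξ := by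
    rw [hre, Finset.mul_sum, Finset.mul_sum, ← Finset.sum_sub_distrib]
    exact Finset.sum_congr rfl fun m _ => by ring
  rw [hsum2] at hle
  have hsq := sqrt_le_half Z hZ0.le
  have hsq0 := Real.sqrt_nonneg Z
  have hk3 : 3 / (k : ℝ) * √Z ≤ 3 / 6 * ((1 + Z) / 2) := by
    apply mul_le_mul _ hsq hsq0 (by norm_num)
    exact div_le_div_of_nonneg_left (by norm_num) (by norm_num) hk6
  have hπ1 := Real.pi_gt_d6
  have hπ2 := Real.pi_lt_d6
  have hleft : π * (1 / 2 + 1 / 4 * (ξ - (T - 1))) ≤ π * (1 - 3 / (k : ℝ) * √Z) := by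
    apply mul_le_mul_of_nonneg_left _ Real.pi_pos.le
    linarith
  have p1 : 3.141592 * ξ ≤ π * ξ := mul_le_mul_of_nonneg_right hπ1.le hξ0
  have p2 : π * (T - 1) ≤ 3.141593 * (T - 1) := mul_le_mul_of_nonneg_right hπ2.le (by linarith)
  have hfin := hleft.trans (hZ.trans hle)
  have e8 : π * (1 / 2 + 1 / 4 * (ξ - (T - 1))) = 1 / 2 * π + 1 / 4 * (π * ξ) - 1 / 4 * (π * (T - 1)) := by
    ring
  rw [e8] at hfin
  linarith

end Vale.Agent.P226
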