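import Vale.Agent.P226.Full.NumTools
import Vale.Agent.P226.Full.NumCommon
import Vale.Agent.P226.Full.PtwLine

/-! Task P226-N8P: pointwise bound for small cells, `q = 1`. -/

namespace Vale.Agent.P226

open Vale.Agent.P226.Ln

variable {x y : ℝ}

theorem n8_tan1 (hx0 : 0 ≤ x) (hx : x ≤ 0.1987) : hW 13 x 0.584 ≤ 1.182 + 3.654 * x := by
  have ha1 : Real.arctan 1.97 ≤ 1.1012 :=
    arctan_le_num1 (r := 97 / 297) (by norm_num) (by norm_num) (by norm_num)
  have ha2 : Real.arcsin (48 / 73) ≤ 0.7176 := by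
    rw [arcsin_eq_arctan' (r := 55 / 73) (by norm_num) (by norm_num) (by norm_num)]
    exact arctan_le_num2 (r := 7 / 103) (by norm_num) (by norm_num) (by norm_num) (by norm_num)
  exact hW_le_line (s0 := 1.97) (w0 := 48 / 73) (r0 := 55 / 73) (by norm_num) (by norm_num) hx0
    (by norm_num) (by norm_num) (by norm_num) (by norm_num) (by norm_num) (by linarith) ha1 ha2
    (by norm_num) (by norm_num)

theorem n8_tan2 (hx0 : 0 ≤ x) (hx : x ≤ 0.1987) : hW 13 x 0.584 ≤ 0.52 + 14.903 * x := by
  have ha1 : Real.arctan 0.74 ≤ 0.63715 :=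
    arctan_le_num2 (r := 13 / 87) (by norm_num) (by norm_num) (by norm_num) (by norm_num)
  have ha2 : Real.arcsin (16 / 65) ≤ 0.24875 := by
    rw [arcsin_eq_arctan' (r := 63 / 65) (by norm_num) (by norm_num) (by norm_num)]
    have := arctan_le_poly5 (r := 16 / 65 / (63 / 65)) (by norm_num)
    norm_num at this ⊢
    linarith
  exact hW_le_line (s0 := 0.74) (w0 := 16 / 65) (r0 := 63 / 65) (by norm_num) (by norm_num) hx0
    (by norm_num) (by norm_num) (by norm_num) (by norm_num) (by norm_num) (by linarith) ha1 ha2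
    (by norm_num) (by norm_num)

-- (hW - 0.589 x)/(a - 0.5789 x) has maximum 16.93 (at x = 0.1987)
theorem n8_ptw (h : CellOK 1 x y) (hx : x ≤ 0.1987) :
    hW 13 x 0.584 ≤ 17.8 * (gQ y - 0.5789 * x) + 0.589 * x := by
  have hx0 := h.x_pos.le
  have l1 := n8_tan1 hx0 hx
  have l2 := n8_tan2 hx0 hx
  have q1 := (gQ_eval 8 (77 / 100) 0.2206 0.2207 (by decide +kernel)).1
  have q2 := (gQ_eval 8 (125 / 100) 0.1056 0.1057 (by decide +kernel)).1
  have q3 := gQ_eval 10 (172 / 100) 0.0427 0.04272 (by decide +kernel)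
  have x1 := (XE_eval 8 1 (77 / 100) 0.1988 0.1989 (by decide +kernel)).2
  have x2 := (XE_eval 8 1 (125 / 100) 0.0509 0.05095 (by decide +kernel)).2
  have x3 := (XE_eval 12 1 (172 / 100) 0.0088 0.00883 (by decide +kernel)).2
  norm_num at q1 q2 q3 x1 x2 x3
  obtain ⟨q3, q3'⟩ := q3
  rcases le_total y 0.77 with hy1 | hy1
  · refine l1.trans (ptw_head 0.77 (by norm_num) (by norm_num) hy1 hx ?_)
    norm_num
    linarith
  rcases le_total y 1.25 with hy2 | hy2
  · refine l1.trans (ptw_seg 0.77 1.25 (by norm_num) (by norm_num) (by norm_num) (by norm_num)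
      (by norm_num) hy1 hy2 h.del ?_ ?_)
    · norm_num
      linarith
    · norm_num
      linarith
  rcases le_total y 1.72 with hy3 | hy3
  · refine l2.trans (ptw_seg 1.25 1.72 (by norm_num) (by norm_num) (by norm_num) (by norm_num)
      (by norm_num) hy2 hy3 h.del ?_ ?_)
    · norm_num
      linarith
    · norm_num
      linarith
  · exact ptw_tail (q := 1) (Qh := 0.04272) (c0 := 14.91) 1.72 (by norm_num) (by norm_num)
      (by norm_num) (by norm_num) (by norm_num) hy3 h.del hx0 (by norm_num; linarith)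
      (by norm_num) (by norm_num) (by norm_num) (by norm_num)

end Vale.Agent.P226
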