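import Vale.Agent.P226.Full.CritRed
import Vale.Agent.P226.Full.ExistCrit
import Vale.Agent.P226.Full.Base
import Vale.Agent.P226.Full.Cap3
import Vale.Agent.P226.Full.Num4
import Vale.Agent.P226.Full.Num5
import Vale.Agent.P226.Full.Num67
import Vale.Agent.P226.Full.Num8

/-! P226: final assembly. -/

namespace Vale.Agent.P226

open MeasureTheory ProbabilityTheory Real Set Filter Topology


/-- The propeller inequality for any number of vectors. -/
theorem pk_all (k : ℕ) : PK k := by
  induction k using Nat.strong_induction_on with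
  | _ k ih =>
    rcases Nat.lt_or_ge k 4 with hk | hk
    · interval_cases k
      · exact pk_zero
      · exact pk_one
      · exact pk_two
      · exact pk_three
    · by_contra hne
      obtain ⟨d, z, hz⟩ := exists_crit hk (ih (k - 1) (by omega)) hne
      obtain ⟨x, y, hred, hx, hy⟩ := hz.red
      rcases Nat.lt_or_ge k 5 with h5 | h5
      · obtain rfl : k = 4 := by omega
        have hq : ((4 : ℕ) : ℝ) / (((4 : ℕ) : ℝ) - 1) = 4 / 3 := by norm_num
        rw [hq] at hred
        refine no_red4 hred fun i => ?_
        have h1 := hz.cap3 i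
        rw [← hy i] at h1
        set a := gQ (y i) * (1 - gQ (y i)) with ha
        have h2 : ‖z i‖ ^ 2 ≤ (4 / √(2 * π) * a) ^ 2 :=
          pow_le_pow_left₀ (norm_nonneg _) h1 2
        have h3 : (4 / √(2 * π) * a) ^ 2 = 8 / π * a ^ 2 := by
          rw [mul_pow, div_pow, Real.sq_sqrt (by positivity)]
          field_simp
          ring
        rw [hx i, div_le_iff₀ M0_pos]
        have h4 : 64 / 9 * a ^ 2 * M0 = 8 / π * a ^ 2 := by
          unfold M0
          have := Real.pi_pos
          field_simp
          ring
        rw [h4, ← h3]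
        exact h2
      · rcases Nat.lt_or_ge k 6 with h6 | h6
        · obtain rfl : k = 5 := by omega
          have hq : ((5 : ℕ) : ℝ) / (((5 : ℕ) : ℝ) - 1) = 5 / 4 := by norm_num
          rw [hq] at hred
          exact no_red5 hred
        · rcases Nat.lt_or_ge k 8 with h8 | h8
          · exact no_red67 h6 (by omega) hred
          · exact no_red8 h8 hred

/-- The propeller inequality for every measurable, a.e. pairwise disjoint family. -/
theorem propeller_upper (d k : ℕ) (A : Fin k → Set (E d)) (hm : ∀ i, MeasurableSet (A i))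
    (hd : ∀ i j, i ≠ j → stdGaussian (E d) (A i ∩ A j) = 0) :
    ∑ i, ‖∫ x in A i, x ∂(stdGaussian (E d))‖ ^ 2 ≤ 9 / (8 * π) := by
  -- add the complement as one more cell
  let B : Option (Fin k) → Set (E d) := fun o => o.elim (⋃ i, A i)ᶜ A
  have hBm : ∀ o, MeasurableSet (B o) := by
    intro o
    cases o with
    | none => exact (MeasurableSet.iUnion hm).compl
    | some i => exact hm i
  have hBd : Pairwise (fun i j => AEDisjoint (stdGaussian (E d)) (B i) (B j)) := by
    intro i j hij
    cases i with
    | none =>
      cases j with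
      | none => exact absurd rfl hij
      | some j =>
        refine Disjoint.aedisjoint ?_
        exact (Set.disjoint_compl_left_iff_subset.2 (Set.subset_iUnion A j))
    | some i =>
      cases j with
      | none =>
        refine Disjoint.aedisjoint ?_
        exact (Set.disjoint_compl_left_iff_subset.2 (Set.subset_iUnion A i)).symm
      | some j => exact hd i j (fun h => hij (by rw [h]))
  have hBc : stdGaussian (E d) (⋃ o, B o)ᶜ = 0 := by
    have : (⋃ o, B o) = univ := by
      refine Set.eq_univ_of_forall fun x => ?_
      by_cases hx : x ∈ ⋃ i, A i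
      · obtain ⟨i, hi⟩ := Set.mem_iUnion.1 hx
        exact Set.mem_iUnion.2 ⟨some i, hi⟩
      · exact Set.mem_iUnion.2 ⟨none, hx⟩
    rw [this]; simp
  have h := pk_partition (ι := Option (Fin k)) (pk_all (k + 1)) (by simp) B hBm hBd hBc
  rw [Fintype.sum_option] at h
  have h0 : 0 ≤ ‖∫ x in B none, x ∂(stdGaussian (E d))‖ ^ 2 := by positivity
  have h1 : ∑ i, ‖∫ x in B (some i), x ∂(stdGaussian (E d))‖ ^ 2
      = ∑ i, ‖∫ x in A i, x ∂(stdGaussian (E d))‖ ^ 2 := rfl
  rw [h1] at h
  unfold M0 at h
  linarith

end Vale.Agent.P226
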