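import Vale.Agent.P226.Full.NumTools

/-! Generic tools for the linear bounds of one cell (used by the `Num*Lines` files). -/

namespace Vale.Agent.P226

open Real Set

variable {q x y : ℝ}

theorem CellOK.cap' (h : CellOK q x y) : x ≤ gphi y ^ 2 / M0 := by
  rw [le_div_iff₀ M0_pos]
  linarith [h.cap]

/-- cap part, `y ≤ Y`: it is enough to check the value at `Y`. -/
theorem line_cap (h : CellOK q x y) (m c Y : ℝ) (hm : 0 ≤ m) (hY : Y ≤ 1)
    (hmY : 2 * m * Y * gphi Y ≤ M0) (hc : m * (gphi Y ^ 2 / M0) + c ≤ gQ Y) (hy : y ≤ Y) :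
    m * x + c ≤ gQ y := by
  have h1 := cap_anti m Y hm hY hmY (a := y) (b := Y) ⟨h.y_nonneg, hy⟩
    ⟨h.y_nonneg.trans hy, le_rfl⟩ hy
  simp only at h1
  have h2 := mul_le_mul_of_nonneg_left h.cap' hm
  linarith

/-- On the cap part `Q - m φ²/M0` increases in `y ∈ [Y, 1]` as soon as `2 m Y φ(Y) ≥ M0`. -/
theorem cap_mono (m Y : ℝ) (hm : 0 ≤ m) (hY : 0 ≤ Y) (h : M0 ≤ 2 * m * Y * gphi Y) :
    MonotoneOn (fun y => gQ y - m * (gphi y ^ 2 / M0)) (Icc Y 1) := by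
  have hder : ∀ s, HasDerivAt (fun y => gQ y - m * (gphi y ^ 2 / M0))
      (gphi s * (2 * m * s * gphi s / M0 - 1)) s := by
    intro s
    have h1 := (hasDerivAt_gQ s).sub ((((hasDerivAt_gphi s).pow 2).div_const M0).const_mul m)
    refine (h1.congr_deriv ?_).congr_of_eventuallyEq (Filter.Eventually.of_forall fun s => ?_)
    · norm_num
      ring
    · simp only [Pi.sub_apply, Pi.pow_apply]
  have hmono : MonotoneOn (fun y => y * gphi y) (Icc 0 1) := by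
    have hd : ∀ s, HasDerivAt (fun y => y * gphi y) ((1 - s ^ 2) * gphi s) s := by
      intro s
      have h1 := (hasDerivAt_id s).mul (hasDerivAt_gphi s)
      refine (h1.congr_deriv ?_).congr_of_eventuallyEq (Filter.Eventually.of_forall fun s => ?_)
      · simp only [id]
        ring
      · simp only [id, Pi.mul_apply]
    apply monotoneOn_of_deriv_nonneg (convex_Icc 0 1)
    · exact fun x _ => (hd x).continuousAt.continuousWithinAt
    · exact fun x _ => (hd x).differentiableAt.differentiableWithinAt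
    · intro x hx
      rw [interior_Icc] at hx
      rw [(hd x).deriv]
      exact mul_nonneg (by nlinarith [hx.1, hx.2]) (gphi_pos x).le
  apply monotoneOn_of_deriv_nonneg (convex_Icc Y 1)
  · exact fun x _ => (hder x).continuousAt.continuousWithinAt
  · exact fun x _ => (hder x).differentiableAt.differentiableWithinAt
  · intro x hx
    rw [interior_Icc] at hx
    rw [(hder x).deriv]
    have h2 := hmono (a := Y) (b := x) ⟨hY, (hx.1.trans hx.2).le⟩ ⟨hY.trans hx.1.le, hx.2.le⟩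
      hx.1.le
    simp only at h2
    have h3 : 1 ≤ 2 * m * x * gphi x / M0 := by
      rw [one_le_div M0_pos]
      have := mul_le_mul_of_nonneg_left h2 hm
      linarith
    exact mul_nonneg (gphi_pos x).le (by linarith)

/-- cap part, `Y ≤ y ≤ 1`, right of the maximum of `m φ²/M0 - Q`. -/
theorem line_cap_right (h : CellOK q x y) (m c Y : ℝ) (hm : 0 ≤ m) (hY : 0 ≤ Y)
    (hmY : M0 ≤ 2 * m * Y * gphi Y) (hc : m * (gphi Y ^ 2 / M0) + c ≤ gQ Y) (hy : Y ≤ y)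
    (hy1 : y ≤ 1) : m * x + c ≤ gQ y := by
  have h1 := cap_mono m Y hm hY hmY (a := Y) (b := y) ⟨le_rfl, hy.trans hy1⟩ ⟨hy, hy1⟩ hy
  simp only at h1
  have h2 := mul_le_mul_of_nonneg_left h.cap' hm
  linarith

/-- crude cap bound on a short interval `[Y, Y']`. -/
theorem line_cap_mid (h : CellOK q x y) (m c Y Y' : ℝ) (hm : 0 ≤ m) (hY : 0 ≤ Y)
    (hc : m * (gphi Y ^ 2 / M0) + c ≤ gQ Y') (hy : Y ≤ y) (hy' : y ≤ Y') :
    m * x + c ≤ gQ y := by
  have h1 : gphi y ^ 2 ≤ gphi Y ^ 2 :=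
    pow_le_pow_left₀ (gphi_pos y).le
      (gphi_antitoneOn (mem_Ici.2 hY) (mem_Ici.2 (hY.trans hy)) hy) 2
  have h2 : gphi y ^ 2 / M0 ≤ gphi Y ^ 2 / M0 := div_le_div_of_nonneg_right h1 M0_pos.le
  have h3 := mul_le_mul_of_nonneg_left (h.cap'.trans h2) hm
  have h4 := gQ_antitone hy'
  linarith

/-- deletion part: check the two endpoints. -/
theorem line_E (h : CellOK q x y) (hq0 : 0 ≤ q) (hq : q ≤ 5 / 4) (m c y1 y2 : ℝ) (hm : 0 ≤ m)
    (h1 : 0.48 ≤ y1) (hc1 : m * XE q y1 + c ≤ gQ y1) (hc2 : m * XE q y2 + c ≤ gQ y2)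
    (hy1 : y1 ≤ y) (hy2 : y ≤ y2) : m * x + c ≤ gQ y := by
  have h3 := quasi_E q m y1 y2 y hq0 hq hm h1 hy1 hy2
  have h4 : c ≤ min (gQ y1 - m * XE q y1) (gQ y2 - m * XE q y2) :=
    le_min (by linarith) (by linarith)
  have h5 := mul_le_mul_of_nonneg_left h.del hm
  linarith

/-- tail: `x ≤ ρ Q` for `y ≥ y2`. -/
theorem line_tail (h : CellOK q x y) (hq0 : 0 ≤ q) (rho y2 : ℝ) (hr : 2 * gQ y2 ≤ rho * M0)
    (hy2 : y2 ≤ y) : x ≤ rho * gQ y := by
  have hM := M0_pos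
  have h1 : XE q y ≤ 2 * (ell y / M0) := by
    unfold XE
    have := mul_nonneg hq0 (sq_nonneg (ell y / M0))
    linarith
  have h2 := ell_le_sq y h.y_nonneg
  have h3 : ell y / M0 ≤ gQ y ^ 2 / M0 := div_le_div_of_nonneg_right h2 hM.le
  have h4 : gQ y ≤ gQ y2 := gQ_antitone hy2
  have h5 : 2 * (gQ y ^ 2 / M0) ≤ rho * gQ y := by
    rw [← mul_div_assoc, div_le_iff₀ hM]
    have := mul_le_mul_of_nonneg_left (show 2 * gQ y ≤ rho * M0 by linarith) (gQ_nonneg y)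
    nlinarith
  linarith [h.del]

/-- `x ≥ x0 > X_E(y2)` forces `y < y2`. -/
theorem CellOK.lt_of_XE_lt (h : CellOK q x y) (hq0 : 0 ≤ q) (hq : q ≤ 4 / 3) {x0 y2 : ℝ}
    (hy2 : 0 ≤ y2) (hX : XE q y2 < x0) (hx : x0 ≤ x) : y < y2 := by
  by_contra hcon
  have h1 := XE_antitoneOn q hq hq0 (mem_Ici.2 hy2) (mem_Ici.2 h.y_nonneg) (not_lt.1 hcon)
  linarith [h.del]

/-- `x ≥ x0 > φ(y2)²/M0` forces `y < y2`. -/
theorem CellOK.lt_of_cap_lt (h : CellOK q x y) {x0 y2 : ℝ}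
    (hy2 : 0 ≤ y2) (hX : gphi y2 ^ 2 / M0 < x0) (hx : x0 ≤ x) : y < y2 := by
  by_contra hcon
  have h1 : gphi y ^ 2 ≤ gphi y2 ^ 2 :=
    pow_le_pow_left₀ (gphi_pos y).le
      (gphi_antitoneOn (mem_Ici.2 hy2) (mem_Ici.2 h.y_nonneg) (not_lt.1 hcon)) 2
  have h2 : gphi y ^ 2 / M0 ≤ gphi y2 ^ 2 / M0 := div_le_div_of_nonneg_right h1 M0_pos.le
  linarith [h.cap']

/-- Numerical enclosures of `Q` and `φ` at a point. -/
structure PtB (y ql qu pl pu : ℝ) : Prop where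
  q1 : ql ≤ gQ y
  q2 : gQ y ≤ qu
  p1 : pl ≤ gphi y
  p2 : gphi y ≤ pu

variable {ql qu pl pu : ℝ}

theorem PtB.cap_le (h : PtB y ql qu pl pu) (u : ℝ) (hu0 : 0 ≤ u) (hu : pu ^ 2 ≤ u * 0.3580986) :
    gphi y ^ 2 / M0 ≤ u := by
  rw [div_le_iff₀ M0_pos]
  have h1 : gphi y ^ 2 ≤ pu ^ 2 := pow_le_pow_left₀ (gphi_pos y).le h.p2 2
  have h2 := mul_le_mul_of_nonneg_left M0_bounds.1.le hu0
  linarith

theorem PtB.XE_le (h : PtB y ql qu pl pu) (hy : 0 ≤ y) (u : ℝ)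
    (hu : pu * (pu - y * ql) ≤ u * 0.3580986) (hu0 : 0 ≤ u) (hqu : q * u ≤ 1) (hq0 : 0 ≤ q) :
    XE q y ≤ 2 * u - q * u ^ 2 := by
  have h1 : ell y ≤ pu * (pu - y * ql) := by
    unfold ell
    have h2 := mul_le_mul_of_nonneg_left h.q1 hy
    have h3 := gphi_pos y
    exact mul_le_mul h.p2 (by linarith [h.p2]) (gphi_sub_pos y).le (by linarith [h.p2])
  have h2 := mul_le_mul_of_nonneg_left M0_bounds.1.le hu0
  have h3 : ell y / M0 ≤ u := by
    rw [div_le_iff₀ M0_pos]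
    linarith
  unfold XE
  set v := ell y / M0
  have h4 : q * v ≤ 1 := (mul_le_mul_of_nonneg_left h3 hq0).trans hqu
  nlinarith [mul_nonneg (sub_nonneg.2 h3) (show 0 ≤ 2 - q * (u + v) by linarith)]

theorem PtB.le_XE (h : PtB y ql qu pl pu) (hy : 0 ≤ y) (u : ℝ)
    (hu : u * 0.3580987 ≤ pl * (pl - y * qu)) (hu0 : 0 ≤ u) (hpl : 0 ≤ pl)
    (hq0 : 0 ≤ q) (hq : q ≤ 5 / 4) :
    2 * u - q * u ^ 2 ≤ XE q y := by
  have h1 : pl * (pl - y * qu) ≤ ell y := by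
    unfold ell
    have h2 := mul_le_mul_of_nonneg_left h.q2 hy
    have h4 := gphi_sub_pos y
    rcases le_total 0 (pl - y * qu) with h5 | h5
    · exact mul_le_mul h.p1 (by linarith [h.p1]) h5 (gphi_pos y).le
    · exact (mul_nonpos_of_nonneg_of_nonpos hpl h5).trans (ell_pos y).le
  have h2 := mul_le_mul_of_nonneg_left M0_bounds.2.le hu0
  have h3 : u ≤ ell y / M0 := by
    rw [le_div_iff₀ M0_pos]
    linarith
  have h6 := ell_div_le hy
  unfold XE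
  set v := ell y / M0
  have h4 : q * (u + v) ≤ 2 := by nlinarith
  nlinarith [mul_nonneg (sub_nonneg.2 h3) (show 0 ≤ 2 - q * (u + v) by linarith)]

end Vale.Agent.P226
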