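import Vale.Agent.P226.Full.NumEval

/-!
# P226: generic linear bounds for one cell, reduced to rational checks
(use with `by decide +kernel`)
-/

namespace Vale.Agent.P226

open Real Set Filter Topology

variable {x y : ℝ}

/-- lower rational bound of `M0` -/
def M0L : ℚ := 9 / 4 * cLo ^ 2
/-- upper rational bound of `M0` -/
def M0H : ℚ := 9 / 4 * cHi ^ 2

theorem M0L_le : (M0L : ℝ) ≤ M0 := by
  have := lo_le_M0
  unfold M0L
  push_cast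
  exact this

theorem le_M0H : M0 ≤ (M0H : ℝ) := by
  have := M0_le_hi
  unfold M0H
  push_cast
  exact this

theorem M0L_pos : (0:ℝ) < M0L := by
  unfold M0L cLo
  push_cast
  norm_num

theorem CellOK.le_cap {q : ℝ} (h : CellOK q x y) : x ≤ gphi y ^ 2 / M0 := by
  rw [le_div_iff₀ M0_pos]
  linarith [h.cap]

theorem cap_le_PH (n : ℕ) (Y : ℚ) : gphi (Y:ℝ) ^ 2 / M0 ≤ (PH n Y : ℝ) ^ 2 / M0L :=
  div_le_div₀ (sq_nonneg _) (pow_le_pow_left₀ (gphi_pos _).le (le_PH n Y) 2) M0L_pos M0L_le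

theorem mul_gphi_monotoneOn : MonotoneOn (fun y => y * gphi y) (Icc 0 1) := by
  have hd : ∀ s, HasDerivAt (fun y => y * gphi y) ((1 - s ^ 2) * gphi s) s := by
    intro s
    have h1 := (hasDerivAt_id s).mul (hasDerivAt_gphi s)
    refine (h1.congr_deriv ?_).congr_of_eventuallyEq (Eventually.of_forall fun s => ?_)
    · simp only [id]
      ring
    · simp only [id, Pi.mul_apply]
  apply monotoneOn_of_deriv_nonneg (convex_Icc 0 1)
  · exact fun x _ => (hd x).continuousAt.continuousWithinAt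
  · exact fun x _ => (hd x).differentiableAt.differentiableWithinAt
  · intro x hx
    rw [interior_Icc] at hx
    rw [(hd x).deriv]
    exact mul_nonneg (by nlinarith [hx.1, hx.2]) (gphi_pos x).le

/-- **Line**: `m x + c ≤ Q(y)` for `x ≥ x0`. `yK` = the kink (where `φ²/M0 = XE`), `Y0` slightly
above the point with `XE q Y0 = x0`. -/
theorem lineGen (n : ℕ) (q m c x0 yK Y0 : ℚ)
    (hr : 0 ≤ q ∧ q ≤ 5 / 4 ∧ 0 ≤ m ∧ 12 / 25 ≤ yK ∧ yK ≤ 1 ∧ yK ≤ Y0 ∧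
      2 * m * yK * PH n yK ≤ M0L ∧
      c ≤ QL n yK - m * (PH n yK ^ 2 / M0L) ∧
      XH n q Y0 < x0 ∧
      c ≤ QL n yK - m * XH n q yK ∧
      c ≤ QL n Y0 - m * XH n q Y0)
    (h : CellOK (q : ℝ) x y) (hx : (x0 : ℝ) ≤ x) : (m : ℝ) * x + c ≤ gQ y := by
  obtain ⟨hq0, hq1, hm, hK0, hK1, hKY, h1, h2, h3, h4, h5⟩ := hr
  have hm' : (0:ℝ) ≤ m := by exact_mod_cast hm
  have hK0' : (0.48:ℝ) ≤ yK := by
    have : ((12/25 : ℚ) : ℝ) ≤ yK := by exact_mod_cast hK0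
    norm_num at this ⊢
    exact this
  have hKq : (0:ℚ) ≤ yK := le_trans (by norm_num) hK0
  have hYq : (0:ℚ) ≤ Y0 := hKq.trans hKY
  have hq1' : (q:ℝ) ≤ 5/4 := by
    have : (q:ℝ) ≤ ((5/4 : ℚ) : ℝ) := by exact_mod_cast hq1
    norm_num at this ⊢
    exact this
  have hKY' : (yK:ℝ) ≤ Y0 := by exact_mod_cast hKY
  rcases le_total y (yK:ℝ) with hy | hy
  · -- cap part
    have hY1 : (yK:ℝ) ≤ 1 := by exact_mod_cast hK1
    have hcond : 2 * (m:ℝ) * yK * gphi yK ≤ M0 := by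
      have e1 : (2 * m * yK * PH n yK : ℝ) ≤ M0L := by exact_mod_cast h1
      have e2 : 2 * (m:ℝ) * yK * gphi yK ≤ 2 * (m:ℝ) * yK * PH n yK := by
        apply mul_le_mul_of_nonneg_left (le_PH n yK)
        have : (0:ℝ) ≤ yK := by linarith
        positivity
      linarith [M0L_le]
    have h6 := cap_anti (m:ℝ) (yK:ℝ) hm' hY1 hcond ⟨h.y_nonneg, hy⟩
      ⟨(by linarith : (0:ℝ) ≤ yK), le_rfl⟩ hy
    simp only at h6
    have h7 := QL_le n hKq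
    have h8 := mul_le_mul_of_nonneg_left (cap_le_PH n yK) hm'
    have h9 : (c:ℝ) ≤ (QL n yK : ℝ) - m * ((PH n yK : ℝ) ^ 2 / M0L) := by exact_mod_cast h2
    have h10 := mul_le_mul_of_nonneg_left h.le_cap hm'
    linarith
  · have hyY : y ≤ (Y0:ℝ) := by
      by_contra hcon
      rw [not_le] at hcon
      have e1 : XE q y ≤ XE q Y0 := XE_antitoneOn q (hq1'.trans (by norm_num))
        (by exact_mod_cast hq0) (mem_Ici.2 (by exact_mod_cast hYq)) (mem_Ici.2 h.y_nonneg) hcon.le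
      have e2 := le_XH n hq0 hYq
      have e3 : ((XH n q Y0 : ℚ) : ℝ) < x0 := by exact_mod_cast h3
      linarith [h.del]
    have h6 := quasi_E (q:ℝ) m yK Y0 y (by exact_mod_cast hq0) hq1' hm' hK0' hy hyY
    have a1 := QL_le n hKq
    have a2 := QL_le n hYq
    have a3 := mul_le_mul_of_nonneg_left (le_XH n hq0 hKq) hm'
    have a4 := mul_le_mul_of_nonneg_left (le_XH n hq0 hYq) hm'
    have a5 : (c:ℝ) ≤ (QL n yK : ℝ) - m * (XH n q yK : ℝ) := by exact_mod_cast h4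
    have a6 : (c:ℝ) ≤ (QL n Y0 : ℝ) - m * (XH n q Y0 : ℝ) := by exact_mod_cast h5
    have a7 : (c:ℝ) ≤ min (gQ yK - m * XE q yK) (gQ Y0 - m * XE q Y0) :=
      le_min (by linarith) (by linarith)
    have a8 := mul_le_mul_of_nonneg_left h.del hm'
    linarith

/-- `XE q y ≤ ρ Q(y)` beyond the point `Y'` with `2 ρ⁻¹... `: if `2 Q(Y') ≤ ρ M0`. -/
theorem XE_le_far (q ρ : ℝ) (hq : 0 ≤ q) {Y' y : ℝ} (hY' : 0 ≤ Y') (hy : Y' ≤ y)
    (h : 2 * gQ Y' ≤ ρ * M0) : XE q y ≤ ρ * gQ y := by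
  have h1 := ell_le_sq y (hY'.trans hy)
  have h2 : gQ y ≤ gQ Y' := gQ_antitone hy
  have h3 := gQ_pos' y
  have h4 : XE q y ≤ 2 * (ell y / M0) := by
    unfold XE
    have := mul_nonneg hq (sq_nonneg (ell y / M0))
    linarith
  have h5 : 2 * (ell y / M0) ≤ ρ * gQ y := by
    rw [← mul_div_assoc, div_le_iff₀ M0_pos]
    have : 2 * gQ y * gQ y ≤ ρ * M0 * gQ y := mul_le_mul_of_nonneg_right (by linarith) h3.le
    nlinarith
  linarith

/-- On `[Y1, ∞)` with `Y1 ≥ 0.48`: `XE ≤ ρ Q + D` follows from the inequality at `Y1` and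
`2 Q(Y') ≤ ρ M0` for some `Y' ≥ Y1`. -/
theorem XE_le_tail (q ρ D : ℝ) (hq0 : 0 ≤ q) (hq : q ≤ 5 / 4) (hρ : 0 < ρ) (hD : 0 ≤ D)
    {Y1 Y' y : ℝ} (hY1 : 0.48 ≤ Y1) (hYY : Y1 ≤ Y') (hy : Y1 ≤ y)
    (h1 : XE q Y1 ≤ ρ * gQ Y1 + D) (h : 2 * gQ Y' ≤ ρ * M0) : XE q y ≤ ρ * gQ y + D := by
  rcases le_total Y' y with h2 | h2
  · have := XE_le_far q ρ hq0 (by linarith) h2 h
    linarith
  · have h3 := quasi_E q ρ⁻¹ Y1 Y' y hq0 hq (by positivity) hY1 hy h2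
    have h4 := XE_le_far q ρ hq0 (by linarith : 0 ≤ Y') le_rfl h
    have e1 : -(D / ρ) ≤ gQ Y1 - ρ⁻¹ * XE q Y1 := by
      have : ρ⁻¹ * XE q Y1 ≤ ρ⁻¹ * (ρ * gQ Y1 + D) := mul_le_mul_of_nonneg_left h1 (by positivity)
      have e : ρ⁻¹ * (ρ * gQ Y1 + D) = gQ Y1 + D / ρ := by field_simp
      linarith
    have e2 : -(D / ρ) ≤ gQ Y' - ρ⁻¹ * XE q Y' := by
      have : ρ⁻¹ * XE q Y' ≤ ρ⁻¹ * (ρ * gQ Y') := mul_le_mul_of_nonneg_left h4 (by positivity)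
      have e : ρ⁻¹ * (ρ * gQ Y') = gQ Y' := by field_simp
      have : 0 ≤ D / ρ := by positivity
      linarith
    have h5 := (le_min e1 e2).trans h3
    have h6 : ρ * -(D / ρ) ≤ ρ * (gQ y - ρ⁻¹ * XE q y) := mul_le_mul_of_nonneg_left h5 hρ.le
    have e3 : ρ * (gQ y - ρ⁻¹ * XE q y) = ρ * gQ y - XE q y := by field_simp
    have e4 : ρ * -(D / ρ) = -D := by field_simp
    linarith

/-- **Ratio**: `x ≤ ρ Q(y)` for `x ≤ x1`. `Y1 ≥ 0.48` (slightly below the point with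
`XE q Y1 = x1`), `Y'` large. -/
theorem ratioGen (n : ℕ) (q ρ x1 Y1 Y' : ℚ)
    (hr : 0 ≤ q ∧ q ≤ 5 / 4 ∧ 0 < ρ ∧ 12 / 25 ≤ Y1 ∧ Y1 ≤ Y' ∧
      x1 ≤ ρ * QL n Y1 ∧ XH n q Y1 ≤ ρ * QL n Y1 ∧ 2 * QH n Y' ≤ ρ * M0L)
    (h : CellOK (q : ℝ) x y) (hx : x ≤ (x1:ℝ)) : x ≤ (ρ:ℝ) * gQ y := by
  obtain ⟨hq0, hq1, hρ, hY0, hYY, h1, h2, h3⟩ := hr
  have hρ' : (0:ℝ) < ρ := by exact_mod_cast hρ
  have hY0' : (0.48:ℝ) ≤ Y1 := by
    have : ((12/25 : ℚ) : ℝ) ≤ Y1 := by exact_mod_cast hY0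
    norm_num at this ⊢
    exact this
  have hYq : (0:ℚ) ≤ Y1 := le_trans (by norm_num) hY0
  have hYq' : (0:ℚ) ≤ Y' := hYq.trans hYY
  have hq1' : (q:ℝ) ≤ 5/4 := by
    have : (q:ℝ) ≤ ((5/4 : ℚ) : ℝ) := by exact_mod_cast hq1
    norm_num at this ⊢
    exact this
  have a1 := mul_le_mul_of_nonneg_left (QL_le n hYq) hρ'.le
  rcases le_total y (Y1:ℝ) with hy | hy
  · have e1 : (x1:ℝ) ≤ ρ * QL n Y1 := by exact_mod_cast h1
    have e2 := mul_le_mul_of_nonneg_left (gQ_antitone hy) hρ'.le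
    linarith
  · have e1 := le_XH n hq0 hYq
    have e2 : ((XH n q Y1 : ℚ) : ℝ) ≤ ρ * QL n Y1 := by exact_mod_cast h2
    have e3 : 2 * gQ (Y':ℝ) ≤ ρ * M0 := by
      have b1 := le_QH n hYq'
      have b2 : 2 * (QH n Y' : ℝ) ≤ ρ * M0L := by exact_mod_cast h3
      have b3 := mul_le_mul_of_nonneg_left M0L_le hρ'.le
      linarith
    have e4 := XE_le_tail q ρ 0 (by exact_mod_cast hq0) hq1' hρ' le_rfl hY0'
      (by exact_mod_cast hYY) hy (by linarith) e3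
    linarith [h.del]

/-- On `[0, y1]`: `φ²/M0 - ρ Q` is increasing if `2 y1 φ(y1) ≤ ρ M0`. -/
theorem capdiff_mono (ρ y1 : ℝ) (hy1 : y1 ≤ 1) (h : 2 * y1 * gphi y1 ≤ ρ * M0) :
    MonotoneOn (fun y => gphi y ^ 2 / M0 - ρ * gQ y) (Icc 0 y1) := by
  have hder : ∀ s, HasDerivAt (fun y => gphi y ^ 2 / M0 - ρ * gQ y)
      (gphi s * (ρ - 2 * (s * gphi s) / M0)) s := by
    intro s
    have h1 := (((hasDerivAt_gphi s).pow 2).div_const M0).sub ((hasDerivAt_gQ s).const_mul ρ)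
    refine (h1.congr_deriv ?_).congr_of_eventuallyEq (Eventually.of_forall fun s => ?_)
    · norm_num
      ring
    · simp only [Pi.sub_apply, Pi.pow_apply]
  apply monotoneOn_of_deriv_nonneg (convex_Icc 0 y1)
  · exact fun x _ => (hder x).continuousAt.continuousWithinAt
  · exact fun x _ => (hder x).differentiableAt.differentiableWithinAt
  · intro x hx
    rw [interior_Icc] at hx
    rw [(hder x).deriv]
    have h2 := mul_gphi_monotoneOn (a := x) (b := y1) ⟨hx.1.le, hx.2.le.trans hy1⟩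
      ⟨hx.1.le.trans hx.2.le, hy1⟩ hx.2.le
    simp only at h2
    apply mul_nonneg (gphi_pos x).le
    rw [sub_nonneg, div_le_iff₀ M0_pos]
    linarith

/-- On `[y2, yK]`: `φ²/M0 - ρ Q` is decreasing if `ρ M0 ≤ 2 y2 φ(y2)`. -/
theorem capdiff_anti (ρ y2 yK : ℝ) (hy2 : 0 ≤ y2) (hK : yK ≤ 1) (h : ρ * M0 ≤ 2 * y2 * gphi y2) :
    AntitoneOn (fun y => gphi y ^ 2 / M0 - ρ * gQ y) (Icc y2 yK) := by
  have hder : ∀ s, HasDerivAt (fun y => gphi y ^ 2 / M0 - ρ * gQ y)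
      (-(gphi s * (2 * (s * gphi s) / M0 - ρ))) s := by
    intro s
    have h1 := (((hasDerivAt_gphi s).pow 2).div_const M0).sub ((hasDerivAt_gQ s).const_mul ρ)
    refine (h1.congr_deriv ?_).congr_of_eventuallyEq (Eventually.of_forall fun s => ?_)
    · norm_num
      ring
    · simp only [Pi.sub_apply, Pi.pow_apply]
  apply antitoneOn_of_deriv_nonpos (convex_Icc y2 yK)
  · exact fun x _ => (hder x).continuousAt.continuousWithinAt
  · exact fun x _ => (hder x).differentiableAt.differentiableWithinAt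
  · intro x hx
    rw [interior_Icc] at hx
    rw [(hder x).deriv]
    have h2 := mul_gphi_monotoneOn (a := y2) (b := x) ⟨hy2, hx.1.le.trans (hx.2.le.trans hK)⟩
      ⟨hy2.trans hx.1.le, hx.2.le.trans hK⟩ hx.1.le
    simp only at h2
    have : 0 ≤ gphi x * (2 * (x * gphi x) / M0 - ρ) := by
      apply mul_nonneg (gphi_pos x).le
      rw [sub_nonneg, le_div_iff₀ M0_pos]
      linarith
    linarith

/-- **Upper bound**: `x - ρ Q(y) ≤ D`. `y1 < y2` close to the maximiser of `φ²/M0 - ρ Q`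
(`2 y φ(y) = ρ M0`), `yK` the kink, `Y'` large. -/
theorem upperGen (n : ℕ) (q ρ D y1 y2 yK Y' : ℚ)
    (hr : 0 ≤ q ∧ q ≤ 5 / 4 ∧ 0 < ρ ∧ 0 ≤ D ∧ 0 ≤ y1 ∧ y1 ≤ y2 ∧ y2 ≤ yK ∧ 12 / 25 ≤ yK ∧
      yK ≤ 1 ∧ yK ≤ Y' ∧
      2 * y1 * PH n y1 ≤ ρ * M0L ∧ ρ * M0H ≤ 2 * y2 * PL n y2 ∧
      PH n y1 ^ 2 / M0L - ρ * QL n y2 ≤ D ∧
      XH n q yK ≤ ρ * QL n yK + D ∧ 2 * QH n Y' ≤ ρ * M0L)
    (h : CellOK (q : ℝ) x y) : x - (ρ:ℝ) * gQ y ≤ D := by
  obtain ⟨hq0, hq1, hρ, hD, hy10, hy12, hy2K, hK0, hK1, hKY, h1, h2, h3, h4, h5⟩ := hr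
  have hρ' : (0:ℝ) < ρ := by exact_mod_cast hρ
  have hD' : (0:ℝ) ≤ D := by exact_mod_cast hD
  have hK0' : (0.48:ℝ) ≤ yK := by
    have : ((12/25 : ℚ) : ℝ) ≤ yK := by exact_mod_cast hK0
    norm_num at this ⊢
    exact this
  have hKq : (0:ℚ) ≤ yK := le_trans (by norm_num) hK0
  have hYq' : (0:ℚ) ≤ Y' := hKq.trans hKY
  have hq1' : (q:ℝ) ≤ 5/4 := by
    have : (q:ℝ) ≤ ((5/4 : ℚ) : ℝ) := by exact_mod_cast hq1
    norm_num at this ⊢
    exact this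
  rcases le_total (yK:ℝ) y with hy | hy
  · have a1 := mul_le_mul_of_nonneg_left (QL_le n hKq) hρ'.le
    have e1 := le_XH n hq0 hKq
    have e2 : ((XH n q yK : ℚ) : ℝ) ≤ ρ * QL n yK + D := by exact_mod_cast h4
    have e3 : 2 * gQ (Y':ℝ) ≤ ρ * M0 := by
      have b1 := le_QH n hYq'
      have b2 : 2 * (QH n Y' : ℝ) ≤ ρ * M0L := by exact_mod_cast h5
      have b3 := mul_le_mul_of_nonneg_left M0L_le hρ'.le
      linarith
    have e4 := XE_le_tail q ρ D (by exact_mod_cast hq0) hq1' hρ' hD' hK0'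
      (by exact_mod_cast hKY) hy (by linarith) e3
    linarith [h.del]
  · have hy1' : (0:ℝ) ≤ y1 := by exact_mod_cast hy10
    have hy12' : (y1:ℝ) ≤ y2 := by exact_mod_cast hy12
    have hy2K' : (y2:ℝ) ≤ yK := by exact_mod_cast hy2K
    have hK1' : (yK:ℝ) ≤ 1 := by exact_mod_cast hK1
    have c1 : 2 * (y1:ℝ) * gphi y1 ≤ ρ * M0 := by
      have e1 : (2 * y1 * PH n y1 : ℝ) ≤ ρ * M0L := by exact_mod_cast h1
      have e2 : 2 * (y1:ℝ) * gphi y1 ≤ 2 * (y1:ℝ) * PH n y1 :=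
        mul_le_mul_of_nonneg_left (le_PH n y1) (by positivity)
      have b3 := mul_le_mul_of_nonneg_left M0L_le hρ'.le
      linarith
    have c2 : ρ * M0 ≤ 2 * (y2:ℝ) * gphi y2 := by
      have e1 : (ρ * M0H : ℝ) ≤ 2 * y2 * PL n y2 := by exact_mod_cast h2
      have e2 : 2 * (y2:ℝ) * PL n y2 ≤ 2 * (y2:ℝ) * gphi y2 :=
        mul_le_mul_of_nonneg_left (PL_le n y2) (by linarith)
      have b3 := mul_le_mul_of_nonneg_left le_M0H hρ'.le
      linarith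
    have c3 : gphi (y1:ℝ) ^ 2 / M0 - ρ * gQ (y2:ℝ) ≤ D := by
      have e1 : ((PH n y1 : ℝ) ^ 2 / M0L - ρ * QL n y2 : ℝ) ≤ D := by exact_mod_cast h3
      have e2 := cap_le_PH n y1
      have e3 := mul_le_mul_of_nonneg_left (QL_le n (hy10.trans hy12)) hρ'.le
      linarith
    have key : gphi y ^ 2 / M0 - ρ * gQ y ≤ gphi (y1:ℝ) ^ 2 / M0 - ρ * gQ (y2:ℝ) := by
      rcases le_total y (y1:ℝ) with g1 | g1
      · have := capdiff_mono ρ y1 (hy12'.trans (hy2K'.trans hK1')) c1 ⟨h.y_nonneg, g1⟩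
          ⟨hy1', le_rfl⟩ g1
        simp only at this
        have e3 := mul_le_mul_of_nonneg_left (gQ_antitone hy12') hρ'.le
        linarith
      · rcases le_total y (y2:ℝ) with g2 | g2
        · have e1 : gphi y ^ 2 / M0 ≤ gphi (y1:ℝ) ^ 2 / M0 := by
            apply div_le_div_of_nonneg_right _ M0_pos.le
            exact pow_le_pow_left₀ (gphi_pos y).le
              (gphi_antitoneOn (mem_Ici.2 hy1') (mem_Ici.2 h.y_nonneg) g1) 2
          have e3 := mul_le_mul_of_nonneg_left (gQ_antitone g2) hρ'.le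
          linarith
        · have := capdiff_anti ρ y2 yK (hy1'.trans hy12') hK1' c2 ⟨le_rfl, hy2K'⟩
            ⟨g2, hy⟩ g2
          simp only at this
          have e1 : gphi (y2:ℝ) ^ 2 / M0 ≤ gphi (y1:ℝ) ^ 2 / M0 := by
            apply div_le_div_of_nonneg_right _ M0_pos.le
            exact pow_le_pow_left₀ (gphi_pos _).le
              (gphi_antitoneOn (mem_Ici.2 hy1') (mem_Ici.2 (hy1'.trans hy12')) hy12') 2
          linarith
    linarith [h.le_cap]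

/-- **Constrained upper bound**: `x - ρ Q(y) ≤ D` for `x ≥ x1`; `yc` slightly above the point
with `φ(yc)² = M0 x1`. -/
theorem upperConGen (n : ℕ) (q ρ D x1 yc : ℚ)
    (hr : 0 < ρ ∧ 0 ≤ yc ∧ yc ≤ 1 ∧
      2 * yc * PH n yc ≤ ρ * M0L ∧ PH n yc ^ 2 < M0L * x1 ∧ 0 ≤ x1 ∧
      PH n yc ^ 2 / M0L - ρ * QL n yc ≤ D)
    (h : CellOK (q : ℝ) x y) (hx : (x1:ℝ) ≤ x) : x - (ρ:ℝ) * gQ y ≤ D := by
  obtain ⟨hρ, hy10, hyc1, h1, h2, hx1, h3⟩ := hr
  have hρ' : (0:ℝ) < ρ := by exact_mod_cast hρ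
  have hyc' : (0:ℝ) ≤ yc := by exact_mod_cast hy10
  have hx1' : (0:ℝ) ≤ x1 := by exact_mod_cast hx1
  have hy : y ≤ (yc:ℝ) := by
    by_contra hcon
    rw [not_le] at hcon
    have e1 : gphi y ^ 2 ≤ gphi (yc:ℝ) ^ 2 := pow_le_pow_left₀ (gphi_pos y).le
      (gphi_antitoneOn (mem_Ici.2 hyc') (mem_Ici.2 h.y_nonneg) hcon.le) 2
    have e2 : gphi (yc:ℝ) ^ 2 ≤ (PH n yc : ℝ) ^ 2 := pow_le_pow_left₀ (gphi_pos _).le (le_PH n yc) 2
    have e3 : ((PH n yc : ℝ) ^ 2 : ℝ) < M0L * x1 := by exact_mod_cast h2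
    have e4 : M0L * (x1:ℝ) ≤ M0 * x1 := mul_le_mul_of_nonneg_right M0L_le hx1'
    have e5 : M0 * (x1:ℝ) ≤ M0 * x := mul_le_mul_of_nonneg_left hx M0_pos.le
    linarith [h.cap]
  have c1 : 2 * (yc:ℝ) * gphi yc ≤ ρ * M0 := by
    have e1 : (2 * yc * PH n yc : ℝ) ≤ ρ * M0L := by exact_mod_cast h1
    have e2 : 2 * (yc:ℝ) * gphi yc ≤ 2 * (yc:ℝ) * PH n yc :=
      mul_le_mul_of_nonneg_left (le_PH n yc) (by positivity)
    have b3 := mul_le_mul_of_nonneg_left M0L_le hρ'.le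
    linarith
  have key := capdiff_mono ρ yc (by exact_mod_cast hyc1) c1 ⟨h.y_nonneg, hy⟩ ⟨hyc', le_rfl⟩ hy
  simp only at key
  have e1 : ((PH n yc : ℝ) ^ 2 / M0L - ρ * QL n yc : ℝ) ≤ D := by exact_mod_cast h3
  have e2 := cap_le_PH n yc
  have e3 := mul_le_mul_of_nonneg_left (QL_le n hy10) hρ'.le
  linarith [h.le_cap]

end Vale.Agent.P226
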