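import Vale.Agent.P226.Full.LineTools

/-! Task P226-N5L: linear bounds for `q = 5/4`. True values of the extremal constants are given in
the comments. -/

namespace Vale.Agent.P226

open Real Set

namespace N5

theorem pt_0_3494 : PtB 0.3494 0.3633945 0.3633946 0.375319 0.3753191 := by
  have hQl := gQ_ge_series 3 0.3494 (by norm_num)
  have hQu := gQ_le_series 3 0.3494 (by norm_num)
  have hpl := gphi_ge_series 3 0.3494
  have hpu := gphi_le_series 3 0.3494
  have hc := inv_sqrt_two_pi_bounds
  simp only [gser, Finset.sum_range_succ, Finset.sum_range_zero, Nat.factorial] at hQl hQu hpl hpu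
  set c := (√(2 * π))⁻¹ with hcdef
  norm_num at hQl hQu hpl hpu hc
  refine ⟨?_, ?_, ?_, ?_⟩
  · norm_num at hQl ⊢; linarith [hc.1, hc.2]
  · norm_num at hQu ⊢; linarith [hc.1, hc.2]
  · norm_num at hpl ⊢; linarith [hc.1, hc.2]
  · norm_num at hpu ⊢; linarith [hc.1, hc.2]

theorem pt_0_3496 : PtB 0.3496 0.3633194 0.3633195 0.3752928 0.3752929 := by
  have hQl := gQ_ge_series 3 0.3496 (by norm_num)
  have hQu := gQ_le_series 3 0.3496 (by norm_num)
  have hpl := gphi_ge_series 3 0.3496
  have hpu := gphi_le_series 3 0.3496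
  have hc := inv_sqrt_two_pi_bounds
  simp only [gser, Finset.sum_range_succ, Finset.sum_range_zero, Nat.factorial] at hQl hQu hpl hpu
  set c := (√(2 * π))⁻¹ with hcdef
  norm_num at hQl hQu hpl hpu hc
  refine ⟨?_, ?_, ?_, ?_⟩
  · norm_num at hQl ⊢; linarith [hc.1, hc.2]
  · norm_num at hQu ⊢; linarith [hc.1, hc.2]
  · norm_num at hpl ⊢; linarith [hc.1, hc.2]
  · norm_num at hpu ⊢; linarith [hc.1, hc.2]

theorem pt_0_4832 : PtB 0.4832 0.3144768 0.3144769 0.354985 0.3549851 := by
  have hQl := gQ_ge_series 3 0.4832 (by norm_num)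
  have hQu := gQ_le_series 3 0.4832 (by norm_num)
  have hpl := gphi_ge_series 3 0.4832
  have hpu := gphi_le_series 3 0.4832
  have hc := inv_sqrt_two_pi_bounds
  simp only [gser, Finset.sum_range_succ, Finset.sum_range_zero, Nat.factorial] at hQl hQu hpl hpu
  set c := (√(2 * π))⁻¹ with hcdef
  norm_num at hQl hQu hpl hpu hc
  refine ⟨?_, ?_, ?_, ?_⟩
  · norm_num at hQl ⊢; linarith [hc.1, hc.2]
  · norm_num at hQu ⊢; linarith [hc.1, hc.2]
  · norm_num at hpl ⊢; linarith [hc.1, hc.2]
  · norm_num at hpu ⊢; linarith [hc.1, hc.2]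

theorem pt_0_83 : PtB 0.83 0.2032693 0.2032694 0.2826944 0.2826945 := by
  have hQl := gQ_ge_series 4 0.83 (by norm_num)
  have hQu := gQ_le_series 4 0.83 (by norm_num)
  have hpl := gphi_ge_series 4 0.83
  have hpu := gphi_le_series 4 0.83
  have hc := inv_sqrt_two_pi_bounds
  simp only [gser, Finset.sum_range_succ, Finset.sum_range_zero, Nat.factorial] at hQl hQu hpl hpu
  set c := (√(2 * π))⁻¹ with hcdef
  norm_num at hQl hQu hpl hpu hc
  refine ⟨?_, ?_, ?_, ?_⟩
  · norm_num at hQl ⊢; linarith [hc.1, hc.2]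
  · norm_num at hQu ⊢; linarith [hc.1, hc.2]
  · norm_num at hpl ⊢; linarith [hc.1, hc.2]
  · norm_num at hpu ⊢; linarith [hc.1, hc.2]

theorem pt_0_885 : PtB 0.885 0.1880783 0.1880784 0.2696714 0.2696715 := by
  have hQl := gQ_ge_series 4 0.885 (by norm_num)
  have hQu := gQ_le_series 4 0.885 (by norm_num)
  have hpl := gphi_ge_series 4 0.885
  have hpu := gphi_le_series 4 0.885
  have hc := inv_sqrt_two_pi_bounds
  simp only [gser, Finset.sum_range_succ, Finset.sum_range_zero, Nat.factorial] at hQl hQu hpl hpu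
  set c := (√(2 * π))⁻¹ with hcdef
  norm_num at hQl hQu hpl hpu hc
  refine ⟨?_, ?_, ?_, ?_⟩
  · norm_num at hQl ⊢; linarith [hc.1, hc.2]
  · norm_num at hQu ⊢; linarith [hc.1, hc.2]
  · norm_num at hpl ⊢; linarith [hc.1, hc.2]
  · norm_num at hpu ⊢; linarith [hc.1, hc.2]

theorem pt_0_946 : PtB 0.946 0.1720742 0.1720743 0.2550242 0.2550243 := by
  have hQl := gQ_ge_series 4 0.946 (by norm_num)
  have hQu := gQ_le_series 4 0.946 (by norm_num)
  have hpl := gphi_ge_series 4 0.946
  have hpu := gphi_le_series 4 0.946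
  have hc := inv_sqrt_two_pi_bounds
  simp only [gser, Finset.sum_range_succ, Finset.sum_range_zero, Nat.factorial] at hQl hQu hpl hpu
  set c := (√(2 * π))⁻¹ with hcdef
  norm_num at hQl hQu hpl hpu hc
  refine ⟨?_, ?_, ?_, ?_⟩
  · norm_num at hQl ⊢; linarith [hc.1, hc.2]
  · norm_num at hQu ⊢; linarith [hc.1, hc.2]
  · norm_num at hpl ⊢; linarith [hc.1, hc.2]
  · norm_num at hpu ⊢; linarith [hc.1, hc.2]

theorem pt_1_2 : PtB 1.2 0.1150696 0.1150697 0.194186 0.1941861 := by
  have hQl := gQ_ge_series 5 1.2 (by norm_num)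
  have hQu := gQ_le_series 5 1.2 (by norm_num)
  have hpl := gphi_ge_series 5 1.2
  have hpu := gphi_le_series 5 1.2
  have hc := inv_sqrt_two_pi_bounds
  simp only [gser, Finset.sum_range_succ, Finset.sum_range_zero, Nat.factorial] at hQl hQu hpl hpu
  set c := (√(2 * π))⁻¹ with hcdef
  norm_num at hQl hQu hpl hpu hc
  refine ⟨?_, ?_, ?_, ?_⟩
  · norm_num at hQl ⊢; linarith [hc.1, hc.2]
  · norm_num at hQu ⊢; linarith [hc.1, hc.2]
  · norm_num at hpl ⊢; linarith [hc.1, hc.2]
  · norm_num at hpu ⊢; linarith [hc.1, hc.2]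

theorem xe54_0_4832 : 0.3518946 ≤ XE (5 / 4) 0.4832 ∧ XE (5 / 4) 0.4832 ≤ 0.3518951 := by
  constructor
  · refine le_trans (by norm_num) (pt_0_4832.le_XE (by norm_num) 0.2012644 (by norm_num)
      (by norm_num) (by norm_num) (by norm_num) (by norm_num))
  · refine le_trans (pt_0_4832.XE_le (by norm_num) 0.2012647 (by norm_num)
      (by norm_num) (by norm_num) (by norm_num)) (by norm_num)

theorem xe54_0_83 : 0.1698394 ≤ XE (5 / 4) 0.83 ∧ XE (5 / 4) 0.83 ≤ 0.1698401 := by
  constructor
  · refine le_trans (by norm_num) (pt_0_83.le_XE (by norm_num) 0.08998 (by norm_num)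
      (by norm_num) (by norm_num) (by norm_num) (by norm_num))
  · refine le_trans (pt_0_83.XE_le (by norm_num) 0.0899803 (by norm_num)
      (by norm_num) (by norm_num) (by norm_num)) (by norm_num)

theorem xe54_0_885 : 0.1479126 ≤ XE (5 / 4) 0.885 ∧ XE (5 / 4) 0.885 ≤ 0.1479132 := by
  constructor
  · refine le_trans (by norm_num) (pt_0_885.le_XE (by norm_num) 0.0777328 (by norm_num)
      (by norm_num) (by norm_num) (by norm_num) (by norm_num))
  · refine le_trans (pt_0_885.XE_le (by norm_num) 0.0777331 (by norm_num)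
      (by norm_num) (by norm_num) (by norm_num)) (by norm_num)

theorem xe54_0_946 : 0.125988 ≤ XE (5 / 4) 0.946 ∧ XE (5 / 4) 0.946 ≤ 0.1259886 := by
  constructor
  · refine le_trans (by norm_num) (pt_0_946.le_XE (by norm_num) 0.0656911 (by norm_num)
      (by norm_num) (by norm_num) (by norm_num) (by norm_num))
  · refine le_trans (pt_0_946.XE_le (by norm_num) 0.0656914 (by norm_num)
      (by norm_num) (by norm_num) (by norm_num)) (by norm_num)

theorem xe54_1_2 : 0.059688 ≤ XE (5 / 4) 1.2 ∧ XE (5 / 4) 1.2 ≤ 0.0596887 := by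
  constructor
  · refine le_trans (by norm_num) (pt_1_2.le_XE (by norm_num) 0.0304225 (by norm_num)
      (by norm_num) (by norm_num) (by norm_num) (by norm_num))
  · refine le_trans (pt_1_2.XE_le (by norm_num) 0.0304228 (by norm_num)
      (by norm_num) (by norm_num) (by norm_num)) (by norm_num)

theorem cap_0_3494 : gphi 0.3494 ^ 2 / M0 ≤ 0.3933678 :=
  pt_0_3494.cap_le _ (by norm_num) (by norm_num)

theorem cap_0_3496 : gphi 0.3496 ^ 2 / M0 ≤ 0.3933128 :=
  pt_0_3496.cap_le _ (by norm_num) (by norm_num)

theorem cap_0_4832 : gphi 0.4832 ^ 2 / M0 ≤ 0.3518987 :=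
  pt_0_4832.cap_le _ (by norm_num) (by norm_num)

end N5

open N5

variable {x y : ℝ}

-- min of a - 0.6308 x on x ≥ 0.126 is 0.09250
theorem n5_line1 (h : CellOK (5 / 4) x y) (hx : 0.126 ≤ x) : 0.6308 * x + 0.09235 ≤ gQ y := by
  have hM := M0_bounds
  have hX := xe54_0_946
  have hX1 := xe54_0_4832
  have hC := cap_0_4832
  have hP := pt_0_4832
  have hP2 := pt_0_946
  rcases le_total y 0.4832 with hy | hy
  · refine line_cap h _ _ 0.4832 (by norm_num) (by norm_num) ?_ ?_ hy
    · have := hP.p2
      norm_num at *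
      linarith
    · have := hP.q1
      norm_num at *
      linarith
  · have hy2 : y < 0.946 :=
      h.lt_of_XE_lt (by norm_num) (by norm_num) (by norm_num) (lt_of_le_of_lt hX.2 (by norm_num)) hx
    refine line_E h (by norm_num) (by norm_num) _ _ 0.4832 0.946 (by norm_num) (by norm_num)
      ?_ ?_ hy hy2.le
    · have := hP.q1
      norm_num at *
      linarith
    · have := hP2.q1
      norm_num at *
      linarith

-- max ratio 0.732205
theorem n5_rho (h : CellOK (5 / 4) x y) (hx : x ≤ 0.126) : x ≤ 0.7325 * gQ y := by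
  have hM := M0_bounds
  have hX1 := xe54_0_946
  have hX2 := xe54_1_2
  have hP1 := pt_0_946
  have hP2 := pt_1_2
  rcases le_total y 0.946 with hy | hy
  · have h1 := gQ_antitone hy
    have := hP1.q1
    norm_num at *
    linarith
  · rcases le_total y 1.2 with hy2 | hy2
    · have := line_E h (by norm_num) (by norm_num) (1 / 0.7325) 0 0.946 1.2 (by norm_num)
        (by norm_num) ?_ ?_ hy hy2
      · norm_num at *
        linarith
      · have := hP1.q1
        norm_num at *
        linarith
      · have := hP2.q1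
        norm_num at *
        linarith
    · refine line_tail h (by norm_num) _ 1.2 ?_ hy2
      have := hP2.q2
      norm_num at *
      linarith

-- max 0.12718
theorem n5_D (h : CellOK (5 / 4) x y) : x - 0.7325 * gQ y ≤ 0.1273 := by
  have hM := M0_bounds
  have hX1 := xe54_0_4832
  have hX2 := xe54_1_2
  have hC1 := cap_0_3494
  have hC2 := cap_0_3496
  have hP1 := pt_0_3494
  have hP2 := pt_0_3496
  have hP3 := pt_0_4832
  have hP4 := pt_1_2
  rcases le_total y 0.3494 with hy | hy
  · have := line_cap h (1 / 0.7325) (-0.1273 / 0.7325) 0.3494 (by norm_num) (by norm_num) ?_ ?_ hy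
    · norm_num at *
      linarith
    · have := hP1.p2
      norm_num at *
      linarith
    · have := hP1.q1
      norm_num at *
      linarith
  rcases le_total y 0.3496 with hy1 | hy1
  · have := line_cap_mid h (1 / 0.7325) (-0.1273 / 0.7325) 0.3494 0.3496 (by norm_num)
      (by norm_num) ?_ hy hy1
    · norm_num at *
      linarith
    · have := hP2.q1
      norm_num at *
      linarith
  rcases le_total y 0.4832 with hy2 | hy2
  · have := line_cap_right h (1 / 0.7325) (-0.1273 / 0.7325) 0.3496 (by norm_num)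
      (by norm_num) ?_ ?_ hy1 (hy2.trans (by norm_num))
    · norm_num at *
      linarith
    · have := hP2.p1
      norm_num at *
      linarith
    · have := hP2.q1
      norm_num at *
      linarith
  rcases le_total y 1.2 with hy3 | hy3
  · have := line_E h (by norm_num) (by norm_num) (1 / 0.7325) (-0.1273 / 0.7325) 0.4832 1.2
      (by norm_num) (by norm_num) ?_ ?_ hy2 hy3
    · norm_num at *
      linarith
    · have := hP3.q1
      norm_num at *
      linarith
    · have := hP4.q1
      norm_num at *
      linarith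
  · have := line_tail h (by norm_num) 0.7325 1.2 ?_ hy3
    · norm_num at *
      linarith
    · have := hP4.q2
      norm_num at *
      linarith

-- max 0.010283
theorem n5_mid (h : CellOK (5 / 4) x y) (hx : x ≤ 4 / 27) : x - 0.7325 * gQ y ≤ 0.0104 := by
  have hM := M0_bounds
  have hX1 := xe54_0_885
  have hX2 := xe54_1_2
  have hP1 := pt_0_885
  have hP2 := pt_1_2
  rcases le_total y 0.885 with hy | hy
  · have h1 := gQ_antitone hy
    have := hP1.q1
    norm_num at *
    linarith
  · rcases le_total y 1.2 with hy2 | hy2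
    · have := line_E h (by norm_num) (by norm_num) (1 / 0.7325) (-0.0104 / 0.7325) 0.885 1.2
        (by norm_num) (by norm_num) ?_ ?_ hy hy2
      · norm_num at *
        linarith
      · have := hP1.q1
        norm_num at *
        linarith
      · have := hP2.q1
        norm_num at *
        linarith
    · have := line_tail h (by norm_num) 0.7325 1.2 ?_ hy2
      · norm_num at *
        linarith
      · have := hP2.q2
        norm_num at *
        linarith

-- min of a - 0.61 x is 0.099678
theorem n5_line2 (h : CellOK (5 / 4) x y) (hx : 0.17 ≤ x) : 0.61 * x + 0.0995 ≤ gQ y := by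
  have hM := M0_bounds
  have hX := xe54_0_83
  have hX1 := xe54_0_4832
  have hC := cap_0_4832
  have hP := pt_0_4832
  have hP2 := pt_0_83
  rcases le_total y 0.4832 with hy | hy
  · refine line_cap h _ _ 0.4832 (by norm_num) (by norm_num) ?_ ?_ hy
    · have := hP.p2
      norm_num at *
      linarith
    · have := hP.q1
      norm_num at *
      linarith
  · have hy2 : y < 0.83 :=
      h.lt_of_XE_lt (by norm_num) (by norm_num) (by norm_num) (lt_of_le_of_lt hX.2 (by norm_num)) hx
    refine line_E h (by norm_num) (by norm_num) _ _ 0.4832 0.83 (by norm_num) (by norm_num)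
      ?_ ?_ hy hy2.le
    · have := hP.q1
      norm_num at *
      linarith
    · have := hP2.q1
      norm_num at *
      linarith

-- min of a - 0.7 x is 0.083883
theorem n5_line3 (h : CellOK (5 / 4) x y) (hx : 0.126 ≤ x) (hx' : x ≤ 0.17) :
    0.7 * x + 0.0838 ≤ gQ y := by
  have hM := M0_bounds
  have hX1 := xe54_0_83
  have hX2 := xe54_0_946
  have hP1 := pt_0_83
  have hP2 := pt_0_946
  rcases le_total y 0.83 with hy | hy
  · have h1 := gQ_antitone hy
    have := hP1.q1
    norm_num at *
    linarith
  · have hy2 : y < 0.946 :=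
      h.lt_of_XE_lt (by norm_num) (by norm_num) (by norm_num) (lt_of_le_of_lt hX2.2 (by norm_num)) hx
    refine line_E h (by norm_num) (by norm_num) _ _ 0.83 0.946 (by norm_num) (by norm_num)
      ?_ ?_ hy hy2.le
    · have := hP1.q1
      norm_num at *
      linarith
    · have := hP2.q1
      norm_num at *
      linarith

-- min of a - x is -0.037418
theorem n5_line4 (h : CellOK (5 / 4) x y) : x - 0.0376 ≤ gQ y := by
  have hM := M0_bounds
  have hX1 := xe54_0_4832
  have hX2 := xe54_1_2
  have hC := cap_0_4832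
  have hP1 := pt_0_4832
  have hP2 := pt_1_2
  rcases le_total y 0.4832 with hy | hy
  · have := line_cap h 1 (-0.0376) 0.4832 (by norm_num) (by norm_num) ?_ ?_ hy
    · linarith
    · have := hP1.p2
      norm_num at *
      linarith
    · have := hP1.q1
      norm_num at *
      linarith
  rcases le_total y 1.2 with hy3 | hy3
  · have := line_E h (by norm_num) (by norm_num) 1 (-0.0376) 0.4832 1.2
      (by norm_num) (by norm_num) ?_ ?_ hy hy3
    · linarith
    · have := hP1.q1
      norm_num at *
      linarith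
    · have := hP2.q1
      norm_num at *
      linarith
  · have := line_tail h (by norm_num) 0.7325 1.2 ?_ hy3
    · have := gQ_nonneg y
      norm_num at *
      linarith
    · have := hP2.q2
      norm_num at *
      linarith

end Vale.Agent.P226
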