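import Vale.Agent.P226.Full.NumTools
import Vale.Agent.P226.Full.LinesGen

/-! Task P226-N6L: linear bounds for `q = 7/6`. True extremal constants in the comments. -/

namespace Vale.Agent.P226

variable {x y : ℝ}

theorem CellOK.cast76 (h : CellOK (7 / 6) x y) : CellOK ((7 / 6 : ℚ) : ℝ) x y := by
  push_cast
  exact h

-- min of a - 0.6138 x on x ≥ 0.146 is 0.096756
theorem n6_line1 (h : CellOK (7 / 6) x y) (hx : 0.146 ≤ x) : 0.6138 * x + 0.0966 ≤ gQ y := by
  have := lineGen 10 (7 / 6) 0.6138 0.0966 0.146 0.49518 0.8914 (by decide +kernel) h.cast76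
    (by norm_num at *; exact hx)
  norm_num at *
  exact this

-- min of a - 0.6138 x on x ≥ 0.14 is 0.096153
theorem n6_line2 (h : CellOK (7 / 6) x y) (hx : 0.14 ≤ x) : 0.6138 * x + 0.0961 ≤ gQ y := by
  have := lineGen 10 (7 / 6) 0.6138 0.0961 0.14 0.49518 0.90745 (by decide +kernel) h.cast76
    (by norm_num at *; exact hx)
  norm_num at *
  exact this

-- max ratio 0.783386
theorem n6_rho (h : CellOK (7 / 6) x y) (hx : x ≤ 0.146) : x ≤ 0.784 * gQ y := by
  have := ratioGen 10 (7 / 6) 0.784 0.146 0.8913 1.1 (by decide +kernel) h.cast76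
    (by norm_num at *; exact hx)
  norm_num at *
  exact this

-- max ratio 0.768870
theorem n6_rho2 (h : CellOK (7 / 6) x y) (hx : x ≤ 0.14) : x ≤ 0.769 * gQ y := by
  have := ratioGen 10 (7 / 6) 0.769 0.14 0.90744 1.1 (by decide +kernel) h.cast76
    (by norm_num at *; exact hx)
  norm_num at *
  exact this

-- max 0.114055
theorem n6_D2 (h : CellOK (7 / 6) x y) : x - 0.769 * gQ y ≤ 0.1142 := by
  have := upperGen 10 (7 / 6) 0.769 0.1142 0.36949 0.36955 0.49518 1.1 (by decide +kernel) h.cast76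
  norm_num at *
  linarith

-- max ratio 0.788487
theorem n6_rho3 (h : CellOK (7 / 6) x y) (hx : x ≤ 4 / 27) : x ≤ 0.789 * gQ y := by
  have := ratioGen 10 (7 / 6) 0.789 (4 / 27) 0.8857 1.1 (by decide +kernel) h.cast76
    (by norm_num at *; exact hx)
  norm_num at *
  exact this

-- max 0.106979
theorem n6_D3 (h : CellOK (7 / 6) x y) : x - 0.789 * gQ y ≤ 0.1071 := by
  have := upperGen 10 (7 / 6) 0.789 0.1071 0.38070 0.38075 0.49518 1.1 (by decide +kernel) h.cast76
  norm_num at *
  linarith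

-- max 0.0996656
theorem n6_D3' (h : CellOK (7 / 6) x y) (hx : 0.42 ≤ x) : x - 0.789 * gQ y ≤ 0.0998 := by
  have := upperConGen 10 (7 / 6) 0.789 0.0998 0.42 0.23785 (by decide +kernel) h.cast76
    (by norm_num at *; exact hx)
  norm_num at *
  linarith

end Vale.Agent.P226
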