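import Vale.Agent.P226.Full.NumGen8

/-! Task P226-N8L: linear bounds for `q = 1` (helper18). -/

namespace Vale.Agent.P226

open Real

variable {x y : ℝ}

theorem q8_0517 : 0.3025780 ≤ gQ 0.517 ∧ gQ 0.517 ≤ 0.3025782 ∧ 0.3490349 ≤ gphi 0.517 ∧ gphi 0.517 ≤ 0.3490351 := by
  have hc := inv_sqrt_two_pi_bounds
  have h1 := gQ_ge_series 4 0.517 (by norm_num)
  have h2 := gQ_le_series 4 0.517 (by norm_num)
  have h3 := gphi_ge_series 4 0.517
  have h4 := gphi_le_series 4 0.517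
  norm_num [gser, Finset.sum_range_succ, Nat.factorial] at h1 h2 h3 h4
  refine ⟨?_, ?_, ?_, ?_⟩ <;> norm_num at hc ⊢ <;> linarith [hc.1, hc.2]

theorem q8_7705 : 0.2205016 ≤ gQ 0.7705 ∧ gQ 0.7705 ≤ 0.2205018 ∧ 0.2964805 ≤ gphi 0.7705 ∧ gphi 0.7705 ≤ 0.2964806 := by
  have hc := inv_sqrt_two_pi_bounds
  have h1 := gQ_ge_series 4 0.7705 (by norm_num)
  have h2 := gQ_le_series 4 0.7705 (by norm_num)
  have h3 := gphi_ge_series 4 0.7705
  have h4 := gphi_le_series 4 0.7705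
  norm_num [gser, Finset.sum_range_succ, Nat.factorial] at h1 h2 h3 h4
  refine ⟨?_, ?_, ?_, ?_⟩ <;> norm_num at hc ⊢ <;> linarith [hc.1, hc.2]

theorem q8_9154 : 0.1799908 ≤ gQ 0.9154 ∧ gQ 0.9154 ≤ 0.1799909 ∧ 0.2623916 ≤ gphi 0.9154 ∧ gphi 0.9154 ≤ 0.2623917 := by
  have hc := inv_sqrt_two_pi_bounds
  have h1 := gQ_ge_series 4 0.9154 (by norm_num)
  have h2 := gQ_le_series 4 0.9154 (by norm_num)
  have h3 := gphi_ge_series 4 0.9154
  have h4 := gphi_le_series 4 0.9154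
  norm_num [gser, Finset.sum_range_succ, Nat.factorial] at h1 h2 h3 h4
  refine ⟨?_, ?_, ?_, ?_⟩ <;> norm_num at hc ⊢ <;> linarith [hc.1, hc.2]

theorem q8_7703 : 0.2205609 ≤ gQ 0.7703 ∧ gQ 0.7703 ≤ 0.2205611 ∧ 0.2965262 ≤ gphi 0.7703 ∧ gphi 0.7703 ≤ 0.2965263 := by
  have hc := inv_sqrt_two_pi_bounds
  have h1 := gQ_ge_series 4 0.7703 (by norm_num)
  have h2 := gQ_le_series 4 0.7703 (by norm_num)
  have h3 := gphi_ge_series 4 0.7703
  have h4 := gphi_le_series 4 0.7703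
  norm_num [gser, Finset.sum_range_succ, Nat.factorial] at h1 h2 h3 h4
  refine ⟨?_, ?_, ?_, ?_⟩ <;> norm_num at hc ⊢ <;> linarith [hc.1, hc.2]

theorem q8_9153 : 0.1800170 ≤ gQ 0.9153 ∧ gQ 0.9153 ≤ 0.1800172 ∧ 0.2624156 ≤ gphi 0.9153 ∧ gphi 0.9153 ≤ 0.2624157 := by
  have hc := inv_sqrt_two_pi_bounds
  have h1 := gQ_ge_series 4 0.9153 (by norm_num)
  have h2 := gQ_le_series 4 0.9153 (by norm_num)
  have h3 := gphi_ge_series 4 0.9153
  have h4 := gphi_le_series 4 0.9153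
  norm_num [gser, Finset.sum_range_succ, Nat.factorial] at h1 h2 h3 h4
  refine ⟨?_, ?_, ?_, ?_⟩ <;> norm_num at hc ⊢ <;> linarith [hc.1, hc.2]

theorem q8_9099 : 0.1814375 ≤ gQ 0.9099 ∧ gQ 0.9099 ≤ 0.1814377 ∧ 0.2637120 ≤ gphi 0.9099 ∧ gphi 0.9099 ≤ 0.2637121 := by
  have hc := inv_sqrt_two_pi_bounds
  have h1 := gQ_ge_series 4 0.9099 (by norm_num)
  have h2 := gQ_le_series 4 0.9099 (by norm_num)
  have h3 := gphi_ge_series 4 0.9099
  have h4 := gphi_le_series 4 0.9099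
  norm_num [gser, Finset.sum_range_succ, Nat.factorial] at h1 h2 h3 h4
  refine ⟨?_, ?_, ?_, ?_⟩ <;> norm_num at hc ⊢ <;> linarith [hc.1, hc.2]

theorem q8_8883 : 0.1871896 ≤ gQ 0.8883 ∧ gQ 0.8883 ≤ 0.1871898 ∧ 0.2688834 ≤ gphi 0.8883 ∧ gphi 0.8883 ≤ 0.2688836 := by
  have hc := inv_sqrt_two_pi_bounds
  have h1 := gQ_ge_series 4 0.8883 (by norm_num)
  have h2 := gQ_le_series 4 0.8883 (by norm_num)
  have h3 := gphi_ge_series 4 0.8883
  have h4 := gphi_le_series 4 0.8883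
  norm_num [gser, Finset.sum_range_succ, Nat.factorial] at h1 h2 h3 h4
  refine ⟨?_, ?_, ?_, ?_⟩ <;> norm_num at hc ⊢ <;> linarith [hc.1, hc.2]

theorem q8_4467 : 0.3275458 ≤ gQ 0.4467 ∧ gQ 0.4467 ≤ 0.3275459 ∧ 0.3610607 ≤ gphi 0.4467 ∧ gphi 0.4467 ≤ 0.3610609 := by
  have hc := inv_sqrt_two_pi_bounds
  have h1 := gQ_ge_series 4 0.4467 (by norm_num)
  have h2 := gQ_le_series 4 0.4467 (by norm_num)
  have h3 := gphi_ge_series 4 0.4467
  have h4 := gphi_le_series 4 0.4467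
  norm_num [gser, Finset.sum_range_succ, Nat.factorial] at h1 h2 h3 h4
  refine ⟨?_, ?_, ?_, ?_⟩ <;> norm_num at hc ⊢ <;> linarith [hc.1, hc.2]

theorem q8_4469 : 0.3274736 ≤ gQ 0.4469 ∧ gQ 0.4469 ≤ 0.3274737 ∧ 0.3610284 ≤ gphi 0.4469 ∧ gphi 0.4469 ≤ 0.3610286 := by
  have hc := inv_sqrt_two_pi_bounds
  have h1 := gQ_ge_series 4 0.4469 (by norm_num)
  have h2 := gQ_le_series 4 0.4469 (by norm_num)
  have h3 := gphi_ge_series 4 0.4469
  have h4 := gphi_le_series 4 0.4469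
  norm_num [gser, Finset.sum_range_succ, Nat.factorial] at h1 h2 h3 h4
  refine ⟨?_, ?_, ?_, ?_⟩ <;> norm_num at hc ⊢ <;> linarith [hc.1, hc.2]

theorem q8_3681 : 0.3563993 ≤ gQ 0.3681 ∧ gQ 0.3681 ≤ 0.3563994 ∧ 0.3728096 ≤ gphi 0.3681 ∧ gphi 0.3681 ≤ 0.3728097 := by
  have hc := inv_sqrt_two_pi_bounds
  have h1 := gQ_ge_series 4 0.3681 (by norm_num)
  have h2 := gQ_le_series 4 0.3681 (by norm_num)
  have h3 := gphi_ge_series 4 0.3681
  have h4 := gphi_le_series 4 0.3681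
  norm_num [gser, Finset.sum_range_succ, Nat.factorial] at h1 h2 h3 h4
  refine ⟨?_, ?_, ?_, ?_⟩ <;> norm_num at hc ⊢ <;> linarith [hc.1, hc.2]

theorem q8_3684 : 0.3562874 ≤ gQ 0.3684 ∧ gQ 0.3684 ≤ 0.3562876 ∧ 0.3727684 ≤ gphi 0.3684 ∧ gphi 0.3684 ≤ 0.3727685 := by
  have hc := inv_sqrt_two_pi_bounds
  have h1 := gQ_ge_series 4 0.3684 (by norm_num)
  have h2 := gQ_le_series 4 0.3684 (by norm_num)
  have h3 := gphi_ge_series 4 0.3684
  have h4 := gphi_le_series 4 0.3684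
  norm_num [gser, Finset.sum_range_succ, Nat.factorial] at h1 h2 h3 h4
  refine ⟨?_, ?_, ?_, ?_⟩ <;> norm_num at hc ⊢ <;> linarith [hc.1, hc.2]

theorem q8_3710 : 0.3553187 ≤ gQ 0.371 ∧ gQ 0.371 ≤ 0.3553188 ∧ 0.3724102 ≤ gphi 0.371 ∧ gphi 0.371 ≤ 0.3724104 := by
  have hc := inv_sqrt_two_pi_bounds
  have h1 := gQ_ge_series 4 0.371 (by norm_num)
  have h2 := gQ_le_series 4 0.371 (by norm_num)
  have h3 := gphi_ge_series 4 0.371
  have h4 := gphi_le_series 4 0.371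
  norm_num [gser, Finset.sum_range_succ, Nat.factorial] at h1 h2 h3 h4
  refine ⟨?_, ?_, ?_, ?_⟩ <;> norm_num at hc ⊢ <;> linarith [hc.1, hc.2]

theorem q8_3711 : 0.3552814 ≤ gQ 0.3711 ∧ gQ 0.3711 ≤ 0.3552816 ∧ 0.3723964 ≤ gphi 0.3711 ∧ gphi 0.3711 ≤ 0.3723966 := by
  have hc := inv_sqrt_two_pi_bounds
  have h1 := gQ_ge_series 4 0.3711 (by norm_num)
  have h2 := gQ_le_series 4 0.3711 (by norm_num)
  have h3 := gphi_ge_series 4 0.3711
  have h4 := gphi_le_series 4 0.3711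
  norm_num [gser, Finset.sum_range_succ, Nat.factorial] at h1 h2 h3 h4
  refine ⟨?_, ?_, ?_, ?_⟩ <;> norm_num at hc ⊢ <;> linarith [hc.1, hc.2]

theorem q8_3821 : 0.3511935 ≤ gQ 0.3821 ∧ gQ 0.3821 ≤ 0.3511937 ∧ 0.3708569 ≤ gphi 0.3821 ∧ gphi 0.3821 ≤ 0.3708571 := by
  have hc := inv_sqrt_two_pi_bounds
  have h1 := gQ_ge_series 4 0.3821 (by norm_num)
  have h2 := gQ_le_series 4 0.3821 (by norm_num)
  have h3 := gphi_ge_series 4 0.3821
  have h4 := gphi_le_series 4 0.3821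
  norm_num [gser, Finset.sum_range_succ, Nat.factorial] at h1 h2 h3 h4
  refine ⟨?_, ?_, ?_, ?_⟩ <;> norm_num at hc ⊢ <;> linarith [hc.1, hc.2]

theorem q8_3823 : 0.3511193 ≤ gQ 0.3823 ∧ gQ 0.3823 ≤ 0.3511195 ∧ 0.3708286 ≤ gphi 0.3823 ∧ gphi 0.3823 ≤ 0.3708287 := by
  have hc := inv_sqrt_two_pi_bounds
  have h1 := gQ_ge_series 4 0.3823 (by norm_num)
  have h2 := gQ_le_series 4 0.3823 (by norm_num)
  have h3 := gphi_ge_series 4 0.3823
  have h4 := gphi_le_series 4 0.3823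
  norm_num [gser, Finset.sum_range_succ, Nat.factorial] at h1 h2 h3 h4
  refine ⟨?_, ?_, ?_, ?_⟩ <;> norm_num at hc ⊢ <;> linarith [hc.1, hc.2]

theorem q8_2670 : 0.3947345 ≤ gQ 0.267 ∧ gQ 0.267 ≤ 0.3947347 ∧ 0.3849726 ≤ gphi 0.267 ∧ gphi 0.267 ≤ 0.3849727 := by
  have hc := inv_sqrt_two_pi_bounds
  have h1 := gQ_ge_series 4 0.267 (by norm_num)
  have h2 := gQ_le_series 4 0.267 (by norm_num)
  have h3 := gphi_ge_series 4 0.267
  have h4 := gphi_le_series 4 0.267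
  norm_num [gser, Finset.sum_range_succ, Nat.factorial] at h1 h2 h3 h4
  refine ⟨?_, ?_, ?_, ?_⟩ <;> norm_num at hc ⊢ <;> linarith [hc.1, hc.2]

theorem q8_2380 : 0.4059405 ≤ gQ 0.238 ∧ gQ 0.238 ≤ 0.4059406 ∧ 0.3878019 ≤ gphi 0.238 ∧ gphi 0.238 ≤ 0.3878020 := by
  have hc := inv_sqrt_two_pi_bounds
  have h1 := gQ_ge_series 4 0.238 (by norm_num)
  have h2 := gQ_le_series 4 0.238 (by norm_num)
  have h3 := gphi_ge_series 4 0.238
  have h4 := gphi_le_series 4 0.238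
  norm_num [gser, Finset.sum_range_succ, Nat.factorial] at h1 h2 h3 h4
  refine ⟨?_, ?_, ?_, ?_⟩ <;> norm_num at hc ⊢ <;> linarith [hc.1, hc.2]

theorem x8_0517 : 0.340209 ≤ XE 1 0.517 ∧ XE 1 0.517 ≤ 0.340217 := by
  obtain ⟨a1, a2, p1, p2⟩ := q8_0517
  have hM := M0_bounds
  have hp := gphi_pos 0.517
  have hq := gQ_pos' 0.517
  constructor
  · refine le_trans ?_ (XE_ge_of (u := 0.187726) (by norm_num) (by norm_num) (by norm_num) ?_)
    · norm_num
    · unfold ell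
      have e1 : gphi 0.517 - 0.517 * gQ 0.517 ≥ 0.3490349 - 0.517 * 0.3025782 := by linarith
      have e2 : 0.3490349 * (0.3490349 - 0.517 * 0.3025782) ≤ gphi 0.517 * (gphi 0.517 - 0.517 * gQ 0.517) :=
        mul_le_mul p1 e1 (by norm_num) hp.le
      norm_num at e2 hM ⊢
      linarith [hM.2]
  · refine le_trans (XE_le_of (u := 0.187729) (by norm_num) (by norm_num) ?_) ?_
    · unfold ell
      have e1 : gphi 0.517 - 0.517 * gQ 0.517 ≤ 0.3490351 - 0.517 * 0.3025780 := by linarith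
      have e2 : gphi 0.517 * (gphi 0.517 - 0.517 * gQ 0.517) ≤ 0.3490351 * (0.3490351 - 0.517 * 0.3025780) :=
        mul_le_mul p2 e1 (gphi_sub_pos _).le (by norm_num)
      norm_num at e2 hM ⊢
      linarith [hM.1]
    · norm_num

theorem x8_7705 : 0.198617 ≤ XE 1 0.7705 ∧ XE 1 0.7705 ≤ 0.198626 := by
  obtain ⟨a1, a2, p1, p2⟩ := q8_7705
  have hM := M0_bounds
  have hp := gphi_pos 0.7705
  have hq := gQ_pos' 0.7705
  constructor
  · refine le_trans ?_ (XE_ge_of (u := 0.104801) (by norm_num) (by norm_num) (by norm_num) ?_)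
    · norm_num
    · unfold ell
      have e1 : gphi 0.7705 - 0.7705 * gQ 0.7705 ≥ 0.2964805 - 0.7705 * 0.2205018 := by linarith
      have e2 : 0.2964805 * (0.2964805 - 0.7705 * 0.2205018) ≤ gphi 0.7705 * (gphi 0.7705 - 0.7705 * gQ 0.7705) :=
        mul_le_mul p1 e1 (by norm_num) hp.le
      norm_num at e2 hM ⊢
      linarith [hM.2]
  · refine le_trans (XE_le_of (u := 0.104804) (by norm_num) (by norm_num) ?_) ?_
    · unfold ell
      have e1 : gphi 0.7705 - 0.7705 * gQ 0.7705 ≤ 0.2964806 - 0.7705 * 0.2205016 := by linarith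
      have e2 : gphi 0.7705 * (gphi 0.7705 - 0.7705 * gQ 0.7705) ≤ 0.2964806 * (0.2964806 - 0.7705 * 0.2205016) :=
        mul_le_mul p2 e1 (gphi_sub_pos _).le (by norm_num)
      norm_num at e2 hM ⊢
      linarith [hM.1]
    · norm_num

theorem x8_9154 : 0.137949 ≤ XE 1 0.9154 ∧ XE 1 0.9154 ≤ 0.137958 := by
  obtain ⟨a1, a2, p1, p2⟩ := q8_9154
  have hM := M0_bounds
  have hp := gphi_pos 0.9154
  have hq := gQ_pos' 0.9154
  constructor
  · refine le_trans ?_ (XE_ge_of (u := 0.071534) (by norm_num) (by norm_num) (by norm_num) ?_)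
    · norm_num
    · unfold ell
      have e1 : gphi 0.9154 - 0.9154 * gQ 0.9154 ≥ 0.2623916 - 0.9154 * 0.1799909 := by linarith
      have e2 : 0.2623916 * (0.2623916 - 0.9154 * 0.1799909) ≤ gphi 0.9154 * (gphi 0.9154 - 0.9154 * gQ 0.9154) :=
        mul_le_mul p1 e1 (by norm_num) hp.le
      norm_num at e2 hM ⊢
      linarith [hM.2]
  · refine le_trans (XE_le_of (u := 0.071537) (by norm_num) (by norm_num) ?_) ?_
    · unfold ell
      have e1 : gphi 0.9154 - 0.9154 * gQ 0.9154 ≤ 0.2623917 - 0.9154 * 0.1799908 := by linarith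
      have e2 : gphi 0.9154 * (gphi 0.9154 - 0.9154 * gQ 0.9154) ≤ 0.2623917 * (0.2623917 - 0.9154 * 0.1799908) :=
        mul_le_mul p2 e1 (gphi_sub_pos _).le (by norm_num)
      norm_num at e2 hM ⊢
      linarith [hM.1]
    · norm_num

theorem x8_7703 : 0.198712 ≤ XE 1 0.7703 ∧ XE 1 0.7703 ≤ 0.198721 := by
  obtain ⟨a1, a2, p1, p2⟩ := q8_7703
  have hM := M0_bounds
  have hp := gphi_pos 0.7703
  have hq := gQ_pos' 0.7703
  constructor
  · refine le_trans ?_ (XE_ge_of (u := 0.104854) (by norm_num) (by norm_num) (by norm_num) ?_)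
    · norm_num
    · unfold ell
      have e1 : gphi 0.7703 - 0.7703 * gQ 0.7703 ≥ 0.2965262 - 0.7703 * 0.2205611 := by linarith
      have e2 : 0.2965262 * (0.2965262 - 0.7703 * 0.2205611) ≤ gphi 0.7703 * (gphi 0.7703 - 0.7703 * gQ 0.7703) :=
        mul_le_mul p1 e1 (by norm_num) hp.le
      norm_num at e2 hM ⊢
      linarith [hM.2]
  · refine le_trans (XE_le_of (u := 0.104857) (by norm_num) (by norm_num) ?_) ?_
    · unfold ell
      have e1 : gphi 0.7703 - 0.7703 * gQ 0.7703 ≤ 0.2965263 - 0.7703 * 0.2205609 := by linarith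
      have e2 : gphi 0.7703 * (gphi 0.7703 - 0.7703 * gQ 0.7703) ≤ 0.2965263 * (0.2965263 - 0.7703 * 0.2205609) :=
        mul_le_mul p2 e1 (gphi_sub_pos _).le (by norm_num)
      norm_num at e2 hM ⊢
      linarith [hM.1]
    · norm_num

theorem x8_9153 : 0.137987 ≤ XE 1 0.9153 ∧ XE 1 0.9153 ≤ 0.137995 := by
  obtain ⟨a1, a2, p1, p2⟩ := q8_9153
  have hM := M0_bounds
  have hp := gphi_pos 0.9153
  have hq := gQ_pos' 0.9153
  constructor
  · refine le_trans ?_ (XE_ge_of (u := 0.071554) (by norm_num) (by norm_num) (by norm_num) ?_)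
    · norm_num
    · unfold ell
      have e1 : gphi 0.9153 - 0.9153 * gQ 0.9153 ≥ 0.2624156 - 0.9153 * 0.1800172 := by linarith
      have e2 : 0.2624156 * (0.2624156 - 0.9153 * 0.1800172) ≤ gphi 0.9153 * (gphi 0.9153 - 0.9153 * gQ 0.9153) :=
        mul_le_mul p1 e1 (by norm_num) hp.le
      norm_num at e2 hM ⊢
      linarith [hM.2]
  · refine le_trans (XE_le_of (u := 0.071557) (by norm_num) (by norm_num) ?_) ?_
    · unfold ell
      have e1 : gphi 0.9153 - 0.9153 * gQ 0.9153 ≤ 0.2624157 - 0.9153 * 0.1800170 := by linarith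
      have e2 : gphi 0.9153 * (gphi 0.9153 - 0.9153 * gQ 0.9153) ≤ 0.2624157 * (0.2624157 - 0.9153 * 0.1800170) :=
        mul_le_mul p2 e1 (gphi_sub_pos _).le (by norm_num)
      norm_num at e2 hM ⊢
      linarith [hM.1]
    · norm_num

theorem x8_9099 : 0.139976 ≤ XE 1 0.9099 ∧ XE 1 0.9099 ≤ 0.139985 := by
  obtain ⟨a1, a2, p1, p2⟩ := q8_9099
  have hM := M0_bounds
  have hp := gphi_pos 0.9099
  have hq := gQ_pos' 0.9099
  constructor
  · refine le_trans ?_ (XE_ge_of (u := 0.072626) (by norm_num) (by norm_num) (by norm_num) ?_)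
    · norm_num
    · unfold ell
      have e1 : gphi 0.9099 - 0.9099 * gQ 0.9099 ≥ 0.2637120 - 0.9099 * 0.1814377 := by linarith
      have e2 : 0.2637120 * (0.2637120 - 0.9099 * 0.1814377) ≤ gphi 0.9099 * (gphi 0.9099 - 0.9099 * gQ 0.9099) :=
        mul_le_mul p1 e1 (by norm_num) hp.le
      norm_num at e2 hM ⊢
      linarith [hM.2]
  · refine le_trans (XE_le_of (u := 0.072629) (by norm_num) (by norm_num) ?_) ?_
    · unfold ell
      have e1 : gphi 0.9099 - 0.9099 * gQ 0.9099 ≤ 0.2637121 - 0.9099 * 0.1814375 := by linarith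
      have e2 : gphi 0.9099 * (gphi 0.9099 - 0.9099 * gQ 0.9099) ≤ 0.2637121 * (0.2637121 - 0.9099 * 0.1814375) :=
        mul_le_mul p2 e1 (gphi_sub_pos _).le (by norm_num)
      norm_num at e2 hM ⊢
      linarith [hM.1]
    · norm_num

theorem x8_8883 : 0.148141 ≤ XE 1 0.8883 ∧ XE 1 0.8883 ≤ 0.148150 := by
  obtain ⟨a1, a2, p1, p2⟩ := q8_8883
  have hM := M0_bounds
  have hp := gphi_pos 0.8883
  have hq := gQ_pos' 0.8883
  constructor
  · refine le_trans ?_ (XE_ge_of (u := 0.077039) (by norm_num) (by norm_num) (by norm_num) ?_)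
    · norm_num
    · unfold ell
      have e1 : gphi 0.8883 - 0.8883 * gQ 0.8883 ≥ 0.2688834 - 0.8883 * 0.1871898 := by linarith
      have e2 : 0.2688834 * (0.2688834 - 0.8883 * 0.1871898) ≤ gphi 0.8883 * (gphi 0.8883 - 0.8883 * gQ 0.8883) :=
        mul_le_mul p1 e1 (by norm_num) hp.le
      norm_num at e2 hM ⊢
      linarith [hM.2]
  · refine le_trans (XE_le_of (u := 0.077042) (by norm_num) (by norm_num) ?_) ?_
    · unfold ell
      have e1 : gphi 0.8883 - 0.8883 * gQ 0.8883 ≤ 0.2688836 - 0.8883 * 0.1871896 := by linarith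
      have e2 : gphi 0.8883 * (gphi 0.8883 - 0.8883 * gQ 0.8883) ≤ 0.2688836 * (0.2688836 - 0.8883 * 0.1871896) :=
        mul_le_mul p2 e1 (gphi_sub_pos _).le (by norm_num)
      norm_num at e2 hM ⊢
      linarith [hM.1]
    · norm_num

theorem cap8_le {y p c : ℝ} (hp : gphi y ≤ p) (hp0 : p ^ 2 ≤ c * 0.3580986) (hc : 0 ≤ c) :
    gphi y ^ 2 / M0 ≤ c := by
  rw [div_le_iff₀ M0_pos]
  have h1 := M0_bounds.1
  have h2 : gphi y ^ 2 ≤ p ^ 2 := pow_le_pow_left₀ (gphi_pos y).le hp 2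
  nlinarith


theorem n8_line1 (h : CellOK 1 x y) (hx : 0.1987 ≤ x) : 0.5789 * x + 0.1054 ≤ gQ y := by
  obtain ⟨a1, a2, p1, p2⟩ := q8_0517
  obtain ⟨b1, b2, r1, r2⟩ := q8_7705
  have hM := M0_bounds
  have h1 := x8_0517
  have h2 := x8_7705
  have hcap : gphi 0.517 ^ 2 / M0 ≤ 0.340203 := cap8_le p2 (by norm_num) (by norm_num)
  refine line_generic 0.5789 0.1054 0.1987 0.517 0.7705 h (by norm_num) (by norm_num) (by norm_num)
    (by norm_num) (by norm_num) (by norm_num) ?_ ?_ hx ?_ ?_ ?_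
  · norm_num at *
    linarith
  · norm_num at *
    linarith
  · norm_num at *
    linarith
  · norm_num at *
    linarith
  · norm_num at *
    linarith

theorem n8_line2 (h : CellOK 1 x y) (hx : 0.138 ≤ x) : 0.5789 * x + 0.1001 ≤ gQ y := by
  obtain ⟨a1, a2, p1, p2⟩ := q8_0517
  obtain ⟨b1, b2, r1, r2⟩ := q8_9154
  have hM := M0_bounds
  have h1 := x8_0517
  have h2 := x8_9154
  have hcap : gphi 0.517 ^ 2 / M0 ≤ 0.340203 := cap8_le p2 (by norm_num) (by norm_num)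
  refine line_generic 0.5789 0.1001 0.138 0.517 0.9154 h (by norm_num) (by norm_num) (by norm_num)
    (by norm_num) (by norm_num) (by norm_num) ?_ ?_ hx ?_ ?_ ?_
  · norm_num at *
    linarith
  · norm_num at *
    linarith
  · norm_num at *
    linarith
  · norm_num at *
    linarith
  · norm_num at *
    linarith

theorem n8_rho (h : CellOK 1 x y) (hx : x ≤ 0.1987) : x ≤ 0.901 * gQ y := by
  obtain ⟨b1, b2, r1, r2⟩ := q8_7703
  have h2 := x8_7703
  refine rho_generic 0.901 (0.1987) 0.7703 h (by norm_num) (by norm_num) (by norm_num) (by norm_num) hx ?_ ?_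
  · norm_num at *
    linarith
  · norm_num at *
    linarith

theorem n8_rho2 (h : CellOK 1 x y) (hx : x ≤ 0.138) : x ≤ 0.7667 * gQ y := by
  obtain ⟨b1, b2, r1, r2⟩ := q8_9153
  have h2 := x8_9153
  refine rho_generic 0.7667 (0.138) 0.9153 h (by norm_num) (by norm_num) (by norm_num) (by norm_num) hx ?_ ?_
  · norm_num at *
    linarith
  · norm_num at *
    linarith

theorem n8_rho3 (h : CellOK 1 x y) (hx : x ≤ 0.14) : x ≤ 0.7717 * gQ y := by
  obtain ⟨b1, b2, r1, r2⟩ := q8_9099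
  have h2 := x8_9099
  refine rho_generic 0.7717 (0.14) 0.9099 h (by norm_num) (by norm_num) (by norm_num) (by norm_num) hx ?_ ?_
  · norm_num at *
    linarith
  · norm_num at *
    linarith

theorem n8_rho4 (h : CellOK 1 x y) (hx : x ≤ 4 / 27) : x ≤ 0.7916 * gQ y := by
  obtain ⟨b1, b2, r1, r2⟩ := q8_8883
  have h2 := x8_8883
  refine rho_generic 0.7916 (4 / 27) 0.8883 h (by norm_num) (by norm_num) (by norm_num) (by norm_num) hx ?_ ?_
  · norm_num at *
    linarith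
  · norm_num at *
    linarith

theorem n8_D1 (h : CellOK 1 x y) : x - 0.901 * gQ y ≤ 0.069 := by
  obtain ⟨a1, a2, p1, p2⟩ := q8_4467
  obtain ⟨b1, b2, r1, r2⟩ := q8_4469
  obtain ⟨c1, c2, s1, s2⟩ := q8_0517
  have hM := M0_bounds
  have h1 := x8_0517
  have hcap : gphi 0.4467 ^ 2 / M0 ≤ 0.364050 := cap8_le p2 (by norm_num) (by norm_num)
  refine D_generic 0.901 0.069 0.517 0.4467 0.4469 h (by norm_num) (by norm_num) (by norm_num)
    (by norm_num) (by norm_num) (by norm_num) (by norm_num) (by norm_num) ?_ ?_ (by norm_num) ?_ ?_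
  · norm_num at *
    linarith
  · norm_num at *
    linarith
  · norm_num at *
    linarith
  · norm_num at *
    linarith

theorem n8_D2 (h : CellOK 1 x y) : x - 0.7667 * gQ y ≤ 0.115 := by
  obtain ⟨a1, a2, p1, p2⟩ := q8_3681
  obtain ⟨b1, b2, r1, r2⟩ := q8_3684
  obtain ⟨c1, c2, s1, s2⟩ := q8_0517
  have hM := M0_bounds
  have h1 := x8_0517
  have hcap : gphi 0.3681 ^ 2 / M0 ≤ 0.388128 := cap8_le p2 (by norm_num) (by norm_num)
  refine D_generic 0.7667 0.115 0.517 0.3681 0.3684 h (by norm_num) (by norm_num) (by norm_num)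
    (by norm_num) (by norm_num) (by norm_num) (by norm_num) (by norm_num) ?_ ?_ (by norm_num) ?_ ?_
  · norm_num at *
    linarith
  · norm_num at *
    linarith
  · norm_num at *
    linarith
  · norm_num at *
    linarith

theorem n8_D3 (h : CellOK 1 x y) : x - 0.7717 * gQ y ≤ 0.1132 := by
  obtain ⟨a1, a2, p1, p2⟩ := q8_3710
  obtain ⟨b1, b2, r1, r2⟩ := q8_3711
  obtain ⟨c1, c2, s1, s2⟩ := q8_0517
  have hM := M0_bounds
  have h1 := x8_0517
  have hcap : gphi 0.371 ^ 2 / M0 ≤ 0.387296 := cap8_le p2 (by norm_num) (by norm_num)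
  refine D_generic 0.7717 0.1132 0.517 0.371 0.3711 h (by norm_num) (by norm_num) (by norm_num)
    (by norm_num) (by norm_num) (by norm_num) (by norm_num) (by norm_num) ?_ ?_ (by norm_num) ?_ ?_
  · norm_num at *
    linarith
  · norm_num at *
    linarith
  · norm_num at *
    linarith
  · norm_num at *
    linarith

theorem n8_D4 (h : CellOK 1 x y) : x - 0.7916 * gQ y ≤ 0.1062 := by
  obtain ⟨a1, a2, p1, p2⟩ := q8_3821
  obtain ⟨b1, b2, r1, r2⟩ := q8_3823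
  obtain ⟨c1, c2, s1, s2⟩ := q8_0517
  have hM := M0_bounds
  have h1 := x8_0517
  have hcap : gphi 0.3821 ^ 2 / M0 ≤ 0.384072 := cap8_le p2 (by norm_num) (by norm_num)
  refine D_generic 0.7916 0.1062 0.517 0.3821 0.3823 h (by norm_num) (by norm_num) (by norm_num)
    (by norm_num) (by norm_num) (by norm_num) (by norm_num) (by norm_num) ?_ ?_ (by norm_num) ?_ ?_
  · norm_num at *
    linarith
  · norm_num at *
    linarith
  · norm_num at *
    linarith
  · norm_num at *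
    linarith

theorem n8_D3' (h : CellOK 1 x y) (hx : 0.414 ≤ x) : x - 0.7717 * gQ y ≤ 0.1093 := by
  obtain ⟨a1, a2, p1, p2⟩ := q8_2670
  have hM := M0_bounds
  have hcap : gphi 0.267 ^ 2 / M0 ≤ 0.413866 := cap8_le p2 (by norm_num) (by norm_num)
  have hsq : gphi 0.267 ^ 2 ≤ 0.3849727 ^ 2 := pow_le_pow_left₀ (gphi_pos _).le p2 2
  refine D_constr 0.7717 0.1093 0.414 0.267 h (by norm_num) (by norm_num) (by norm_num) ?_ hx ?_ ?_
  · norm_num at *
    linarith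
  · norm_num at *
    linarith
  · norm_num at *
    linarith

theorem n8_D4' (h : CellOK 1 x y) (hx : 0.42 ≤ x) : x - 0.7916 * gQ y ≤ 0.0987 := by
  obtain ⟨a1, a2, p1, p2⟩ := q8_2380
  have hM := M0_bounds
  have hcap : gphi 0.238 ^ 2 / M0 ≤ 0.419972 := cap8_le p2 (by norm_num) (by norm_num)
  have hsq : gphi 0.238 ^ 2 ≤ 0.3878020 ^ 2 := pow_le_pow_left₀ (gphi_pos _).le p2 2
  refine D_constr 0.7916 0.0987 0.42 0.238 h (by norm_num) (by norm_num) (by norm_num) ?_ hx ?_ ?_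
  · norm_num at *
    linarith
  · norm_num at *
    linarith
  · norm_num at *
    linarith

end Vale.Agent.P226
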