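import Vale.Agent.P226.Full.NumTools
import Vale.Agent.P226.SmallCells

/-! Generic lemmas for the linear bounds (helper18). -/

namespace Vale.Agent.P226

open Real Set Filter Topology

/-- `Q - m φ²/M0` increases on `[Y,1]` if `2 m Y φ(Y) ≥ M0`. -/
theorem cap_mono8 (m Y : ℝ) (hm : 0 ≤ m) (hY0 : 0 ≤ Y) (h : M0 ≤ 2 * m * Y * gphi Y) :
    MonotoneOn (fun y => gQ y - m * (gphi y ^ 2 / M0)) (Icc Y 1) := by
  have hder : ∀ s, HasDerivAt (fun y => gQ y - m * (gphi y ^ 2 / M0))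
      (-(gphi s * (1 - 2 * m * s * gphi s / M0))) s := by
    intro s
    have h1 := (hasDerivAt_gQ s).sub ((((hasDerivAt_gphi s).pow 2).div_const M0).const_mul m)
    refine (h1.congr_deriv ?_).congr_of_eventuallyEq (Eventually.of_forall fun s => ?_)
    · norm_num
      ring
    · simp only [Pi.sub_apply, Pi.pow_apply]
  have hmono : MonotoneOn (fun y => y * gphi y) (Icc 0 1) := by
    have hd : ∀ s, HasDerivAt (fun y => y * gphi y) ((1 - s ^ 2) * gphi s) s := by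
      intro s
      have h1 := (hasDerivAt_id s).mul (hasDerivAt_gphi s)
      refine (h1.congr_deriv ?_).congr_of_eventuallyEq (Eventually.of_forall fun s => ?_)
      · simp only [id]
        ring
      · simp only [id, Pi.mul_apply]
    apply monotoneOn_of_deriv_nonneg (convex_Icc 0 1)
    · exact fun x _ => (hd x).continuousAt.continuousWithinAt
    · exact fun x _ => (hd x).differentiableAt.differentiableWithinAt
    · intro x hx
      rw [interior_Icc] at hx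
      rw [(hd x).deriv]
      exact mul_nonneg (by nlinarith [hx.1, hx.2]) (gphi_pos x).le
  apply monotoneOn_of_deriv_nonneg (convex_Icc Y 1)
  · exact fun x _ => (hder x).continuousAt.continuousWithinAt
  · exact fun x _ => (hder x).differentiableAt.differentiableWithinAt
  · intro x hx
    rw [interior_Icc] at hx
    rw [(hder x).deriv]
    have h2 := hmono (a := Y) (b := x) ⟨hY0, by linarith [hx.1, hx.2]⟩
      ⟨hY0.trans hx.1.le, hx.2.le⟩ hx.1.le
    simp only at h2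
    have h3 : 1 ≤ 2 * m * x * gphi x / M0 := by
      rw [one_le_div M0_pos]
      have := mul_le_mul_of_nonneg_left h2 hm
      linarith
    have := mul_nonneg (gphi_pos x).le (sub_nonneg.2 h3)
    linarith

theorem CellOK.x_le_cap {q x y : ℝ} (h : CellOK q x y) : x ≤ gphi y ^ 2 / M0 := by
  rw [le_div_iff₀ M0_pos]
  have := h.cap
  linarith

/-- generic linear lower bound for the area. -/
theorem line_generic {q x y : ℝ} (m c x0 yK Y0 : ℝ) (h : CellOK q x y) (hq0 : 0 ≤ q)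
    (hq : q ≤ 5 / 4) (hm : 0 ≤ m) (hyK : 0.48 ≤ yK) (hyK1 : yK ≤ 1) (hKY : yK ≤ Y0)
    (hcapK : 2 * m * yK * gphi yK ≤ M0) (hx0 : XE q Y0 < x0) (hx : x0 ≤ x)
    (h1 : c ≤ gQ yK - m * (gphi yK ^ 2 / M0)) (h2 : c ≤ gQ yK - m * XE q yK)
    (h3 : c ≤ gQ Y0 - m * XE q Y0) : m * x + c ≤ gQ y := by
  rcases le_or_gt y yK with hy | hy
  · have h4 := cap_anti m yK hm hyK1 hcapK (a := y) (b := yK) ⟨h.y_nonneg, hy⟩
      ⟨by linarith, le_rfl⟩ hy
    simp only at h4
    have h5 := mul_le_mul_of_nonneg_left h.x_le_cap hm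
    linarith
  · rcases le_or_gt y Y0 with hy0 | hy0
    · have h4 := quasi_E q m yK Y0 y hq0 hq hm hyK hy.le hy0
      have h5 := mul_le_mul_of_nonneg_left h.del hm
      rcases min_le_iff.1 h4 with h6 | h6 <;> linarith
    · exfalso
      have h4 := XE_antitoneOn q (by linarith) hq0 (a := Y0) (b := y)
        (mem_Ici.2 (by linarith)) (mem_Ici.2 (by linarith)) hy0.le
      have := h.del
      linarith

/-- nonnegativity of `Q - m X_E` propagates to infinity. -/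
theorem tail_min {q m Y y : ℝ} (hq0 : 0 ≤ q) (hq : q ≤ 5 / 4) (hm : 0 ≤ m) (hY : 0.48 ≤ Y)
    (hy : Y ≤ y) : min (gQ Y - m * XE q Y) 0 ≤ gQ y - m * XE q y := by
  have h1 : ∀ᶠ T in atTop, gQ T < M0 / (2 * (m + 1)) :=
    tendsto_gQ_atTop.eventually (gt_mem_nhds (by have := M0_pos; positivity))
  obtain ⟨T, hT1, hT2⟩ := (h1.and (eventually_ge_atTop y)).exists
  have h2 := quasi_E q m Y T y hq0 hq hm hY hy hT2
  have hT0 : 0 ≤ T := by linarith
  have h3 : 0 ≤ gQ T - m * XE q T := by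
    have h4 := ell_le_sq T hT0
    have h5 : XE q T ≤ 2 * (gQ T ^ 2 / M0) := by
      unfold XE
      have : ell T / M0 ≤ gQ T ^ 2 / M0 := div_le_div_of_nonneg_right h4 M0_pos.le
      nlinarith [sq_nonneg (ell T / M0)]
    have h6 := gQ_pos' T
    have h7 : m * XE q T ≤ m * (2 * (gQ T ^ 2 / M0)) := mul_le_mul_of_nonneg_left h5 hm
    have h8 : m * (2 * (gQ T ^ 2 / M0)) ≤ gQ T := by
      rw [lt_div_iff₀ (by positivity)] at hT1
      have h9 : m * (2 * (gQ T ^ 2 / M0)) = gQ T * (2 * m * gQ T / M0) := by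
        field_simp
      rw [h9]
      have h10 : 2 * m * gQ T / M0 ≤ 1 := by
        rw [div_le_one M0_pos]
        nlinarith
      nlinarith
    linarith
  exact (min_le_min_left _ h3).trans h2

/-- generic ratio bound for small cells. -/
theorem rho_generic {q x y : ℝ} (ρ x1 Y1 : ℝ) (h : CellOK q x y) (hq0 : 0 ≤ q)
    (hq : q ≤ 5 / 4) (hρ : 0 < ρ) (hY1 : 0.48 ≤ Y1) (hx : x ≤ x1) (h1 : x1 ≤ ρ * gQ Y1)
    (h2 : XE q Y1 ≤ ρ * gQ Y1) : x ≤ ρ * gQ y := by
  rcases le_or_gt y Y1 with hy | hy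
  · have := gQ_antitone hy
    nlinarith
  · have h3 := tail_min hq0 hq (m := 1 / ρ) (by positivity) hY1 hy.le
    have h4 : 0 ≤ gQ Y1 - 1 / ρ * XE q Y1 := by
      rw [sub_nonneg, one_div, inv_mul_le_iff₀ hρ]
      exact h2
    rw [min_eq_right h4] at h3
    rw [sub_nonneg, one_div, inv_mul_le_iff₀ hρ] at h3
    exact h.del.trans h3

/-- generic upper bound for `x - ρ Q`. -/
theorem D_generic {q x y : ℝ} (ρ D yK y1 y2 : ℝ) (h : CellOK q x y) (hq0 : 0 ≤ q)
    (hq : q ≤ 5 / 4) (hρ : 0 < ρ) (hyK : 0.48 ≤ yK) (hyK1 : yK ≤ 1)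
    (hy1 : 0 ≤ y1) (hy12 : y1 ≤ y2) (hy2K : y2 ≤ yK)
    (h1 : 2 * y1 * gphi y1 ≤ ρ * M0) (h2 : ρ * M0 ≤ 2 * y2 * gphi y2) (hD0 : 0 ≤ D)
    (h3 : gphi y1 ^ 2 / M0 - ρ * gQ y2 ≤ D) (h4 : XE q yK - ρ * gQ yK ≤ D) :
    x - ρ * gQ y ≤ D := by
  have hiρ : 0 ≤ 1 / ρ := by positivity
  rcases le_or_gt yK y with hy | hy
  · have h5 := tail_min hq0 hq (m := 1 / ρ) hiρ hyK hy
    have h6 := h.del
    have h7 : -D / ρ ≤ gQ y - 1 / ρ * XE q y := by
      refine le_trans (le_min ?_ ?_) h5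
      · rw [div_le_iff₀ hρ]
        have : (gQ yK - 1 / ρ * XE q yK) * ρ = ρ * gQ yK - XE q yK := by field_simp
        rw [this]; linarith
      · apply div_nonpos_of_nonpos_of_nonneg (by linarith) hρ.le
    rw [div_le_iff₀ hρ] at h7
    have h8 : (gQ y - 1 / ρ * XE q y) * ρ = ρ * gQ y - XE q y := by field_simp
    rw [h8] at h7
    linarith
  · have hx := h.x_le_cap
    have key : gphi y ^ 2 / M0 - ρ * gQ y ≤ D := by
      rcases le_or_gt y y1 with hya | hya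
      · have h5 := cap_anti (1 / ρ) y1 hiρ (by linarith) (by
          have : 2 * (1 / ρ) * y1 * gphi y1 = (2 * y1 * gphi y1) / ρ := by field_simp
          rw [this, div_le_iff₀ hρ]; linarith) (a := y) (b := y1) ⟨h.y_nonneg, hya⟩ ⟨hy1, le_rfl⟩ hya
        simp only at h5
        have h6 : gQ y2 ≤ gQ y1 := gQ_antitone hy12
        have h7 : ρ * (gQ y1 - 1 / ρ * (gphi y1 ^ 2 / M0)) ≤ ρ * (gQ y - 1 / ρ * (gphi y ^ 2 / M0)) :=
          mul_le_mul_of_nonneg_left h5 hρ.le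
        have h8 : ρ * (gQ y1 - 1 / ρ * (gphi y1 ^ 2 / M0)) = ρ * gQ y1 - gphi y1 ^ 2 / M0 := by
          field_simp
        have h9 : ρ * (gQ y - 1 / ρ * (gphi y ^ 2 / M0)) = ρ * gQ y - gphi y ^ 2 / M0 := by
          field_simp
        have h10 := mul_le_mul_of_nonneg_left h6 hρ.le
        linarith
      · rcases le_or_gt y y2 with hyb | hyb
        · have h5 : gphi y ≤ gphi y1 := gphi_antitoneOn (mem_Ici.2 hy1)
            (mem_Ici.2 h.y_nonneg) hya.le
          have h6 : gphi y ^ 2 / M0 ≤ gphi y1 ^ 2 / M0 :=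
            div_le_div_of_nonneg_right (pow_le_pow_left₀ (gphi_pos y).le h5 2) M0_pos.le
          have h7 : ρ * gQ y2 ≤ ρ * gQ y := mul_le_mul_of_nonneg_left (gQ_antitone hyb) hρ.le
          linarith
        · have h5 := cap_mono8 (1 / ρ) y2 hiρ (by linarith) (by
            have : 2 * (1 / ρ) * y2 * gphi y2 = (2 * y2 * gphi y2) / ρ := by field_simp
            rw [this, le_div_iff₀ hρ]; linarith) (a := y2) (b := y) ⟨le_rfl, by linarith⟩
            ⟨hyb.le, by linarith⟩ hyb.le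
          simp only at h5
          have h7 : ρ * (gQ y2 - 1 / ρ * (gphi y2 ^ 2 / M0)) ≤ ρ * (gQ y - 1 / ρ * (gphi y ^ 2 / M0)) :=
            mul_le_mul_of_nonneg_left h5 hρ.le
          have h8 : ρ * (gQ y2 - 1 / ρ * (gphi y2 ^ 2 / M0)) = ρ * gQ y2 - gphi y2 ^ 2 / M0 := by
            field_simp
          have h9 : ρ * (gQ y - 1 / ρ * (gphi y ^ 2 / M0)) = ρ * gQ y - gphi y ^ 2 / M0 := by
            field_simp
          have h10 : gphi y2 ≤ gphi y1 := gphi_antitoneOn (mem_Ici.2 hy1)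
            (mem_Ici.2 (by linarith)) hy12
          have h6 : gphi y2 ^ 2 / M0 ≤ gphi y1 ^ 2 / M0 :=
            div_le_div_of_nonneg_right (pow_le_pow_left₀ (gphi_pos y2).le h10 2) M0_pos.le
          linarith
    linarith

/-- constrained upper bound (`x ≥ x1` forces `y ≤ Yc`). -/
theorem D_constr {q x y : ℝ} (ρ D x1 Yc : ℝ) (h : CellOK q x y) (hρ : 0 < ρ) (hYc0 : 0 ≤ Yc)
    (hYc1 : Yc ≤ 1) (hcap : gphi Yc ^ 2 ≤ M0 * x1) (hx : x1 ≤ x)
    (h1 : 2 * Yc * gphi Yc ≤ ρ * M0) (h3 : gphi Yc ^ 2 / M0 - ρ * gQ Yc ≤ D) :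
    x - ρ * gQ y ≤ D := by
  have hiρ : 0 ≤ 1 / ρ := by positivity
  have hy : y ≤ Yc := by
    by_contra hc
    push Not at hc
    have h5 : gphi y < gphi Yc := by
      unfold gphi
      have : rexp (-(y ^ 2) / 2) < rexp (-(Yc ^ 2) / 2) := by
        apply Real.exp_lt_exp.2
        nlinarith
      exact mul_lt_mul_of_pos_left this (by positivity)
    have h6 : gphi y ^ 2 < gphi Yc ^ 2 := pow_lt_pow_left₀ h5 (gphi_pos y).le (by norm_num)
    have h7 := h.cap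
    have h8 := mul_le_mul_of_nonneg_left hx M0_pos.le
    linarith
  have h5 := cap_anti (1 / ρ) Yc hiρ hYc1 (by
    have : 2 * (1 / ρ) * Yc * gphi Yc = (2 * Yc * gphi Yc) / ρ := by field_simp
    rw [this, div_le_iff₀ hρ]; linarith) (a := y) (b := Yc) ⟨h.y_nonneg, hy⟩ ⟨hYc0, le_rfl⟩ hy
  simp only at h5
  have h7 : ρ * (gQ Yc - 1 / ρ * (gphi Yc ^ 2 / M0)) ≤ ρ * (gQ y - 1 / ρ * (gphi y ^ 2 / M0)) :=
    mul_le_mul_of_nonneg_left h5 hρ.le
  have h8 : ρ * (gQ Yc - 1 / ρ * (gphi Yc ^ 2 / M0)) = ρ * gQ Yc - gphi Yc ^ 2 / M0 := by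
    field_simp
  have h9 : ρ * (gQ y - 1 / ρ * (gphi y ^ 2 / M0)) = ρ * gQ y - gphi y ^ 2 / M0 := by
    field_simp
  have hx := h.x_le_cap
  linarith

/-- numeric bounds for `X_E`. -/
theorem XE_le_of {q y u : ℝ} (hq0 : 0 ≤ q) (hqu : q * u ≤ 1) (h : ell y ≤ M0 * u) :
    XE q y ≤ 2 * u - q * u ^ 2 := by
  have h1 : ell y / M0 ≤ u := by rw [div_le_iff₀ M0_pos]; linarith
  have h2 := ell_div_pos y
  unfold XE
  have h3 : q * (ell y / M0) ≤ q * u := mul_le_mul_of_nonneg_left h1 hq0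
  nlinarith

theorem XE_ge_of {q y u : ℝ} (hq0 : 0 ≤ q) (hq : q ≤ 5 / 4) (hy : 0 ≤ y) (h : M0 * u ≤ ell y) :
    2 * u - q * u ^ 2 ≤ XE q y := by
  have h1 : u ≤ ell y / M0 := by rw [le_div_iff₀ M0_pos]; linarith
  have h2 := ell_div_le hy
  unfold XE
  have h3 : q * (ell y / M0) ≤ 5 / 4 * (4 / 9) := by
    have := ell_div_pos y
    nlinarith
  have h4 : q * u ≤ 5 / 4 * (4 / 9) := (mul_le_mul_of_nonneg_left h1 hq0).trans h3
  nlinarith

end Vale.Agent.P226
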