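import Vale.Agent.P226.Full.RedDefs

/-! Task P226-N0: tools for the numerical part. -/

namespace Vale.Agent.P226

open Real Set Filter Topology

theorem M0_bounds : 0.3580986 < M0 ∧ M0 < 0.3580987 := by
  unfold M0
  have h1 := Real.pi_gt_d20
  have h2 := Real.pi_lt_d20
  constructor
  · rw [lt_div_iff₀ (by positivity)]
    norm_num at *
    linarith
  · rw [div_lt_iff₀ (by positivity)]
    norm_num at *
    linarith

theorem M0_pos : 0 < M0 := by unfold M0; positivity

theorem inv_sqrt_two_pi_bounds : 0.39894228 < (√(2 * π))⁻¹ ∧ (√(2 * π))⁻¹ < 0.39894229 := by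
  have h1 := Real.pi_gt_d20
  have h2 := Real.pi_lt_d20
  have hs : 0 < √(2 * π) := by positivity
  constructor
  · rw [lt_inv_comm₀ (by norm_num) hs]
    rw [Real.sqrt_lt' (by norm_num)]
    norm_num at *
    linarith
  · rw [inv_lt_comm₀ hs (by norm_num)]
    apply Real.lt_sqrt_of_sq_lt
    norm_num at *
    linarith

/-- Signed remainder of the alternating partial sums of `exp(-u)`. -/
theorem exp_partial (n : ℕ) (u : ℝ) (hu : 0 ≤ u) :
    0 ≤ (-1) ^ n * (rexp (-u) - ∑ i ∈ Finset.range n, (-1) ^ i * u ^ i / (Nat.factorial i)) := by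
  induction n generalizing u with
  | zero => simp; positivity
  | succ n ih =>
    set R : ℝ → ℝ := fun u => (-1) ^ (n + 1) *
      (rexp (-u) - ∑ i ∈ Finset.range (n + 1), (-1) ^ i * u ^ i / (Nat.factorial i)) with hR
    have hder : ∀ s : ℝ, HasDerivAt R
        ((-1) ^ n * (rexp (-s) - ∑ i ∈ Finset.range n, (-1) ^ i * s ^ i / (Nat.factorial i))) s := by
      intro s
      have h1 : HasDerivAt (fun u : ℝ => rexp (-u)) (-rexp (-s)) s := by
        have := (hasDerivAt_neg s).exp
        exact this.congr_deriv (by ring)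
      have h2 : HasDerivAt (fun u : ℝ => ∑ i ∈ Finset.range (n + 1),
          (-1) ^ i * u ^ i / (Nat.factorial i))
          (∑ i ∈ Finset.range (n + 1), (-1) ^ i * (i * s ^ (i - 1)) / (Nat.factorial i)) s := by
        apply HasDerivAt.fun_sum
        intro i _
        exact ((hasDerivAt_pow i s).const_mul _).div_const _
      have h3 : (∑ i ∈ Finset.range (n + 1), (-1) ^ i * (i * s ^ (i - 1)) / (Nat.factorial i) : ℝ)
          = -∑ i ∈ Finset.range n, (-1) ^ i * s ^ i / (Nat.factorial i) := by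
        rw [Finset.sum_range_succ', ← Finset.sum_neg_distrib]
        simp only [Nat.cast_zero, zero_mul, mul_zero, zero_div, add_zero]
        apply Finset.sum_congr rfl
        intro i _
        rw [Nat.factorial_succ, Nat.add_sub_cancel]
        have hf : (Nat.factorial i : ℝ) ≠ 0 := by positivity
        have hi : ((i : ℝ) + 1) ≠ 0 := by positivity
        push_cast
        field_simp
        ring
      have h4 := (h1.sub h2).const_mul ((-1 : ℝ) ^ (n + 1))
      rw [h3] at h4
      refine (h4.congr_deriv ?_).congr_of_eventuallyEq (Eventually.of_forall fun s => ?_)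
      · ring
      · simp only [hR, Pi.sub_apply]
    have hmono : MonotoneOn R (Ici 0) := by
      apply monotoneOn_of_deriv_nonneg (convex_Ici 0)
      · exact fun x _ => (hder x).continuousAt.continuousWithinAt
      · exact fun x _ => (hder x).differentiableAt.differentiableWithinAt
      · intro x hx
        rw [interior_Ici] at hx
        rw [(hder x).deriv]
        exact ih x (le_of_lt hx)
    have h0 : R 0 = 0 := by
      simp only [hR]
      rw [Finset.sum_range_succ']
      simp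
    have := hmono (mem_Ici.2 le_rfl) (mem_Ici.2 hu) hu
    rw [h0] at this
    exact this

theorem exp_ge_series (n : ℕ) (u : ℝ) (hu : 0 ≤ u) :
    ∑ i ∈ Finset.range (2 * n), (-1) ^ i * u ^ i / (Nat.factorial i) ≤ rexp (-u) := by
  have h := exp_partial (2 * n) u hu
  rw [pow_mul, neg_one_sq, one_pow, one_mul] at h
  linarith

theorem exp_le_series (n : ℕ) (u : ℝ) (hu : 0 ≤ u) :
    rexp (-u) ≤ ∑ i ∈ Finset.range (2 * n + 1), (-1) ^ i * u ^ i / (Nat.factorial i) := by
  have h := exp_partial (2 * n + 1) u hu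
  rw [pow_succ, pow_mul, neg_one_sq, one_pow, one_mul] at h
  linarith

/-- bounds for `gphi`. -/
theorem gphi_ge_series (n : ℕ) (y : ℝ) :
    (√(2 * π))⁻¹ * ∑ i ∈ Finset.range (2 * n), (-1) ^ i * (y ^ 2 / 2) ^ i / (Nat.factorial i) ≤ gphi y := by
  unfold gphi
  have h := exp_ge_series n (y ^ 2 / 2) (by positivity)
  rw [← neg_div] at h
  exact mul_le_mul_of_nonneg_left h (by positivity)

theorem gphi_le_series (n : ℕ) (y : ℝ) :
    gphi y ≤ (√(2 * π))⁻¹ * ∑ i ∈ Finset.range (2 * n + 1), (-1) ^ i * (y ^ 2 / 2) ^ i / (Nat.factorial i) := by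
  unfold gphi
  have h := exp_le_series n (y ^ 2 / 2) (by positivity)
  rw [← neg_div] at h
  exact mul_le_mul_of_nonneg_left h (by positivity)

/-- Partial sums of `∫_0^y exp(-t²/2) dt`: `gser n y = ∑_{i<n} (-1)^i y^(2i+1)/(2^i i! (2i+1))`. -/
noncomputable def gser (n : ℕ) (y : ℝ) : ℝ :=
  ∑ i ∈ Finset.range n, (-1) ^ i * y ^ (2 * i + 1) / (2 ^ i * (Nat.factorial i) * (2 * i + 1))

theorem hasDerivAt_gser (n : ℕ) (y : ℝ) :
    HasDerivAt (gser n) (∑ i ∈ Finset.range n, (-1) ^ i * (y ^ 2 / 2) ^ i / (Nat.factorial i)) y := by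
  unfold gser
  have h2 : HasDerivAt (fun u : ℝ => ∑ i ∈ Finset.range n,
      (-1) ^ i * u ^ (2 * i + 1) / (2 ^ i * (Nat.factorial i) * (2 * i + 1)))
      (∑ i ∈ Finset.range n, (-1) ^ i * (((2 * i + 1 : ℕ) : ℝ) * y ^ (2 * i + 1 - 1)) /
        (2 ^ i * (Nat.factorial i) * (2 * i + 1))) y := by
    apply HasDerivAt.fun_sum
    intro i _
    exact ((hasDerivAt_pow (2 * i + 1) y).const_mul _).div_const _
  refine h2.congr_deriv ?_
  apply Finset.sum_congr rfl
  intro i _
  rw [Nat.add_sub_cancel]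
  have hf : (Nat.factorial i : ℝ) ≠ 0 := by positivity
  have hi : (2 * (i : ℝ) + 1) ≠ 0 := by positivity
  push_cast
  rw [div_pow, ← pow_mul]
  field_simp

theorem gser_zero (n : ℕ) : gser n 0 = 0 := by
  unfold gser
  apply Finset.sum_eq_zero
  intro i _
  simp

/-- lower/upper bounds for `gQ` from an even / odd number of terms. -/
theorem gQ_le_series (n : ℕ) (y : ℝ) (hy : 0 ≤ y) : gQ y ≤ 1 / 2 - (√(2 * π))⁻¹ * gser (2 * n) y := by
  have hder : ∀ s, HasDerivAt (fun y => gQ y + (√(2 * π))⁻¹ * gser (2 * n) y)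
      (-gphi s + (√(2 * π))⁻¹ * ∑ i ∈ Finset.range (2 * n), (-1) ^ i * (s ^ 2 / 2) ^ i /
        (Nat.factorial i)) s := fun s =>
    (hasDerivAt_gQ s).add ((hasDerivAt_gser (2 * n) s).const_mul _)
  have hanti : Antitone (fun y => gQ y + (√(2 * π))⁻¹ * gser (2 * n) y) := by
    apply antitone_of_deriv_nonpos (fun s => (hder s).differentiableAt)
    intro s
    rw [(hder s).deriv]
    have := gphi_ge_series n s
    linarith
  have h := hanti hy
  simp only [gser_zero, gQ_zero] at h
  linarith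

theorem gQ_ge_series (n : ℕ) (y : ℝ) (hy : 0 ≤ y) :
    1 / 2 - (√(2 * π))⁻¹ * gser (2 * n + 1) y ≤ gQ y := by
  have hder : ∀ s, HasDerivAt (fun y => gQ y + (√(2 * π))⁻¹ * gser (2 * n + 1) y)
      (-gphi s + (√(2 * π))⁻¹ * ∑ i ∈ Finset.range (2 * n + 1), (-1) ^ i * (s ^ 2 / 2) ^ i /
        (Nat.factorial i)) s := fun s =>
    (hasDerivAt_gQ s).add ((hasDerivAt_gser (2 * n + 1) s).const_mul _)
  have hanti : Monotone (fun y => gQ y + (√(2 * π))⁻¹ * gser (2 * n + 1) y) := by
    apply monotone_of_deriv_nonneg (fun s => (hder s).differentiableAt)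
    intro s
    rw [(hder s).deriv]
    have := gphi_le_series n s
    linarith
  have h := hanti hy
  simp only [gser_zero, gQ_zero] at h
  linarith

theorem gQ_strictAnti' : StrictAnti gQ := by
  apply strictAnti_of_deriv_neg
  intro s
  rw [(hasDerivAt_gQ s).deriv]
  linarith [gphi_pos s]

theorem gQ_antitone : Antitone gQ := gQ_strictAnti'.antitone

theorem gQ_pos' (y : ℝ) : 0 < gQ y :=
  lt_of_le_of_lt (gQ_nonneg (y + 1)) (gQ_strictAnti' (by linarith))

theorem gphi_antitoneOn : AntitoneOn gphi (Ici 0) := by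
  apply antitoneOn_of_deriv_nonpos (convex_Ici 0)
  · exact fun x _ => (hasDerivAt_gphi x).continuousAt.continuousWithinAt
  · exact fun x _ => (hasDerivAt_gphi x).differentiableAt.differentiableWithinAt
  · intro x hx
    rw [interior_Ici] at hx
    rw [(hasDerivAt_gphi x).deriv]
    have h1 : 0 < x := hx
    have := mul_pos h1 (gphi_pos x)
    linarith

/-- `N(y) = y φ + (1 - y²) Q`. -/
noncomputable def gN (y : ℝ) : ℝ := y * gphi y + (1 - y ^ 2) * gQ y

theorem hasDerivAt_gN (y : ℝ) : HasDerivAt gN (-(2 * y * gQ y)) y := by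
  have h1 := ((hasDerivAt_id y).mul (hasDerivAt_gphi y)).add
    (((hasDerivAt_const y (1:ℝ)).sub (hasDerivAt_pow 2 y)).mul (hasDerivAt_gQ y))
  refine (h1.congr_deriv ?_).congr_of_eventuallyEq (Eventually.of_forall fun s => ?_)
  · simp only [id, Pi.sub_apply]
    ring
  · simp only [gN, id, Pi.mul_apply, Pi.add_apply, Pi.sub_apply]

theorem hasDerivAt_ell (y : ℝ) : HasDerivAt ell (-(gphi y * (y * gphi y + (1 - y ^ 2) * gQ y))) y := by
  have h1 := (hasDerivAt_gphi y).mul ((hasDerivAt_gphi y).sub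
    ((hasDerivAt_id y).mul (hasDerivAt_gQ y)))
  refine (h1.congr_deriv ?_).congr_of_eventuallyEq (Eventually.of_forall fun s => ?_)
  · simp only [id, Pi.sub_apply, Pi.mul_apply]
    ring
  · simp only [ell, id, Pi.mul_apply, Pi.sub_apply]

theorem gphi_sub_pos (y : ℝ) : 0 < gphi y - y * gQ y := by
  have hder : ∀ s, HasDerivAt (fun y => gphi y - y * gQ y) (-gQ s) s := by
    intro s
    have h1 := (hasDerivAt_gphi s).sub ((hasDerivAt_id s).mul (hasDerivAt_gQ s))
    refine (h1.congr_deriv ?_).congr_of_eventuallyEq (Eventually.of_forall fun s => ?_)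
    · simp only [id]
      ring
    · simp only [id, Pi.mul_apply, Pi.sub_apply]
  have hanti : StrictAnti (fun y => gphi y - y * gQ y) := by
    apply strictAnti_of_deriv_neg
    intro s
    rw [(hder s).deriv]
    linarith [gQ_pos' s]
  have h1 : 0 ≤ gphi (y + 1) - (y + 1) * gQ (y + 1) := by
    rw [← integral_pos_part]
    exact MeasureTheory.integral_nonneg fun x => le_max_right _ _
  exact lt_of_le_of_lt h1 (hanti (by linarith : y < y + 1))

theorem gN_pos {y : ℝ} (hy : 0 ≤ y) : 0 < gN y := by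
  unfold gN
  have h1 := gphi_pos y
  have h2 := gQ_pos' y
  have h3 := gphi_sub_pos y
  rcases le_total y 1 with h | h
  · rcases eq_or_lt_of_le hy with h0 | h0
    · rw [← h0]; simpa using gQ_pos' 0
    · have : 0 ≤ (1 - y ^ 2) * gQ y := mul_nonneg (by nlinarith) h2.le
      have := mul_pos h0 h1
      linarith
  · -- y Q < φ so (y²-1) Q < y φ
    have h4 : y * (y * gQ y) < y * gphi y := mul_lt_mul_of_pos_left (by linarith) (by linarith)
    nlinarith

theorem ell_pos (y : ℝ) : 0 < ell y := mul_pos (gphi_pos y) (gphi_sub_pos y)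

theorem ell_antitoneOn : AntitoneOn ell (Ici 0) := by
  apply antitoneOn_of_deriv_nonpos (convex_Ici 0)
  · exact fun x _ => (hasDerivAt_ell x).continuousAt.continuousWithinAt
  · exact fun x _ => (hasDerivAt_ell x).differentiableAt.differentiableWithinAt
  · intro x hx
    rw [interior_Ici] at hx
    rw [(hasDerivAt_ell x).deriv]
    have := mul_pos (gphi_pos x) (gN_pos (le_of_lt (show (0:ℝ) < x from hx)))
    unfold gN at this
    linarith

theorem gN_antitoneOn : AntitoneOn gN (Ici 0) := by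
  apply antitoneOn_of_deriv_nonpos (convex_Ici 0)
  · exact fun x _ => (hasDerivAt_gN x).continuousAt.continuousWithinAt
  · exact fun x _ => (hasDerivAt_gN x).differentiableAt.differentiableWithinAt
  · intro x hx
    rw [interior_Ici] at hx
    rw [(hasDerivAt_gN x).deriv]
    have := mul_pos (show (0:ℝ) < x from hx) (gQ_pos' x)
    linarith

/-- Mills, product form. -/
theorem mills' (y : ℝ) (hy : 0 ≤ y) : y * gphi y ≤ (1 + y ^ 2) * gQ y := by
  have h := mills y hy
  rw [div_le_iff₀ (by positivity)] at h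
  linarith

/-- Birnbaum: `l(y) ≤ Q(y)²`. -/
theorem ell_le_sq (y : ℝ) (hy : 0 ≤ y) : ell y ≤ gQ y ^ 2 := by
  have hder : ∀ s, HasDerivAt (fun y => gQ y ^ 2 - ell y)
      (-(gphi s * ((1 + s ^ 2) * gQ s - s * gphi s))) s := by
    intro s
    have h1 := ((hasDerivAt_gQ s).pow 2).sub (hasDerivAt_ell s)
    refine (h1.congr_deriv ?_).congr_of_eventuallyEq (Eventually.of_forall fun s => ?_)
    · norm_num
      ring
    · simp only [Pi.sub_apply, Pi.pow_apply]
  have hanti : AntitoneOn (fun y => gQ y ^ 2 - ell y) (Ici 0) := by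
    apply antitoneOn_of_deriv_nonpos (convex_Ici 0)
    · exact fun x _ => (hder x).continuousAt.continuousWithinAt
    · exact fun x _ => (hder x).differentiableAt.differentiableWithinAt
    · intro x hx
      rw [interior_Ici] at hx
      rw [(hder x).deriv]
      have h1 := mills' x (le_of_lt (show (0:ℝ) < x from hx))
      have := mul_nonneg (gphi_pos x).le (sub_nonneg.2 h1)
      linarith
  have hlim : Tendsto (fun T : ℝ => -gphi T ^ 2) atTop (𝓝 0) := by
    have := (tendsto_gphi_atTop.pow 2).neg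
    simpa using this
  have hge : ∀ᶠ T in atTop, -gphi T ^ 2 ≤ gQ y ^ 2 - ell y := by
    filter_upwards [eventually_ge_atTop y] with T hT
    have h5 := hanti (mem_Ici.2 hy) (mem_Ici.2 (hy.trans hT)) hT
    simp only at h5
    have h6 : ell T ≤ gphi T ^ 2 := by
      unfold ell
      have h7 : 0 ≤ T * gQ T := mul_nonneg (hy.trans hT) (gQ_nonneg T)
      have := gphi_pos T
      nlinarith
    nlinarith [sq_nonneg (gQ T)]
  have h8 := le_of_tendsto hlim hge
  linarith

theorem ell_zero : ell 0 = (√(2 * π))⁻¹ ^ 2 := by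
  unfold ell gphi
  simp
  ring

theorem gphi_zero : gphi 0 = (√(2 * π))⁻¹ := by
  unfold gphi
  simp

theorem inv_sqrt_sq : (√(2 * π))⁻¹ ^ 2 = 4 / 9 * M0 := by
  unfold M0
  rw [inv_pow, Real.sq_sqrt (by positivity)]
  field_simp
  norm_num

theorem ell_div_le {y : ℝ} (hy : 0 ≤ y) : ell y / M0 ≤ 4 / 9 := by
  rw [div_le_iff₀ M0_pos, ← inv_sqrt_sq, ← ell_zero]
  exact ell_antitoneOn (mem_Ici.2 le_rfl) (mem_Ici.2 hy) hy

theorem ell_div_pos (y : ℝ) : 0 < ell y / M0 := div_pos (ell_pos y) M0_pos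

theorem XE_antitoneOn (q : ℝ) (hq : q ≤ 4 / 3) (hq0 : 0 ≤ q) : AntitoneOn (XE q) (Ici 0) := by
  intro a ha b hb hab
  unfold XE
  have h1 : ell b / M0 ≤ ell a / M0 :=
    div_le_div_of_nonneg_right (ell_antitoneOn ha hb hab) M0_pos.le
  have h2 := ell_div_le (mem_Ici.1 ha)
  have h3 := ell_div_le (mem_Ici.1 hb)
  have h4 := ell_div_pos b
  set u := ell a / M0
  set v := ell b / M0
  have h5 : q * (u + v) ≤ 2 := by nlinarith
  nlinarith [mul_nonneg (sub_nonneg.2 h1) (sub_nonneg.2 h5)]

theorem XE_mono_q {q q' : ℝ} (h : q ≤ q') (y : ℝ) : XE q' y ≤ XE q y := by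
  unfold XE
  have := mul_le_mul_of_nonneg_right h (sq_nonneg (ell y / M0))
  linarith

theorem CellOK.mono_q {q q' x y : ℝ} (h : q ≤ q') (hc : CellOK q' x y) : CellOK q x y :=
  ⟨hc.x_pos, hc.y_nonneg, hc.cap, hc.del.trans (XE_mono_q h y)⟩

/-- the share is at most `4/9`. -/
theorem CellOK.x_le {q x y : ℝ} (hc : CellOK q x y) : x ≤ 4 / 9 := by
  have h1 := hc.cap
  have h2 : gphi y ^ 2 ≤ gphi 0 ^ 2 :=
    pow_le_pow_left₀ (gphi_pos y).le
      (gphi_antitoneOn (mem_Ici.2 le_rfl) (mem_Ici.2 hc.y_nonneg) hc.y_nonneg) 2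
  rw [gphi_zero, inv_sqrt_sq] at h2
  have h3 := M0_pos
  have h4 : M0 * x ≤ M0 * (4 / 9) := by linarith
  exact le_of_mul_le_mul_left h4 h3

/-- the density of `XE`: `D(y) = (2/M0) N(y) (1 - q ell/M0)`. -/
noncomputable def gD (q y : ℝ) : ℝ := 2 / M0 * gN y * (1 - q * (ell y / M0))

theorem hasDerivAt_XE (q y : ℝ) : HasDerivAt (XE q) (-(gphi y * gD q y)) y := by
  have h0 : HasDerivAt (fun y => ell y / M0) (-(gphi y * gN y) / M0) y :=
    (hasDerivAt_ell y).div_const M0
  have h1 := (h0.const_mul 2).sub ((h0.pow 2).const_mul q)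
  refine (h1.congr_deriv ?_).congr_of_eventuallyEq (Eventually.of_forall fun s => ?_)
  · unfold gD
    norm_num
    ring
  · simp only [XE, Pi.sub_apply, Pi.pow_apply]

theorem gD_antitoneOn (q : ℝ) (hq0 : 0 ≤ q) (hq : q ≤ 5 / 4) : AntitoneOn (gD q) (Ici 0.48) := by
  have hder : ∀ s : ℝ, HasDerivAt (gD q)
      (-(2 / M0 * (2 * s * gQ s * (1 - q * (ell s / M0)) - q * gphi s * gN s ^ 2 / M0))) s := by
    intro s
    have h0 : HasDerivAt (fun y => ell y / M0) (-(gphi s * gN s) / M0) s :=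
      (hasDerivAt_ell s).div_const M0
    have h1 := ((hasDerivAt_gN s).const_mul (2 / M0)).mul
      ((hasDerivAt_const s (1:ℝ)).sub (h0.const_mul q))
    refine (h1.congr_deriv ?_).congr_of_eventuallyEq (Eventually.of_forall fun s => ?_)
    · simp only [Pi.sub_apply]
      ring
    · simp only [gD, Pi.mul_apply, Pi.sub_apply]
  -- the ratio `y Q / φ` is increasing
  have hr : MonotoneOn (fun y => y * gQ y / gphi y) (Ici 0.48) := by
    have hd : ∀ s, HasDerivAt (fun y => y * gQ y / gphi y)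
        (((1 + s ^ 2) * gQ s - s * gphi s) / gphi s) s := by
      intro s
      have hne := (gphi_pos s).ne'
      have h1 := ((hasDerivAt_id s).mul (hasDerivAt_gQ s)).div (hasDerivAt_gphi s) hne
      refine (h1.congr_deriv ?_).congr_of_eventuallyEq (Eventually.of_forall fun s => ?_)
      · simp only [id, Pi.mul_apply]
        field_simp
        ring
      · simp only [id, Pi.mul_apply, Pi.div_apply]
    apply monotoneOn_of_deriv_nonneg (convex_Ici _)
    · exact fun x _ => (hd x).continuousAt.continuousWithinAt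
    · exact fun x _ => (hd x).differentiableAt.differentiableWithinAt
    · intro x hx
      rw [interior_Ici] at hx
      rw [(hd x).deriv]
      have hx0 : (0:ℝ) ≤ x := by have : (0.48:ℝ) < x := hx; linarith
      exact div_nonneg (by linarith [mills' x hx0]) (gphi_pos x).le
  -- numerical values at `0.48`
  have hnum : 0 ≤ 2 * (0.48 * gQ 0.48 / gphi 0.48) * (1 - q * (ell 0.48 / M0))
      - q * gN 0.48 ^ 2 / M0 := by
    have hQl := gQ_ge_series 3 0.48 (by norm_num)
    have hQu := gQ_le_series 3 0.48 (by norm_num)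
    have hpl := gphi_ge_series 3 0.48
    have hpu := gphi_le_series 3 0.48
    have hc := inv_sqrt_two_pi_bounds
    have hM := M0_bounds
    simp only [gser, Finset.sum_range_succ, Finset.sum_range_zero, Nat.factorial] at hQl hQu hpl hpu
    set c := (√(2 * π))⁻¹ with hcdef
    norm_num at hQl hQu hpl hpu hc
    have hQ1 : 0.315612 ≤ gQ 0.48 := by norm_num at hQl ⊢; linarith [hc.1, hc.2]
    have hQ2 : gQ 0.48 ≤ 0.315615 := by norm_num at hQu ⊢; linarith [hc.1, hc.2]
    have hp1 : 0.355531 ≤ gphi 0.48 := by norm_num at hpl ⊢; linarith [hc.1, hc.2]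
    have hp2 : gphi 0.48 ≤ 0.355534 := by norm_num at hpu ⊢; linarith [hc.1, hc.2]
    have hrat : 0.4261 ≤ 0.48 * gQ 0.48 / gphi 0.48 := by
      rw [le_div_iff₀ (gphi_pos _)]
      norm_num at *
      linarith
    have hell : ell 0.48 / M0 ≤ 0.2026 := by
      rw [div_le_iff₀ M0_pos]
      have : ell 0.48 ≤ 0.355534 * (0.355534 - 0.48 * 0.315612) := by
        unfold ell
        apply mul_le_mul hp2 _ (gphi_sub_pos _).le (by norm_num)
        norm_num at *
        linarith
      norm_num at *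
      linarith
    have hN : gN 0.48 ≤ 0.41356 := by
      unfold gN
      norm_num at *
      linarith
    have hN0 : 0 < gN 0.48 := gN_pos (by norm_num)
    have hN2 : gN 0.48 ^ 2 / M0 ≤ 0.41356 ^ 2 / 0.3580986 := by
      apply div_le_div₀ (by norm_num) (pow_le_pow_left₀ hN0.le hN 2) (by norm_num) hM.1.le
    have h5 : q * (ell 0.48 / M0) ≤ 5 / 4 * 0.2026 :=
      mul_le_mul hq hell (ell_div_pos _).le (by norm_num)
    have h6 : q * (gN 0.48 ^ 2 / M0) ≤ 5 / 4 * (0.41356 ^ 2 / 0.3580986) :=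
      mul_le_mul hq hN2 (div_nonneg (sq_nonneg _) M0_pos.le) (by norm_num)
    have h7 : 0.4261 * (1 - 5 / 4 * 0.2026) ≤
        0.48 * gQ 0.48 / gphi 0.48 * (1 - q * (ell 0.48 / M0)) := by
      apply mul_le_mul hrat (by linarith) (by norm_num)
      exact le_trans (by norm_num) hrat
    have h8 : (0.6:ℝ) ≤ 2 * (0.4261 * (1 - 5 / 4 * 0.2026)) := by norm_num
    have h9 : 5 / 4 * (0.41356 ^ 2 / 0.3580986) ≤ (0.6:ℝ) := by norm_num
    have e1 : 2 * (0.48 * gQ 0.48 / gphi 0.48) * (1 - q * (ell 0.48 / M0)) - q * gN 0.48 ^ 2 / M0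
      = 2 * (0.48 * gQ 0.48 / gphi 0.48 * (1 - q * (ell 0.48 / M0))) - q * (gN 0.48 ^ 2 / M0) := by
      ring
    rw [e1]
    linarith only [h6, h7, h8, h9]
  apply antitoneOn_of_deriv_nonpos (convex_Ici _)
  · exact fun x _ => (hder x).continuousAt.continuousWithinAt
  · exact fun x _ => (hder x).differentiableAt.differentiableWithinAt
  · intro x hx
    rw [interior_Ici] at hx
    rw [(hder x).deriv]
    have hx1 : (0.48:ℝ) ≤ x := le_of_lt hx
    have hx0 : (0:ℝ) ≤ x := by linarith
    have h048 : (0:ℝ) ≤ 0.48 := by norm_num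
    have hp := gphi_pos x
    have h1 := hr (mem_Ici.2 le_rfl) (mem_Ici.2 hx1) hx1
    simp only at h1
    have h2 : ell x / M0 ≤ ell 0.48 / M0 :=
      div_le_div_of_nonneg_right (ell_antitoneOn (mem_Ici.2 h048) (mem_Ici.2 hx0) hx1) M0_pos.le
    have h3 : gN x ≤ gN 0.48 := gN_antitoneOn (mem_Ici.2 h048) (mem_Ici.2 hx0) hx1
    have h4 := gN_pos hx0
    have h5 : gN x ^ 2 ≤ gN 0.48 ^ 2 := pow_le_pow_left₀ h4.le h3 2
    have h6 : q * gN x ^ 2 / M0 ≤ q * gN 0.48 ^ 2 / M0 :=
      div_le_div_of_nonneg_right (mul_le_mul_of_nonneg_left h5 hq0) M0_pos.le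
    have h7 : q * (ell x / M0) ≤ q * (ell 0.48 / M0) := mul_le_mul_of_nonneg_left h2 hq0
    have h8 : 0 ≤ 1 - q * (ell 0.48 / M0) := by
      have := ell_div_le h048
      nlinarith
    have h9 : 2 * (0.48 * gQ 0.48 / gphi 0.48) * (1 - q * (ell 0.48 / M0)) ≤
        2 * (x * gQ x / gphi x) * (1 - q * (ell x / M0)) := by
      apply mul_le_mul (by linarith) (by linarith) h8
      have : 0 ≤ x * gQ x / gphi x := div_nonneg (mul_nonneg hx0 (gQ_nonneg x)) hp.le
      linarith
    have h10 : 0 ≤ 2 * (x * gQ x / gphi x) * (1 - q * (ell x / M0)) - q * gN x ^ 2 / M0 := by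
      linarith
    have h11 : 2 * x * gQ x * (1 - q * (ell x / M0)) - q * gphi x * gN x ^ 2 / M0 =
        gphi x * (2 * (x * gQ x / gphi x) * (1 - q * (ell x / M0)) - q * gN x ^ 2 / M0) := by
      field_simp
    rw [h11]
    have := mul_nonneg hp.le h10
    have h12 : 0 ≤ 2 / M0 := by have := M0_pos; positivity
    have := mul_nonneg h12 this
    linarith

/-- **Quasi-concavity**: on `[0.48, ∞)`, `Q - m X_E` is at least the minimum of the endpoint
values (`0 ≤ q ≤ 5/4`). -/
theorem quasi_E (q m y1 y2 y : ℝ) (hq0 : 0 ≤ q) (hq : q ≤ 5 / 4) (hm : 0 ≤ m) (h1 : 0.48 ≤ y1)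
    (hy1 : y1 ≤ y) (hy2 : y ≤ y2) :
    min (gQ y1 - m * XE q y1) (gQ y2 - m * XE q y2) ≤ gQ y - m * XE q y := by
  set g : ℝ → ℝ := fun y => gQ y - m * XE q y with hg
  have hder : ∀ s : ℝ, HasDerivAt g (-(gphi s * (1 - m * gD q s))) s := by
    intro s
    have h := (hasDerivAt_gQ s).sub ((hasDerivAt_XE q s).const_mul m)
    refine (h.congr_deriv ?_).congr_of_eventuallyEq (Eventually.of_forall fun s => ?_)
    · ring
    · simp only [hg, Pi.sub_apply]
  by_contra hcon
  rw [not_le, lt_min_iff] at hcon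
  obtain ⟨ha, hb⟩ := hcon
  have hlt1 : y1 < y := lt_of_le_of_ne hy1 (by rintro rfl; exact lt_irrefl _ ha)
  have hlt2 : y < y2 := lt_of_le_of_ne hy2 (by rintro rfl; exact lt_irrefl _ hb)
  obtain ⟨c1, hc1, hc1'⟩ := exists_hasDerivAt_eq_slope g _ hlt1
      (fun x _ => (hder x).continuousAt.continuousWithinAt) (fun x _ => hder x)
  obtain ⟨c2, hc2, hc2'⟩ := exists_hasDerivAt_eq_slope g _ hlt2
      (fun x _ => (hder x).continuousAt.continuousWithinAt) (fun x _ => hder x)
  have hs1 : (g y - g y1) / (y - y1) < 0 := div_neg_of_neg_of_pos (sub_neg.2 ha) (sub_pos.2 hlt1)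
  have hs2 : 0 < (g y2 - g y) / (y2 - y) := div_pos (sub_pos.2 hb) (sub_pos.2 hlt2)
  have e1 : 0 < 1 - m * gD q c1 := by
    have h2 : 0 < gphi c1 * (1 - m * gD q c1) := by
      have := hc1'.symm ▸ hs1
      linarith
    exact (pos_iff_pos_of_mul_pos h2).1 (gphi_pos c1)
  have e2 : 1 - m * gD q c2 < 0 := by
    have h2 : gphi c2 * (1 - m * gD q c2) < 0 := by
      have := hc2'.symm ▸ hs2
      linarith
    by_contra hcon
    have := mul_nonneg (gphi_pos c2).le (not_lt.1 hcon)
    linarith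
  have h3 : gD q c2 ≤ gD q c1 := gD_antitoneOn q hq0 hq (mem_Ici.2 (h1.trans hc1.1.le))
    (mem_Ici.2 ((h1.trans hy1).trans hc2.1.le)) (hc1.2.trans hc2.1).le
  have h4 := mul_le_mul_of_nonneg_left h3 hm
  linarith

/-- On the cap part `Q - m φ²/M0` decreases in `y` as long as `2 m y φ(y) ≤ M0`. -/
theorem cap_anti (m Y : ℝ) (hm : 0 ≤ m) (hY : Y ≤ 1) (h : 2 * m * Y * gphi Y ≤ M0) :
    AntitoneOn (fun y => gQ y - m * (gphi y ^ 2 / M0)) (Icc 0 Y) := by
  have hder : ∀ s, HasDerivAt (fun y => gQ y - m * (gphi y ^ 2 / M0))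
      (-(gphi s * (1 - 2 * m * s * gphi s / M0))) s := by
    intro s
    have h1 := (hasDerivAt_gQ s).sub ((((hasDerivAt_gphi s).pow 2).div_const M0).const_mul m)
    refine (h1.congr_deriv ?_).congr_of_eventuallyEq (Eventually.of_forall fun s => ?_)
    · norm_num
      ring
    · simp only [Pi.sub_apply, Pi.pow_apply]
  have hmono : MonotoneOn (fun y => y * gphi y) (Icc 0 1) := by
    have hd : ∀ s, HasDerivAt (fun y => y * gphi y) ((1 - s ^ 2) * gphi s) s := by
      intro s
      have h1 := (hasDerivAt_id s).mul (hasDerivAt_gphi s)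
      refine (h1.congr_deriv ?_).congr_of_eventuallyEq (Eventually.of_forall fun s => ?_)
      · simp only [id]
        ring
      · simp only [id, Pi.mul_apply]
    apply monotoneOn_of_deriv_nonneg (convex_Icc 0 1)
    · exact fun x _ => (hd x).continuousAt.continuousWithinAt
    · exact fun x _ => (hd x).differentiableAt.differentiableWithinAt
    · intro x hx
      rw [interior_Icc] at hx
      rw [(hd x).deriv]
      exact mul_nonneg (by nlinarith [hx.1, hx.2]) (gphi_pos x).le
  apply antitoneOn_of_deriv_nonpos (convex_Icc 0 Y)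
  · exact fun x _ => (hder x).continuousAt.continuousWithinAt
  · exact fun x _ => (hder x).differentiableAt.differentiableWithinAt
  · intro x hx
    rw [interior_Icc] at hx
    rw [(hder x).deriv]
    have h2 := hmono (a := x) (b := Y) ⟨hx.1.le, hx.2.le.trans hY⟩ ⟨hx.1.le.trans hx.2.le, hY⟩ hx.2.le
    simp only at h2
    have h3 : 2 * m * x * gphi x / M0 ≤ 1 := by
      rw [div_le_one M0_pos]
      have := mul_le_mul_of_nonneg_left h2 hm
      linarith
    have := mul_nonneg (gphi_pos x).le (sub_nonneg.2 h3)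
    linarith

end Vale.Agent.P226
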