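import Vale.Agent.P226.Full.Defs

/-!
# P226: reduced (numerical) configuration
`x i = |z i|^2 / M0` normalised shares, `gQ (y i)` the Gaussian areas.
-/

namespace Vale.Agent.P226

open Real

/-- Upper bound for the normalised share coming from the deletion inequality. -/
noncomputable def XE (q y : ℝ) : ℝ := 2 * (ell y / M0) - q * (ell y / M0) ^ 2

/-- Constraints on one cell. -/
structure CellOK (q x y : ℝ) : Prop where
  x_pos : 0 < x
  y_nonneg : 0 ≤ y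
  cap : M0 * x ≤ gphi y ^ 2
  del : x ≤ XE q y

/-- sum of the shares outside of the triple `a, b, t`. -/
noncomputable def rest {k : ℕ} (x : Fin k → ℝ) (a b t : Fin k) : ℝ :=
  ∑ m ∈ ((Finset.univ.erase a).erase b).erase t, x m

/-- left-hand side of the facet inequality, with `c² ≥ Z / C`. -/
noncomputable def lhsW {k : ℕ} (C : ℝ) (x : Fin k → ℝ) (a b t : Fin k) (Z : ℝ) : ℝ :=
  ∑ m ∈ ((Finset.univ.erase a).erase b).erase t, arctan (√(C * x m / Z))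
    + arcsin (√(C * rest x a b t / (9 * Z)))

/-- The reduced configuration. -/
structure Red (k : ℕ) (q : ℝ) (x y : Fin k → ℝ) : Prop where
  cell : ∀ i, CellOK q (x i) (y i)
  sum : 1 < ∑ i, x i
  area : ∑ i, gQ (y i) = 1
  w12 : ∀ a b t : Fin k, a ≠ b → a ≠ t → b ≠ t →
    (∀ i ∈ ({a, b, t} : Set (Fin k)), ∀ j ∈ ({a, b, t} : Set (Fin k)), x i ≤ 2.5 * x j) →
    ∃ Z : ℝ, 0 < Z ∧ ∑ i, x i - 2 * rest x a b t ≤ Z ∧ Z ≤ ∑ i, x i - rest x a b t ∧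
      π * (1 - 3 / (k : ℝ) * √Z) ≤ lhsW 12 x a b t Z
  w13 : ∀ a b t : Fin k, a ≠ b → a ≠ t → b ≠ t →
    (∀ i ∈ ({a, b, t} : Set (Fin k)), ∀ j ∈ ({a, b, t} : Set (Fin k)), x i ≤ 3 * x j) →
    ∃ Z : ℝ, 0 < Z ∧ ∑ i, x i - 2 * rest x a b t ≤ Z ∧ Z ≤ ∑ i, x i - rest x a b t ∧
      π * (1 - 3 / (k : ℝ) * √Z) ≤ lhsW 13 x a b t Z

end Vale.Agent.P226
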