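import Vale.Agent.P226.Full.Ortho

/-! Spherical coordinates for the standard Gaussian measure on `ℝ × ℝ × ℝ`, via two uses of
polar coordinates in the plane. -/

namespace Vale.Agent.P226

open MeasureTheory ProbabilityTheory Real Set Filter Topology
open scoped ENNReal

/-- the standard Gaussian measure on the line -/
noncomputable abbrev g1 : Measure ℝ := gaussianReal 0 1

/-- the standard Gaussian measure on `ℝ × ℝ × ℝ` -/
noncomputable def g3 : Measure (ℝ × ℝ × ℝ) := g1.prod (g1.prod g1)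

noncomputable instance : IsProbabilityMeasure g3 := by
  unfold g3; infer_instance

/-- density -/
noncomputable def sq1 (x : ℝ) : ℝ≥0∞ := ENNReal.ofReal (gphi x)

lemma sq1_meas : Measurable sq1 := by
  unfold sq1
  exact ENNReal.measurable_ofReal.comp continuous_gphi.measurable

lemma g1_eq : g1 = volume.withDensity sq1 := by
  have h : g1 = volume.withDensity (gaussianPDF 0 1) := gaussianReal_of_var_ne_zero 0 one_ne_zero
  rw [h]
  congr 1
  funext x
  unfold gaussianPDF sq1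
  rw [gphi_eq_pdf]

lemma polar_iter (f : ℝ × ℝ → ℝ≥0∞) (hf : Measurable f) :
    ∫⁻ p, f p = ∫⁻ r in Ioi (0:ℝ), ∫⁻ θ in Ioo (-π) π,
      ENNReal.ofReal r * f (r * cos θ, r * sin θ) := by
  rw [← lintegral_comp_polarCoord_symm]
  have ht : polarCoord.target = Ioi (0 : ℝ) ×ˢ Ioo (-π) π := rfl
  rw [ht, Measure.volume_eq_prod, ← Measure.prod_restrict, lintegral_prod]
  · rfl
  · have h1 : Measurable fun p : ℝ × ℝ => (p.1 * cos p.2, p.1 * sin p.2) := by fun_prop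
    have h2 : Measurable fun p : ℝ × ℝ => ENNReal.ofReal p.1 := by fun_prop
    exact (h2.mul (hf.comp h1)).aemeasurable

lemma gphi_mul3 (x ρ θ : ℝ) :
    gphi x * (gphi (ρ * cos θ) * gphi (ρ * sin θ)) =
      (√(2 * π))⁻¹ ^ 3 * rexp (-(x ^ 2 + ρ ^ 2) / 2) := by
  unfold gphi
  have h : rexp (-(x ^ 2 + ρ ^ 2) / 2) = rexp (-(x ^ 2) / 2) *
      (rexp (-((ρ * cos θ) ^ 2) / 2) * rexp (-((ρ * sin θ) ^ 2) / 2)) := by
    rw [← Real.exp_add, ← Real.exp_add]
    congr 1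
    have := sin_sq_add_cos_sq θ
    have h2 : (ρ * cos θ) ^ 2 + (ρ * sin θ) ^ 2 = ρ ^ 2 := by
      calc (ρ * cos θ) ^ 2 + (ρ * sin θ) ^ 2 = ρ ^ 2 * (sin θ ^ 2 + cos θ ^ 2) := by ring
        _ = ρ ^ 2 := by rw [this, mul_one]
    linarith
  rw [h]
  ring

/-- radial weight -/
noncomputable def rad (k : ℕ) : ℝ≥0∞ :=
  ∫⁻ R in Ioi (0:ℝ), ENNReal.ofReal (R ^ (k + 2) * ((√(2 * π))⁻¹ ^ 3 * rexp (-(R ^ 2) / 2)))

/-- spherical average -/
noncomputable def sph (f : ℝ × ℝ × ℝ → ℝ≥0∞) : ℝ≥0∞ :=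
  ∫⁻ θ in Ioo (-π) π, ∫⁻ φ in Ioo (-π) π,
    ENNReal.ofReal (cos φ) * f (sin φ, cos φ * cos θ, cos φ * sin θ)

theorem spherical (f : ℝ × ℝ × ℝ → ℝ≥0∞) (hf : Measurable f) (k : ℕ)
    (hom : ∀ c : ℝ, 0 < c → ∀ y, f (c • y) = ENNReal.ofReal (c ^ k) * f y) :
    ∫⁻ y, f y ∂g3 = rad k * sph f := by
  have hq := sq1_meas
  have hdens : g3 = (volume : Measure (ℝ × ℝ × ℝ)).withDensity
      (fun z => sq1 z.1 * (sq1 z.2.1 * sq1 z.2.2)) := by
    unfold g3
    rw [g1_eq, prod_withDensity hq hq, prod_withDensity hq (by fun_prop)]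
    rfl
  have hjoint : Measurable fun z : ℝ × ℝ × ℝ => sq1 z.1 * (sq1 z.2.1 * sq1 z.2.2) := by fun_prop
  -- the kernel
  set K : ℝ → ℝ → ℝ → ℝ≥0∞ := fun θ x ρ => ENNReal.ofReal ρ *
    (sq1 x * (sq1 (ρ * cos θ) * sq1 (ρ * sin θ)) * f (x, ρ * cos θ, ρ * sin θ)) with hK
  have hKm : Measurable fun z : ℝ × ℝ × ℝ => K z.1 z.2.1 z.2.2 := by
    have h1 : Measurable fun z : ℝ × ℝ × ℝ =>
      (z.2.1, z.2.2 * cos z.1, z.2.2 * sin z.1) := by fun_prop
    have h2 := hf.comp h1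
    have h3 : Measurable fun z : ℝ × ℝ × ℝ => sq1 z.2.1 *
      (sq1 (z.2.2 * cos z.1) * sq1 (z.2.2 * sin z.1)) := by fun_prop
    have h4 : Measurable fun z : ℝ × ℝ × ℝ => ENNReal.ofReal z.2.2 := by fun_prop
    exact h4.mul (h3.mul h2)
  have step1 : ∫⁻ y, f y ∂g3 = ∫⁻ x : ℝ, ∫⁻ ρ in Ioi (0:ℝ), ∫⁻ θ in Ioo (-π) π, K θ x ρ := by
    rw [hdens, lintegral_withDensity_eq_lintegral_mul _ hjoint hf, Measure.volume_eq_prod,
      lintegral_prod _ (hjoint.mul hf).aemeasurable]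
    refine lintegral_congr fun x => ?_
    rw [polar_iter]
    · rfl
    · exact (hjoint.mul hf).comp (by fun_prop : Measurable fun p : ℝ × ℝ => (x, p))
  have step2 : ∫⁻ x : ℝ, ∫⁻ ρ in Ioi (0:ℝ), ∫⁻ θ in Ioo (-π) π, K θ x ρ =
      ∫⁻ θ in Ioo (-π) π, ∫⁻ ρ : ℝ, ∫⁻ x : ℝ, K θ x ρ := by
    have e1 : ∀ x : ℝ, ∫⁻ ρ in Ioi (0:ℝ), ∫⁻ θ in Ioo (-π) π, K θ x ρ =
        ∫⁻ θ in Ioo (-π) π, ∫⁻ ρ in Ioi (0:ℝ), K θ x ρ := by
      intro x
      rw [lintegral_lintegral_swap]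
      have : Measurable fun z : ℝ × ℝ => K z.2 x z.1 :=
        hKm.comp (by fun_prop : Measurable fun z : ℝ × ℝ => (z.2, x, z.1))
      exact this.aemeasurable
    have e2 : ∀ θ x : ℝ, ∫⁻ ρ in Ioi (0:ℝ), K θ x ρ = ∫⁻ ρ : ℝ, K θ x ρ := by
      intro θ x
      rw [← lintegral_indicator measurableSet_Ioi]
      refine lintegral_congr fun ρ => ?_
      by_cases hρ : ρ ∈ Ioi (0:ℝ)
      · rw [indicator_of_mem hρ]
      · rw [indicator_of_notMem hρ]
        simp only [hK]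
        rw [ENNReal.ofReal_of_nonpos (by simpa using hρ), zero_mul]
    simp_rw [e1, e2]
    rw [lintegral_lintegral_swap]
    · refine lintegral_congr fun θ => ?_
      rw [lintegral_lintegral_swap]
      have : Measurable fun z : ℝ × ℝ => K θ z.1 z.2 :=
        hKm.comp (by fun_prop : Measurable fun z : ℝ × ℝ => (θ, z.1, z.2))
      exact this.aemeasurable
    · have : Measurable fun z : ℝ × ℝ => ∫⁻ ρ : ℝ, K z.2 z.1 ρ := by
        have h5 : Measurable fun z : (ℝ × ℝ) × ℝ => K z.1.2 z.1.1 z.2 :=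
          hKm.comp (by fun_prop : Measurable fun z : (ℝ × ℝ) × ℝ => (z.1.2, z.1.1, z.2))
        exact h5.lintegral_prod_right'
      exact this.aemeasurable
  have step3 : ∀ θ : ℝ, ∫⁻ ρ : ℝ, ∫⁻ x : ℝ, K θ x ρ =
      rad k * ∫⁻ φ in Ioo (-π) π,
        ENNReal.ofReal (cos φ) * f (sin φ, cos φ * cos θ, cos φ * sin θ) := by
    intro θ
    have hm : Measurable fun z : ℝ × ℝ => K θ z.2 z.1 :=
      hKm.comp (by fun_prop : Measurable fun z : ℝ × ℝ => (θ, z.2, z.1))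
    have e1 : ∫⁻ ρ : ℝ, ∫⁻ x : ℝ, K θ x ρ = ∫⁻ p : ℝ × ℝ, K θ p.2 p.1 := by
      rw [Measure.volume_eq_prod, lintegral_prod _ hm.aemeasurable]
    rw [e1, polar_iter _ hm]
    have e2 : ∀ R ∈ Ioi (0:ℝ), ∫⁻ φ in Ioo (-π) π,
        ENNReal.ofReal R * K θ (R * sin φ) (R * cos φ) =
        ENNReal.ofReal (R ^ (k + 2) * ((√(2 * π))⁻¹ ^ 3 * rexp (-(R ^ 2) / 2))) *
          ∫⁻ φ in Ioo (-π) π,
            ENNReal.ofReal (cos φ) * f (sin φ, cos φ * cos θ, cos φ * sin θ) := by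
      intro R hR
      have hR' : (0:ℝ) < R := hR
      rw [← lintegral_const_mul]
      · refine lintegral_congr fun φ => ?_
        simp only [hK]
        have h1 : ((R * sin φ, R * cos φ * cos θ, R * cos φ * sin θ) : ℝ × ℝ × ℝ) =
            R • (sin φ, cos φ * cos θ, cos φ * sin θ) := by
          simp only [Prod.smul_mk, smul_eq_mul, Prod.mk.injEq, true_and]
          constructor <;> ring
        rw [h1, hom R hR']
        have h2 : sq1 (R * sin φ) * (sq1 (R * cos φ * cos θ) * sq1 (R * cos φ * sin θ)) =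
            ENNReal.ofReal ((√(2 * π))⁻¹ ^ 3 * rexp (-(R ^ 2) / 2)) := by
          unfold sq1
          rw [← ENNReal.ofReal_mul (gphi_pos _).le, ← ENNReal.ofReal_mul (gphi_pos _).le,
            gphi_mul3]
          congr 4
          have h3 : (R * sin φ) ^ 2 + (R * cos φ) ^ 2 = R ^ 2 := by
            calc (R * sin φ) ^ 2 + (R * cos φ) ^ 2 = R ^ 2 * (sin φ ^ 2 + cos φ ^ 2) := by ring
              _ = R ^ 2 := by rw [sin_sq_add_cos_sq, mul_one]
          rw [h3]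
        rw [h2, ENNReal.ofReal_mul hR'.le, ENNReal.ofReal_mul (by positivity : 0 ≤ R ^ (k + 2)),
          pow_add, ENNReal.ofReal_mul (by positivity : 0 ≤ R ^ k), pow_two,
          ENNReal.ofReal_mul hR'.le]
        ring
      · have h4 : Measurable fun φ : ℝ => (sin φ, cos φ * cos θ, cos φ * sin θ) := by fun_prop
        have h5 : Measurable fun φ : ℝ => ENNReal.ofReal (cos φ) := by fun_prop
        exact h5.mul (hf.comp h4)
    rw [setLIntegral_congr_fun measurableSet_Ioi e2, lintegral_mul_const]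
    · rfl
    · fun_prop
  rw [step1, step2]
  simp_rw [step3]
  unfold sph
  rw [lintegral_const_mul]
  have h6 : Measurable fun z : ℝ × ℝ => ENNReal.ofReal (cos z.2) *
      f (sin z.2, cos z.2 * cos z.1, cos z.2 * sin z.1) := by
    have h4 : Measurable fun z : ℝ × ℝ => (sin z.2, cos z.2 * cos z.1, cos z.2 * sin z.1) := by
      fun_prop
    have h5 : Measurable fun z : ℝ × ℝ => ENNReal.ofReal (cos z.2) := by fun_prop
    exact h5.mul (hf.comp h4)
  exact h6.lintegral_prod_right'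

end Vale.Agent.P226
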